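import Vale.Agent.P366L.Cls
import Vale.Agent.P366S.Flat

/-!
# P366L: the size of the set of the points of high density
-/

set_option linter.unusedSectionVars false

open MeasureTheory Set Filter Topology Metric
open scoped ContDiff RealInnerProductSpace ENNReal NNReal
open Vale.Agent.P366.Stmt Vale.Agent.P366W
open Vale.Agent.P098.H246 (ct ct_image_le density exists_cover)

noncomputable section

namespace Vale.Agent.P366L

/-- the points where the density ratios of the family are large at arbitrarily small scales -/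
def Bad {n : ℕ} {ι : Type} (𝒰 : Ultrafilter ι) (S : ι → Surf (n + 1)) (ε : ℝ) : Set (E (n + 1)) :=
  {x | ∃ᶠ l in 𝓝[>] (0 : ℝ), ∀ᶠ i in (𝒰 : Filter ι), 1 + ε ≤ (S i).th x l}

theorem not_bad {n : ℕ} {ι : Type} {𝒰 : Ultrafilter ι} {S : ι → Surf (n + 1)} {ε : ℝ}
    {x : E (n + 1)} (h : x ∉ Bad 𝒰 S ε) :
    ∀ᶠ l in 𝓝[>] (0 : ℝ), ∀ᶠ i in (𝒰 : Filter ι), (S i).th x l ≤ 1 + ε :=
  (not_frequently.1 h).mono fun _ hl =>
    (Ultrafilter.eventually_not.2 hl).mono fun _ hi => (not_le.1 hi).le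

theorem exists_ulim {V ι : Type} [NormedAddCommGroup V] [ProperSpace V] (𝒰 : Ultrafilter ι)
    {f : ι → V} {C : ℝ} (h : ∀ᶠ i in (𝒰 : Filter ι), ‖f i‖ ≤ C) : ∃ a, Tendsto f 𝒰 (𝓝 a) := by
  obtain ⟨a, -, ha⟩ := (isCompact_closedBall (0 : V) C).ultrafilter_le_nhds' (𝒰.map f)
    (h.mono fun i hi => mem_closedBall_zero_iff.2 hi)
  exact ⟨a, ha⟩

/-- the blow-up of a family at the point `x` -/
theorem bad_blow {n : ℕ} {ι : Type} {𝒰 : Ultrafilter ι} {S : ι → Surf (n + 1)}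
    {x₀ x : E (n + 1)} {R η Λ ε : ℝ}
    (ok : ∀ᶠ i in (𝒰 : Filter ι), (S i).Ok ∧ (S i).Bd x₀ R η Λ) (hη : η ≤ 1 / 2)
    (hx : x ∈ ball x₀ R) {r : ℕ → ℝ} (hp : ∀ j, 0 < r j)
    (hr1 : Tendsto r (hyperfilter ℕ) (𝓝 0)) : ∃ μ' ∈ CL n, ∃ A : E (n + 1) →L[ℝ] E (n + 1),
      ∀ δ ≤ ε, ∀ (y : ℕ → E (n + 1)) (y₀ : E (n + 1)),
        (∀ᶠ j in (hyperfilter ℕ : Filter ℕ), x + r j • y j ∈ Bad 𝒰 S ε) →
        Tendsto y (hyperfilter ℕ) (𝓝 y₀) → y₀ ∈ A '' Sg n δ μ' := by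
  obtain ⟨ρ, hρ, hρ'⟩ := Metric.isOpen_iff.1 isOpen_ball x hx
  obtain ⟨C, hC, hN⟩ := P366W.nrm n
  obtain ⟨C', hC', hM⟩ := P366W.mono n
  obtain ⟨T, hT⟩ := (ok.mono fun i hi => hN (S i) x₀ x R η Λ hi.1 hi.2 hη hx).choice
  have hs : Tendsto (fun j => √(r j)) (hyperfilter ℕ) (𝓝 0) := by simpa using hr1.sqrt
  have hsp : ∀ j, 0 < √(r j) := fun j => Real.sqrt_pos.2 (hp j)
  have e1 : ∀ j, r j * (√(r j))⁻¹ = √(r j) := fun j => by
    rw [mul_inv_eq_iff_eq_mul₀ (hsp j).ne', Real.mul_self_sqrt (hp j).le]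
  have t0 : ∀ᶠ q in (ub (hyperfilter ℕ) 𝒰 : Filter (ℕ × ι)),
      ((S q.2).aff (T q.2) x (r q.1) ((S q.2).a x)⁻¹).Ok ∧
      ((S q.2).aff (T q.2) x (r q.1) ((S q.2).a x)⁻¹).Bd 0 (√(r q.1))⁻¹
        (C * r q.1 * Λ * (√(r q.1))⁻¹) (C * r q.1 * Λ) := by
    refine ev_ub.2 ?_
    filter_upwards [hs.eventually (Iic_mem_nhds (half_pos hρ))] with j hj
    filter_upwards [ok, hT] with i hi h2
    refine ⟨(P366W.aff n _ _ _ _ _ hi.1 (hp j) (inv_pos.2 (hi.1.a0 x))).1,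
      h2.2.2 _ _ (hp j) ((ball_subset_ball ?_).trans hρ')⟩
    rw [mul_assoc, e1]
    have : √(r j) ≤ ρ / 2 := hj
    linarith
  have t1 : Tendsto (fun q : ℕ × ι => (√(r q.1))⁻¹) (ub (hyperfilter ℕ) 𝒰) atTop :=
    (tendsto_inv_nhdsGT_zero.comp (tendsto_nhdsWithin_iff.2
      ⟨hs, Eventually.of_forall hsp⟩)).comp (ub_fst _ 𝒰)
  have t2 : Tendsto (fun q : ℕ × ι => C * r q.1 * Λ * (√(r q.1))⁻¹) (ub (hyperfilter ℕ) 𝒰)
      (𝓝 0) := by
    have h1 := (hs.const_mul (C * Λ)).comp (ub_fst _ 𝒰)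
    rw [mul_zero] at h1
    refine h1.congr fun q => ?_
    simp only [Function.comp]
    conv_lhs => rw [← e1]
    ring
  have t3 : Tendsto (fun q : ℕ × ι => C * r q.1 * Λ) (ub (hyperfilter ℕ) 𝒰) (𝓝 0) := by
    simpa [Function.comp_def] using ((hr1.const_mul C).mul_const Λ).comp (ub_fst _ 𝒰)
  obtain ⟨μ', h1⟩ := exists_lm t0 t1 t2 t3
  obtain ⟨A, hA⟩ := exists_ulim 𝒰 (f := fun i => (T i : E (n + 1) →L[ℝ] E (n + 1)))
    (hT.mono fun i hi => Af.norm_le_of_sub hi.1)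
  obtain ⟨A', hA'⟩ := exists_ulim 𝒰 (f := fun i => ((T i).symm : E (n + 1) →L[ℝ] E (n + 1)))
    (hT.mono fun i hi => Af.norm_le_of_sub hi.2.1)
  have app : ∀ {κ : Type} {l : Filter κ} {f : κ → E (n + 1) →L[ℝ] E (n + 1)} {g : κ → E (n + 1)}
      {f₀ g₀}, Tendsto f l (𝓝 f₀) → Tendsto g l (𝓝 g₀) →
      Tendsto (fun i => f i (g i)) l (𝓝 (f₀ g₀)) := fun a1 a2 =>
    (isBoundedBilinearMap_apply.continuous.tendsto _).comp (a1.prodMk_nhds a2)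
  have hAA : ∀ y, A (A' y) = y := fun y => tendsto_nhds_unique
    (app hA (app hA' tendsto_const_nhds)) (tendsto_const_nhds.congr fun i => by simp)
  refine ⟨μ', ⟨_, _, _, _, _, _, h1⟩, A, fun δ hδ y y₀ hy hy0 => ⟨A' y₀, fun s hs0 => ?_, hAA y₀⟩⟩
  have h4 := h1.th (app (hA'.comp (ub_snd _ 𝒰)) (hy0.comp (ub_fst _ 𝒰))) hs0
  have h5 : Tendsto (fun j => C' * Λ * (r j * s)) (hyperfilter ℕ) (𝓝 0) := by
    simpa using (hr1.mul_const s).const_mul (C' * Λ)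
  have h6 := ((Real.continuous_exp.tendsto 0).comp (h5.comp (ub_fst _ 𝒰))).mul h4
  rw [Real.exp_zero, one_mul] at h6
  have h7 : Tendsto (fun j => 2 * (r j * s) + r j * ‖y j‖) (hyperfilter ℕ) (𝓝 0) := by
    simpa using ((hr1.mul_const s).const_mul 2).add (hr1.mul hy0.norm)
  rw [← le_div_iff₀ (cn_pos n)]
  refine (add_le_add_right hδ 1).trans (ge_of_tendsto h6 (ev_ub.2 ?_))
  filter_upwards [hy, h5.eventually (Iic_mem_nhds one_pos), h7.eventually (Iic_mem_nhds hρ)]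
    with j a1 a2 a3
  obtain ⟨l, a4, a5⟩ := (a1.and_eventually (Ioc_mem_nhdsGT (mul_pos (hp j) hs0))).exists
  filter_upwards [a4, ok] with i a6 hi
  simp only [Function.comp]
  rw [(P366W.aff n _ _ _ _ _ hi.1 (hp j) (inv_pos.2 (hi.1.a0 x))).2.2.2.2]
  simp only [ContinuousLinearEquiv.coe_coe, ContinuousLinearEquiv.apply_symm_apply]
  refine a6.trans ((hM (S i) x₀ _ R η Λ _ hi.1 hi.2 hη ((ball_subset_ball' ?_).trans hρ') a2).1 l
    a5.1 a5.2)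
  rw [dist_self_add_left, norm_smul, Real.norm_of_nonneg (hp j).le]
  exact a3

/-- **the singular set is small** -/
theorem bad_ct' (hR : REGL) {n : ℕ} (hn : 1 ≤ n) {ι : Type} {𝒰 : Ultrafilter ι}
    {S : ι → Surf (n + 1)} {x₀ : E (n + 1)} {R η Λ ε a : ℝ}
    (ok : ∀ᶠ i in (𝒰 : Filter ι), (S i).Ok ∧ (S i).Bd x₀ R η Λ) (hη : η ≤ 1 / 2) (hε : 0 < ε)
    (ha : 0 < a) (hk : (n : ℝ) - 7 < a) : ct a (closure (Bad 𝒰 S ε) ∩ ball x₀ R) = 0 := by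
  by_contra h0
  obtain ⟨x, ⟨-, hx⟩, hfr⟩ := density ha h0
  obtain ⟨r, hr0, hr⟩ := exists_seq_forall_of_frequently
    (hfr.and_eventually (Ioc_mem_nhdsGT one_pos))
  have hp : ∀ j, 0 < r j := fun j => (hr j).2.1
  have hr1 : Tendsto r (hyperfilter ℕ) (𝓝 0) :=
    (hr0.mono_right nhdsWithin_le_nhds).mono_left Nat.hyperfilter_le_atTop
  obtain ⟨μ', h1, A, hA⟩ := bad_blow (ε := ε) ok hη hx hp hr1
  obtain ⟨δ₀, hδ₀, hcls⟩ := cls hR n
  have h2 := (hcls (min ε δ₀) (min_le_right _ _)).fed (by simp) hn (lt_min hε hδ₀) (k := 7)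
    (P366S.simons _) ha (by exact_mod_cast hk) h1
  have h3 := ct_ulim ha (isCompact_closedBall (0 : E (n + 1)) 1) (hyperfilter ℕ)
    (K₀ := A '' Sg n (min ε δ₀) μ')
    (Eventually.of_forall fun j => ct_resc ha (hp j) one_pos
      (T := ContinuousLinearMap.id ℝ _) (T' := ContinuousLinearMap.id ℝ _)
      ContinuousLinearMap.norm_id_le ContinuousLinearMap.norm_id_le (fun _ => rfl) (hr j).1)
    fun y y₀ hy hy0 => ?_
  · have h4 := ct_image_le ha (K := ‖A‖₊ + 1) (by simp)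
      (A.lipschitz.weaken (le_add_of_nonneg_right zero_le)) (Sg n (min ε δ₀) μ')
    rw [h2, mul_zero] at h4
    simpa using h3.trans h4
  obtain ⟨b, hb⟩ := (hy.mono fun j hj => (Metric.mem_closure_iff.1 hj.1 (r j * r j)
    (mul_pos (hp j) (hp j))).imp fun _ => id).choice
  refine hA _ (min_le_left _ _) (fun j => (r j)⁻¹ • (b j - x)) y₀
    (hb.mono fun j hj => by simpa [smul_smul, (hp j).ne'] using hj.1) ?_
  refine hy0.congr_dist (squeeze_zero' (.of_forall fun _ => dist_nonneg) (hb.mono fun j hj => ?_) hr1)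
  have h5 := hj.2.le
  have h6 : y j - (r j)⁻¹ • (b j - x) = (r j)⁻¹ • (x + r j • y j - b j) := by
    simp only [smul_sub, smul_add, inv_smul_smul₀ (hp j).ne']
    abel
  rw [dist_eq_norm] at h5 ⊢
  rwa [h6, norm_smul, norm_inv, Real.norm_of_nonneg (hp j).le, inv_mul_le_iff₀ (hp j)]

theorem bad_ct (hR : REGL) {n : ℕ} (hn : 1 ≤ n) {ι : Type} {𝒰 : Ultrafilter ι}
    {S : ι → Surf (n + 1)} {x₀ : E (n + 1)} {R η Λ ε a : ℝ}
    (ok : ∀ᶠ i in (𝒰 : Filter ι), (S i).Ok ∧ (S i).Bd x₀ R η Λ) (hη : η ≤ 1 / 2) (hε : 0 < ε)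
    (ha : 0 < a) (hk : (n : ℝ) - 7 < a) : ct a (Bad 𝒰 S ε ∩ ball x₀ R) = 0 :=
  measure_mono_null (inter_subset_inter_left _ subset_closure) (bad_ct' hR hn ok hη hε ha hk)

/-- **there is no singular set in small dimensions** -/
theorem bad_empty (hR : REGL) {n : ℕ} (hn : 1 ≤ n) (hn' : n ≤ 6) {ι : Type} {𝒰 : Ultrafilter ι}
    {S : ι → Surf (n + 1)} {x₀ x : E (n + 1)} {R η Λ ε : ℝ}
    (ok : ∀ᶠ i in (𝒰 : Filter ι), (S i).Ok ∧ (S i).Bd x₀ R η Λ) (hη : η ≤ 1 / 2) (hε : 0 < ε)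
    (hx : x ∈ ball x₀ R) : x ∉ Bad 𝒰 S ε := fun hb => by
  obtain ⟨μ', h1, A, hA⟩ := bad_blow (ε := ε) ok hη hx (r := fun j => 1 / ((j : ℝ) + 1))
    (fun j => by positivity)
    (tendsto_one_div_add_atTop_nhds_zero_nat.mono_left Nat.hyperfilter_le_atTop)
  obtain ⟨δ₀, hδ₀, hcls⟩ := cls hR n
  obtain ⟨y, hy, -⟩ := hA _ (min_le_left ε δ₀) (fun _ => 0) 0
    (Eventually.of_forall fun j => by simpa using hb) tendsto_const_nhds
  have hC := hcls (min ε δ₀) (min_le_right _ _)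
  obtain ⟨μ'', a1, a2, -, -, a3⟩ := hC.tangent' (by simp) h1 hy
  exact hC.cone_reg (by simp) hn (lt_min hε hδ₀) (k := 7) (P366S.simons _) 7 le_rfl μ'' a1 a2
    (by omega) a3

/-- finite covers of compact sets of content zero -/
theorem cover_of_ct {X : Type} [MetricSpace X] {d : ℝ} (hd : 0 < d) {A : Set X} (hA : IsCompact A)
    (h0 : ct d A = 0) {δ : ℝ} (hδ : 0 < δ) : ∃ s : Finset (X × ℝ), (∀ p ∈ s, 0 < p.2 ∧ p.2 ≤ δ) ∧
      A ⊆ ⋃ p ∈ s, ball p.1 p.2 ∧ ∑ p ∈ s, p.2 ^ d ≤ δ := by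
  classical
  set c := min δ (δ ^ d) with hc
  have hc0 : 0 < c := lt_min hδ (Real.rpow_pos_of_pos hδ d)
  obtain ⟨t, ht, hsum⟩ := exists_cover hd (h0.trans_lt (ENNReal.ofReal_pos.2 hc0))
  have hne : ∑' k, ediam (t k) ^ d ≠ ⊤ := ne_top_of_lt hsum
  obtain ⟨ε', hε0, hε⟩ := ENNReal.exists_pos_sum_of_countable (tsub_pos_of_lt hsum).ne' ℕ
  have h1 : ∀ k, ∃ ρ : ℝ, diam (t k) < ρ ∧
      ENNReal.ofReal (ρ ^ d) ≤ ediam (t k) ^ d + ε' k := by
    intro k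
    have hfin : ediam (t k) ≠ ⊤ := fun h => ne_top_of_le_ne_top hne (ENNReal.le_tsum k) (by
      rw [h, ENNReal.top_rpow_of_pos hd])
    have h2 : ContinuousAt (fun ρ : ℝ => ENNReal.ofReal (ρ ^ d)) (diam (t k)) :=
      (ENNReal.continuous_ofReal.comp (Real.continuous_rpow_const hd.le)).continuousAt
    have h3 : ENNReal.ofReal (diam (t k) ^ d) < ediam (t k) ^ d + ε' k := by
      rw [← ENNReal.ofReal_rpow_of_nonneg diam_nonneg hd.le, diam, ENNReal.ofReal_toReal hfin]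
      exact ENNReal.lt_add_right (ENNReal.rpow_ne_top_of_nonneg hd.le hfin)
        (by exact_mod_cast (hε0 k).ne')
    obtain ⟨ρ, h4, h5⟩ := (((h2.eventually (Iio_mem_nhds h3)).filter_mono
      (nhdsWithin_le_nhds (s := Ioi (diam (t k))))).and self_mem_nhdsWithin).exists
    exact ⟨ρ, h5, le_of_lt h4⟩
  choose ρ hρ1 hρ2 using h1
  have hρ0 : ∀ k, 0 < ρ k := fun k => diam_nonneg.trans_lt (hρ1 k)
  rcases A.eq_empty_or_nonempty with rfl | ⟨x₀, -⟩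
  · exact ⟨∅, by simp, by simp, by simpa using hδ.le⟩
  have h2 : ∀ k, ∃ y, t k ⊆ ball y (ρ k) := by
    intro k
    rcases (t k).eq_empty_or_nonempty with h | ⟨y, hy⟩
    · exact ⟨x₀, h ▸ empty_subset _⟩
    · refine ⟨y, fun z hz => (dist_le_diam_of_mem' (fun h => ne_top_of_le_ne_top hne
        (ENNReal.le_tsum k) (by rw [h, ENNReal.top_rpow_of_pos hd])) hz hy).trans_lt (hρ1 k)⟩
  choose y hy using h2
  obtain ⟨I, hI⟩ := hA.elim_finite_subcover (fun k => ball (y k) (ρ k)) (fun _ => isOpen_ball)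
    (ht.trans (iUnion_mono hy))
  have h3 : ∑ k ∈ I, ρ k ^ d ≤ c := by
    rw [← ENNReal.ofReal_le_ofReal_iff hc0.le,
      ENNReal.ofReal_sum_of_nonneg fun k _ => (Real.rpow_pos_of_pos (hρ0 k) d).le]
    refine (Finset.sum_le_sum fun k _ => hρ2 k).trans ((ENNReal.sum_le_tsum I).trans ?_)
    rw [ENNReal.tsum_add]
    exact (add_le_add_right hε.le _).trans_eq (add_tsub_cancel_of_le hsum.le)
  refine ⟨I.image fun k => (y k, ρ k), fun p hp => ?_, fun z hz => ?_, ?_⟩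
  · obtain ⟨k, hk, rfl⟩ := Finset.mem_image.1 hp
    refine ⟨hρ0 k, (Real.rpow_le_rpow_iff (hρ0 k).le hδ.le hd).1 ?_⟩
    exact (Finset.single_le_sum (f := fun k => ρ k ^ d)
      (fun k _ => (Real.rpow_pos_of_pos (hρ0 k) d).le) hk).trans (h3.trans (min_le_right _ _))
  · obtain ⟨k, hk, hz⟩ := mem_iUnion₂.1 (hI hz)
    exact mem_iUnion₂.2 ⟨_, Finset.mem_image_of_mem _ hk, hz⟩
  · refine (Finset.sum_image_le_of_nonneg fun p hp => ?_).trans (h3.trans (min_le_left _ _))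
    obtain ⟨k, -, rfl⟩ := Finset.mem_image.1 hp
    exact (Real.rpow_pos_of_pos (hρ0 k) d).le

end Vale.Agent.P366L
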