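import Vale.Agent.P366L.Lp
import Vale.Agent.P366C.ChD

/-!
# P366L: the projection of the bad set of capillary graphs
-/

set_option maxSynthPendingDepth 3

open MeasureTheory Set Filter Topology Metric
open scoped ContDiff RealInnerProductSpace ENNReal NNReal
open Vale.Agent.P366.Stmt Vale.Agent.P366W Vale.Agent.P366Z
open Vale.Agent.P366D (snc ini Null)
open Vale.Agent.P366C (Cf Nm NUL0)
open Vale.Agent.P098.H246 (ct ct_image_le)
open Fin (last)

noncomputable section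

namespace Vale.Agent.P366L

variable {n N : ℕ} {ι : Type} {𝒰 : Ultrafilter ι}

theorem exists_der {V : Type} [NormedAddCommGroup V] [NormedSpace ℝ V] {f : E N → V}
    (hf : ContDiff ℝ ∞ f) (p : E N) : ∃ C ≥ (1 : ℝ), ∀ x ∈ ball p 1, ‖f x‖ ≤ C ∧
      ‖fderiv ℝ f x‖ ≤ C ∧ ∀ v, ‖fderiv ℝ (fun y => fderiv ℝ f y v) x‖ ≤ C * ‖v‖ := by
  have h1 : ContDiff ℝ ∞ (fderiv ℝ f) := hf.fderiv_right (by simp)
  have h2 : ContDiff ℝ ∞ (fderiv ℝ (fderiv ℝ f)) := h1.fderiv_right (by simp)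
  obtain ⟨A, hA⟩ := (isCompact_closedBall p 1).exists_bound_of_continuousOn hf.continuous.continuousOn
  obtain ⟨B, hB⟩ := (isCompact_closedBall p 1).exists_bound_of_continuousOn h1.continuous.continuousOn
  obtain ⟨C, hC⟩ := (isCompact_closedBall p 1).exists_bound_of_continuousOn h2.continuous.continuousOn
  refine ⟨1 + |A| + |B| + |C|, by have := abs_nonneg A; have := abs_nonneg B; linarith [abs_nonneg C],
    fun x hx => ?_⟩
  have hx' := ball_subset_closedBall hx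
  have a := abs_nonneg A
  have b := abs_nonneg B
  have c := abs_nonneg C
  refine ⟨by linarith [hA x hx', le_abs_self A], by linarith [hB x hx', le_abs_self B],
    fun v => ContinuousLinearMap.opNorm_le_bound _ (by positivity) fun w => ?_⟩
  rw [fderiv_clm_apply (h1.differentiable (by simp) x) (differentiableAt_const v)]
  simp only [fderiv_fun_const, Pi.zero_apply, ContinuousLinearMap.comp_zero, zero_add,
    ContinuousLinearMap.flip_apply]
  refine (ContinuousLinearMap.le_opNorm₂ _ _ _).trans ?_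
  rw [mul_right_comm]
  gcongr
  linarith [hC x hx', le_abs_self C]

theorem ν_sq {S : Surf N} (h : S.Ok) {x : E N} {β : ℝ} (β0 : 0 < β) (hβ : ‖S.B x‖ ≤ β) :
    ‖S.ν x‖ ^ 2 ≤ β := by
  have h1 := h.B_nonneg x (S.n x - β⁻¹ • S.ν x)
  have h2 : ⟪S.ν x, S.B x (S.ν x)⟫ ≤ β * ‖S.ν x‖ ^ 2 := by
    have := (S.B x).le_of_opNorm_le hβ (S.ν x)
    nlinarith [real_inner_le_norm (S.ν x) (S.B x (S.ν x)), norm_nonneg (S.ν x)]
  have h3 : ⟪S.n x, S.B x (S.ν x)⟫ = ‖S.ν x‖ ^ 2 := by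
    rw [← h.sym, ← real_inner_self_eq_norm_sq]; rfl
  have h4 : S.B x (S.n x) = S.ν x := rfl
  simp only [map_sub, map_smul, inner_sub_left, inner_sub_right, real_inner_smul_left,
    real_inner_smul_right, h3, h4, h.nν, real_inner_self_eq_norm_sq] at h1
  have h5 := mul_le_mul_of_nonneg_left h2 (inv_pos.2 β0).le
  rw [inv_mul_cancel_left₀ β0.ne'] at h5
  have h6 := mul_le_mul_of_nonneg_left h5 (inv_pos.2 β0).le
  rw [← inv_mul_le_one₀ β0]
  linarith

variable {G : Field n} {φ H : E n → ℝ} {u : ι → E n → ℝ} {c ε : ι → ℝ} {O : Set (E n)} {S Λ : ℝ}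

theorem cont_ini : Continuous (ini : E (n + 1) → E n) := P366P.sm_ini.continuous

/-- the bounds for capillary graphs -/
theorem cf_bd (h : Cf 𝒰 G φ H u c ε O S Λ) {p : E (n + 1)} (hp : ini p ∈ O)
    (hz : |p (last n)| < S) : ∃ R > (0 : ℝ), ∃ η Λ', ∀ᶠ i in (𝒰 : Filter ι),
      (cs G φ (u i)).Bd p R η Λ' := by
  have hH : ContDiff ℝ ∞ fun x : E (n + 1) => H (ini x) := h.smH.comp P366P.sm_ini
  obtain ⟨A, A1, hA⟩ := exists_der (sm_B1 h.met) p
  obtain ⟨B, B1, hB⟩ := exists_der (sm_a1 h.met h.smφ) p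
  obtain ⟨C, C1, hC⟩ := exists_der hH p
  have hO : IsOpen {x : E (n + 1) | ini x ∈ O ∧ |x (last n)| < S} :=
    (h.opn.preimage cont_ini).inter (isOpen_lt (f := fun x : E (n + 1) => |x (last n)|)
      (by fun_prop) continuous_const)
  obtain ⟨R, R0, hR⟩ := Metric.mem_nhds_iff.1 (inter_mem (hO.mem_nhds ⟨hp, hz⟩)
    (ball_mem_nhds p one_pos))
  have L0 := abs_nonneg Λ
  obtain ⟨L, hL⟩ : ∃ L, L = A + B + C + |Λ| := ⟨_, rfl⟩
  have L1 : ∀ t, t ≤ L → ∀ v : E (n + 1), t * ‖v‖ ≤ L ^ 2 * ‖v‖ := fun t ht v =>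
    mul_le_mul_of_nonneg_right (by nlinarith) (norm_nonneg v)
  refine ⟨R, R0, A + B + 1, L, ?_⟩
  filter_upwards [h.bd, h.eq, h.ε0.eventually (gt_mem_nhds one_pos)] with i h1 h2 h3
  have ok := cs_ok h.met h.smφ (h.smu i)
  have eH := cs_H h.met h.smφ (h.smu i)
  have e0 : ∀ x, (cs G φ (u i)).Φ x = 0 → u i (ini x) = x (last n) := fun x hx => by
    rw [cs_Φ] at hx; linarith
  have e1 : ∀ x ∈ ball p R, (cs G φ (u i)).Φ x = 0 → (cs G φ (u i)).H =ᶠ[𝓝 x]
      fun y => -(H (ini y) + c i + ε i * u i (ini y)) := fun x hx h0 => by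
    have : Continuous fun y : E (n + 1) => |u i (ini y)| :=
      ((h.smu i).continuous.comp cont_ini).abs
    filter_upwards [isOpen_ball.mem_nhds hx, this.continuousAt.eventually
      (gt_mem_nhds (show |u i (ini x)| < S from e0 x h0 ▸ (hR hx).1.2))] with y a b
    rw [eH, h2 _ (hR a).1.1 b]
  refine ⟨by linarith, fun x hx => ?_, fun x hx => (hA x (hR hx).2).2.1.trans (by linarith),
    fun x hx v => ((hA x (hR hx).2).2.2 v).trans (L1 _ (by linarith) v), fun x hx => ?_,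
    fun x hx => (hB x (hR hx).2).2.1.trans (by linarith),
    fun x hx v => ((hB x (hR hx).2).2.2 v).trans (L1 _ (by linarith) v), fun x hx => ?_,
    fun x hx y hy a b => ?_, fun x hx a => ?_⟩
  · refine (norm_sub_le_of_le (hA x (hR hx).2).1 ContinuousLinearMap.norm_id_le).trans ?_
    linarith
  · refine (norm_sub_le_of_le (hB x (hR hx).2).1 norm_one.le).trans ?_
    linarith
  · rw [eH, abs_neg]
    linarith [h1 _ (hR hx).1.1, le_abs_self Λ]
  · have e2 := (convex_ball p 1).norm_image_sub_le_of_norm_fderiv_le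
      (fun z _ => hH.differentiable (by simp) z) (fun z hz => (hC z hz).2.1) (hR hy).2 (hR hx).2
    have e3 : |x (last n) - y (last n)| ≤ ‖x - y‖ := PiLp.norm_apply_le (x - y) (last n)
    simp only [(e1 x hx a).self_of_nhds, (e1 y hy b).self_of_nhds, e0 x a, e0 y b]
    refine le_trans ?_ (L1 (C + 1) (by linarith) _)
    rw [Real.norm_eq_abs, abs_le] at e2
    rw [abs_le] at e3 ⊢
    constructor <;> nlinarith [h.εp i, norm_nonneg (x - y)]
  · have d1 := hH.differentiable (by simp) x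
    have d2 : DifferentiableAt ℝ (fun y => u i (ini y)) x :=
      (ContDiff.comp (h.smu i) P366P.sm_ini).differentiable (by simp) x
    have e2 := cs_dν (φ := φ) h.met (h.smu i) ((h.smu i).diff (ini x))
    have e3 : 0 ≤ P366P.dn G (u i) (u i) (ini x) :=
      div_nonneg (h.met.ip_nonneg _ _) (P366P.w_pos h.met _ _).le
    have e4 := ν_sq ok (by linarith) (hA x (hR hx).2).1
    have e5 := (fderiv ℝ (fun y => H (ini y)) x).le_of_opNorm_le (hC x (hR hx).2).2.1
      ((cs G φ (u i)).ν x)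
    rw [(e1 x hx a).fderiv_eq, (((d1.hasFDerivAt.add_const (c i)).fun_add
      (d2.hasFDerivAt.const_mul (ε i))).fun_neg).fderiv]
    simp only [neg_apply, add_apply, smul_apply, e2, smul_eq_mul]
    have e6 : ‖(cs G φ (u i)).ν x‖ ≤ A := by nlinarith [norm_nonneg ((cs G φ (u i)).ν x)]
    have e7 := (le_abs_self _).trans (e5.trans (mul_le_mul_of_nonneg_left e6 (by linarith)))
    nlinarith [mul_nonneg (h.εp i) e3]

theorem cf_gp (h : Cf 𝒰 G φ H u c ε O S Λ) {p : E (n + 1)} (hp : ini p ∈ O)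
    (hz : |p (last n)| < S) : Gp 𝒰 (fun i => cs G φ (u i)) p :=
  let ⟨R, R0, η, Λ', k⟩ := cf_bd h hp hz
  ⟨R, R0, η, Λ', _, _, k.mono fun i hi => ⟨cs_ok h.met h.smφ (h.smu i), hi, rfl, rfl⟩⟩

/-- the bounds in a normalised chart -/
theorem cf_bd' (h : Cf 𝒰 G φ H u c ε O S Λ) {p : E (n + 1)} (hp : ini p ∈ O)
    (hz : |p (last n)| < S) {η : ℝ} (hη : Nm G φ η (ini p)) : ∃ R > (0 : ℝ), ∃ Λ',
      ∀ᶠ i in (𝒰 : Filter ι), (cs G φ (u i)).Bd p R η Λ' := by
  obtain ⟨R, R0, η', Λ', k⟩ := cf_bd h hp hz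
  have c1 : Continuous fun x : E (n + 1) => ‖B0 G (ini x) - ContinuousLinearMap.id ℝ (E n)‖ :=
    (((sm_B0 h.met).continuous.comp cont_ini).sub continuous_const).norm
  have c2 : Continuous fun x : E (n + 1) => |a1 G φ x - 1| :=
    ((sm_a1 h.met h.smφ).continuous.sub continuous_const).abs
  obtain ⟨r, r0, hr⟩ := Metric.eventually_nhds_iff_ball.1 ((c1.continuousAt.eventually
    (gt_mem_nhds hη.1)).and ((c2.continuousAt.eventually (gt_mem_nhds hη.2)).and
      (ball_mem_nhds p R0)))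
  refine ⟨r, r0, Λ', k.mono fun i hi => { hi.mono (fun x hx => (hr x hx).2.2) le_rfl le_rfl with
    B0 := fun x hx => ?_, a0 := fun x hx => (hr x hx).2.1.le }⟩
  have h1 := (hr x hx).1.le
  refine ContinuousLinearMap.opNorm_le_bound _ ((norm_nonneg _).trans h1) fun v => ?_
  have h2 : (B1 G x - ContinuousLinearMap.id ℝ (E (n + 1))) v =
      Lz n ((B0 G (ini x) - ContinuousLinearMap.id ℝ (E n)) (ini v)) := by
    rw [sub_apply, sub_apply, B1_apply, map_sub, ContinuousLinearMap.id_apply,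
      ContinuousLinearMap.id_apply]
    have := (Lz_add (ini v) (v (last n))).trans (P366P.snc_ini v)
    linear_combination (norm := module) this
  rw [cs_B, h2, LinearIsometry.norm_map]
  exact ContinuousLinearMap.le_of_opNorm_le_of_le _ h1 (adj_Lz v ▸ (fr_el n).norm_adj v)

/-- the projection of the closure of the bad set -/
theorem cf_nul (h : Cf 𝒰 G φ H u c ε O S Λ) (hn : 1 ≤ n) {T ε₀ d : ℝ} (hT : T < S) (hε : 0 < ε₀)
    (hd : (n : ℝ) - 7 < d) {K : Set (E n)} (hK : IsCompact K) (hO : K ⊆ O) : Null d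
      {x | x ∈ K ∧ ∃ z, |z| ≤ T ∧ snc x z ∈ closure (Bad 𝒰 (fun i => cs G φ (u i)) ε₀)} := by
  have loc := fun x (hx : x ∈ K) z (hz : |z| ≤ T) => (cf_gp h (p := snc x z)
    (by rw [P366P.ini_snc]; exact hO hx) (by rw [P366P.snc_last]; linarith)).bad hn hε
  intro K' hK' δ hδ
  rcases le_or_gt d 0 with d0 | d0
  · refine ⟨∅, by simp, ?_, by simpa using hδ.le⟩
    rintro x ⟨⟨hx, z, hz, hb⟩, -⟩
    obtain ⟨V, h1, -, h2⟩ := loc x hx z hz
    have h3 : n < 7 := by exact_mod_cast (by linarith : (n : ℝ) < 7)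
    exact (h2 (by omega) _ (mem_of_mem_nhds h1) hb).elim
  set Z := (fun q : E n × ℝ => snc q.1 q.2) '' (K ×ˢ Icc (-T) T) ∩
    closure (Bad 𝒰 (fun i => cs G φ (u i)) ε₀)
  have h1 : IsCompact Z := ((hK.prod isCompact_Icc).image P366P.cont_snc).inter_right isClosed_closure
  have h2 : ct d Z = 0 := measure_null_of_locally_null _ (by
    rintro _ ⟨⟨⟨x, z⟩, ⟨hx, hz⟩, rfl⟩, -⟩
    obtain ⟨V, a, b, -⟩ := loc x hx z (abs_le.2 hz)
    exact ⟨_, inter_mem (mem_of_superset self_mem_nhdsWithin inter_subset_right)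
      (mem_nhdsWithin_of_mem_nhds a), b d d0 hd⟩)
  have h3 : LipschitzWith 1 (ini : E (n + 1) → E n) := .of_dist_le_mul fun x y => by
    rw [dist_eq_norm, dist_eq_norm, ← adj_Lz, ← adj_Lz, ← map_sub, NNReal.coe_one, one_mul]
    exact (fr_el n).norm_adj _
  have h4 := ct_image_le d0 one_ne_zero h3 Z
  rw [h2, mul_zero, nonpos_iff_eq_zero] at h4
  obtain ⟨s, a, b, e⟩ := cover_of_ct d0 (h1.image cont_ini) h4 hδ
  refine ⟨s, a, Subset.trans ?_ b, e⟩
  rintro x ⟨⟨hx, z, hz, hb⟩, -⟩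
  exact ⟨_, ⟨⟨(x, z), ⟨hx, abs_le.1 hz⟩, rfl⟩, hb⟩, P366P.ini_snc _ _⟩

theorem null_mono {d : ℝ} {A B : Set (E n)} (h : Null d B) (hA : A ⊆ B) : Null d A :=
  fun K hK δ hδ => let ⟨s, a, b, c⟩ := h K hK δ hδ
    ⟨s, a, (inter_subset_inter_left _ hA).trans b, c⟩

theorem nul0 : NUL0 := fun k _ _ _ _ _ _ _ _ _ _ _ _ _ h _ hT hε _ hK hO =>
  null_mono (cf_nul h (Nat.le_add_left 1 k) hT hε (by push_cast; linarith) hK hO)
    fun _ ⟨a, z, b, c⟩ => ⟨a, z, b, subset_closure c⟩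

end Vale.Agent.P366L
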