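import Vale.Agent.P366L.Basic

/-!
# P366L: monotonicity and cones
-/

set_option linter.unusedSectionVars false

open MeasureTheory Set Filter Topology Metric
open scoped ContDiff InnerProductSpace ENNReal

noncomputable section

namespace Vale.Agent.P366L

variable {E : Type} [NormedAddCommGroup E] [InnerProductSpace ℝ E] [FiniteDimensional ℝ E]
  [MeasurableSpace E] [BorelSpace E] {n : ℕ} {μ : Measure E} {M : Measure (E × E)}

theorem int_fst (hM : M.map Prod.fst = μ) {f : E → ℝ} (hf : Continuous f) :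
    ∫ y, f y ∂μ = ∫ q, f q.1 ∂M := by
  rw [← hM, integral_map measurable_fst.aemeasurable hf.aestronglyMeasurable]

theorem integrable_M [IsFiniteMeasureOnCompacts μ] (hM : M.map Prod.fst = μ)
    (h1 : ∀ᵐ q ∂M, ‖q.2‖ = 1) {F : E × E → ℝ} (hF : Continuous F) {K : Set E} (hK : IsCompact K)
    (h0 : ∀ q : E × E, q.1 ∉ K → F q = 0) : Integrable F M := by
  obtain ⟨ζ, hζ, hζs, hζ1, hζK⟩ := exists_cut hK
  obtain ⟨C, hC⟩ := (hK.prod (isCompact_sphere (0 : E) 1)).exists_bound_of_continuousOn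
    hF.continuousOn
  have h2 : Integrable ζ (M.map Prod.fst) := hM ▸ hζ.integrable_of_hasCompactSupport hζs
  have h3 : Integrable (fun q : E × E => ζ q.1) M :=
    (integrable_map_measure hζ.aestronglyMeasurable measurable_fst.aemeasurable).1 h2
  refine (h3.const_mul |C|).mono' hF.aestronglyMeasurable ?_
  filter_upwards [h1] with q hq
  by_cases hx : q.1 ∈ K
  · rw [hζK _ hx, mul_one]
    exact (hC q ⟨hx, by simpa using hq⟩).trans (le_abs_self C)
  · rw [h0 q hx, norm_zero]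
    exact mul_nonneg (abs_nonneg _) (hζ1 _).1

/-- the first variation along the radial field -/
theorem radial [IsFiniteMeasureOnCompacts μ] (hE : Module.finrank ℝ E = n + 1)
    (hM : M.map Prod.fst = μ) (h1 : ∀ᵐ q ∂M, ‖q.2‖ = 1)
    (hv : ∀ φ : E → ℝ, ContDiff ℝ 2 φ → HasCompactSupport φ → ∀ v : E,
      ∫ q, fderiv ℝ φ q.1 (v - ⟪q.2, v⟫_ℝ • q.2) ∂M = 0)
    {f : E → ℝ} (hf2 : ContDiff ℝ 2 f) (hs : HasCompactSupport f) (p : E) :
    n * ∫ y, f y ∂μ + ∫ y, fderiv ℝ f y (y - p) ∂μ =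
      ∫ q, fderiv ℝ f q.1 q.2 * ⟪q.2, q.1 - p⟫_ℝ ∂M := by
  let b := stdOrthonormalBasis ℝ E
  have hf : ContDiff ℝ 1 f := hf2.of_le one_le_two
  have hd : Continuous (fderiv ℝ f) := hf.continuous_fderiv one_ne_zero
  have hz : ∀ y, y ∉ tsupport f → fderiv ℝ f y = 0 := fun y hy =>
    image_eq_zero_of_notMem_tsupport fun h => hy (tsupport_fderiv_subset ℝ h)
  have hz0 : ∀ y, y ∉ tsupport f → f y = 0 := fun y hy => image_eq_zero_of_notMem_tsupport hy
  let F : Fin (Module.finrank ℝ E) → E × E → ℝ := fun a q =>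
    fderiv ℝ f q.1 (b a - ⟪q.2, b a⟫_ℝ • q.2) * ⟪b a, q.1 - p⟫_ℝ +
      f q.1 * ⟪b a, b a - ⟪q.2, b a⟫_ℝ • q.2⟫_ℝ
  have hF : ∀ a, ∫ q, F a q ∂M = 0 := by
    intro a
    have hc : ContDiff ℝ 2 fun y : E => ⟪b a, y - p⟫_ℝ :=
      contDiff_const.inner ℝ (contDiff_id.sub contDiff_const)
    rw [← hv (fun y => f y * ⟪b a, y - p⟫_ℝ) (hf2.mul hc) hs.mul_right (b a)]
    refine integral_congr_ae (Eventually.of_forall fun q => ?_)
    have h2 : HasFDerivAt (fun y : E => ⟪b a, y - p⟫_ℝ) (innerSL ℝ (b a)) q.1 := by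
      simpa [inner_sub_right] using ((innerSL ℝ (b a)).hasFDerivAt (x := q.1)).sub_const
        ⟪b a, p⟫_ℝ
    have h3 := ((hf.differentiable one_ne_zero q.1).hasFDerivAt.fun_mul h2).fderiv
    simp only [F, h3]
    simp only [add_apply, smul_apply, smul_eq_mul,
      innerSL_apply_apply]
    ring
  have hFi : ∀ a, Integrable (F a) M := fun a =>
    integrable_M hM h1 (by simp only [F]; fun_prop) hs.isCompact fun q hq => by
      simp [F, hz _ hq, hz0 _ hq]
  have i1 : Integrable (fun q : E × E => f q.1) M :=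
    integrable_M hM h1 (hf.continuous.comp continuous_fst) hs.isCompact fun q hq => hz0 _ hq
  have i2 : Integrable (fun q : E × E => fderiv ℝ f q.1 (q.1 - p)) M :=
    integrable_M hM h1 (by fun_prop) hs.isCompact fun q hq => by simp [hz _ hq]
  have i3 : Integrable (fun q : E × E => fderiv ℝ f q.1 q.2 * ⟪q.2, q.1 - p⟫_ℝ) M :=
    integrable_M hM h1 (by fun_prop) hs.isCompact fun q hq => by simp [hz _ hq]
  have i4 : Integrable (fun q : E × E => n * f q.1 + fderiv ℝ f q.1 (q.1 - p)) M :=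
    (i1.const_mul _).add i2
  have h4 : ∫ q, ∑ a, F a q ∂M = 0 := by
    rw [integral_finsetSum _ fun a _ => hFi a]
    exact Finset.sum_eq_zero fun a _ => hF a
  rw [int_fst hM hf.continuous, int_fst hM (f := fun y => fderiv ℝ f y (y - p)) (by fun_prop),
    ← integral_const_mul, ← integral_add (i1.const_mul _) i2, ← sub_eq_zero,
    ← integral_sub i4 i3, ← h4]
  refine integral_congr_ae ?_
  filter_upwards [h1] with q hq
  have e1 : ∑ a, ⟪b a, q.1 - p⟫_ℝ • (b a - ⟪q.2, b a⟫_ℝ • q.2) =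
      (q.1 - p) - ⟪q.2, q.1 - p⟫_ℝ • q.2 := by
    simp only [smul_sub, Finset.sum_sub_distrib, b.sum_repr', smul_smul, ← Finset.sum_smul]
    rw [← b.sum_inner_mul_inner q.2 (q.1 - p)]
    simp only [mul_comm]
  have e2 : ∑ a, ⟪b a, b a - ⟪q.2, b a⟫_ℝ • q.2⟫_ℝ = n := by
    simp only [inner_sub_right, inner_smul_right, Finset.sum_sub_distrib,
      b.sum_inner_mul_inner q.2 q.2, real_inner_self_eq_norm_sq, b.orthonormal.1, hq]
    simp [hE]
  simp only [F, Finset.sum_add_distrib, ← Finset.mul_sum, e2]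
  have e3 : ∑ a, fderiv ℝ f q.1 (b a - ⟪q.2, b a⟫_ℝ • q.2) * ⟪b a, q.1 - p⟫_ℝ =
      fderiv ℝ f q.1 (q.1 - p) - fderiv ℝ f q.1 q.2 * ⟪q.2, q.1 - p⟫_ℝ := by
    have := congrArg (fderiv ℝ f q.1) e1
    simp only [map_sum, map_smul, map_sub, smul_eq_mul] at this
    simp only [map_sub, map_smul, smul_eq_mul]
    rw [mul_comm (fderiv ℝ f q.1 q.2), ← this]
    simp only [mul_comm]
  rw [e3]
  ring

theorem scale_c1 {ψ : E → ℝ} {k : WithTop ℕ∞} (hψ : ContDiff ℝ k ψ) (p : E) (s : ℝ) :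
    ContDiff ℝ k fun y => ψ (s⁻¹ • (y - p)) :=
  hψ.comp ((contDiff_id.sub contDiff_const).const_smul _)

theorem scale_cs {ψ : E → ℝ} (hs : HasCompactSupport ψ) (p : E) {s : ℝ} (h : s ≠ 0) :
    HasCompactSupport fun y => ψ (s⁻¹ • (y - p)) :=
  hs.comp_homeomorph ((Homeomorph.subRight p).trans (Homeomorph.smulOfNeZero s⁻¹ (inv_ne_zero h)))

theorem scale_fderiv {ψ : E → ℝ} (hψ : ContDiff ℝ 1 ψ) (p y w : E) (s : ℝ) :
    fderiv ℝ (fun y => ψ (s⁻¹ • (y - p))) y w = s⁻¹ * fderiv ℝ ψ (s⁻¹ • (y - p)) w := by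
  have h1 : HasFDerivAt (fun y : E => s⁻¹ • (y - p)) (s⁻¹ • ContinuousLinearMap.id ℝ E) y :=
    ((hasFDerivAt_id y).sub_const p).const_smul s⁻¹
  have h2 := ((hψ.differentiable one_ne_zero _).hasFDerivAt.comp y h1).fderiv
  change fderiv ℝ (ψ ∘ fun y => s⁻¹ • (y - p)) y w = _
  rw [h2]
  simp

theorem hasDerivAt_scale [IsFiniteMeasureOnCompacts μ] {ψ : E → ℝ} (hψ : ContDiff ℝ 1 ψ)
    (hs : HasCompactSupport ψ) (p : E) {s : ℝ} (h0 : 0 < s) :
    HasDerivAt (fun s : ℝ => ∫ y, ψ (s⁻¹ • (y - p)) ∂μ)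
      (∫ y, -s⁻¹ * fderiv ℝ (fun y => ψ (s⁻¹ • (y - p))) y (y - p) ∂μ) s := by
  have hd : Continuous (fderiv ℝ ψ) := hψ.continuous_fderiv one_ne_zero
  obtain ⟨R, hR0, hR⟩ := hs.isCompact.isBounded.subset_closedBall_lt 0 (0 : E)
  obtain ⟨C, hC⟩ := (hs.fderiv ℝ).exists_bound_of_continuous hd
  have hC0 : 0 ≤ C := (norm_nonneg _).trans (hC 0)
  have hb : Ioo (s / 2) (2 * s) ∈ 𝓝 s := Ioo_mem_nhds (by linarith) (by linarith)
  refine (hasDerivAt_integral_of_dominated_loc_of_deriv_le (μ := μ)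
    (F := fun s y => ψ (s⁻¹ • (y - p)))
    (F' := fun s y => -s⁻¹ * fderiv ℝ (fun y => ψ (s⁻¹ • (y - p))) y (y - p))
    (bound := (closedBall p (2 * s * R)).indicator fun _ => 2 / s * (C * R)) hb
    (Eventually.of_forall fun t => (scale_c1 hψ p t).continuous.aestronglyMeasurable)
    ((scale_c1 hψ p s).continuous.integrable_of_hasCompactSupport (scale_cs hs p h0.ne')) ?_
    (Eventually.of_forall fun y t ht => ?_) ?_ (Eventually.of_forall fun y t ht => ?_)).2
  · simp only [scale_fderiv hψ]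
    exact Continuous.aestronglyMeasurable (by fun_prop)
  · have ht0 : 0 < t := by linarith [ht.1]
    rw [scale_fderiv hψ, ← smul_eq_mul t⁻¹ (fderiv ℝ ψ _ _), ← map_smul]
    by_cases hy : t⁻¹ • (y - p) ∈ tsupport ψ
    · have h1 : ‖t⁻¹ • (y - p)‖ ≤ R := mem_closedBall_zero_iff.1 (hR hy)
      have h2 : y ∈ closedBall p (2 * s * R) := by
        rw [mem_closedBall, dist_eq_norm]
        rw [norm_smul, norm_inv, Real.norm_eq_abs, abs_of_pos ht0, inv_mul_le_iff₀ ht0] at h1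
        exact h1.trans (mul_le_mul_of_nonneg_right ht.2.le hR0.le)
      rw [indicator_of_mem h2, norm_mul, norm_neg, norm_inv, Real.norm_eq_abs, abs_of_pos ht0]
      refine mul_le_mul ?_ (((fderiv ℝ ψ _).le_opNorm _).trans
        (mul_le_mul (hC _) h1 (norm_nonneg _) hC0)) (norm_nonneg _) (by positivity)
      rw [inv_le_comm₀ ht0 (by positivity), inv_div]
      exact ht.1.le
    · rw [image_eq_zero_of_notMem_tsupport fun h => hy (tsupport_fderiv_subset ℝ h)]
      simp only [zero_apply, mul_zero, norm_zero]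
      exact indicator_nonneg (fun _ _ => by positivity) _
  · exact (integrableOn_const (isCompact_closedBall p _).measure_lt_top.ne).integrable_indicator
      measurableSet_closedBall
  · have ht0 : 0 < t := by linarith [ht.1]
    have h1 : HasDerivAt (fun t : ℝ => t⁻¹ • (y - p)) ((-(t ^ 2)⁻¹) • (y - p)) t :=
      (hasDerivAt_inv ht0.ne').smul_const _
    have h2 := (hψ.differentiable one_ne_zero _).hasFDerivAt.comp_hasDerivAt t h1
    refine HasDerivAt.congr_deriv (f := fun t : ℝ => ψ (t⁻¹ • (y - p))) h2 ?_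
    rw [scale_fderiv hψ, map_smul, smul_eq_mul]
    field_simp

/-- the derivative of the rescaled integrals -/
theorem hasDerivAt_ratio [IsFiniteMeasureOnCompacts μ] (hE : Module.finrank ℝ E = n + 1)
    (hM : M.map Prod.fst = μ) (h1 : ∀ᵐ q ∂M, ‖q.2‖ = 1)
    (hv : ∀ φ : E → ℝ, ContDiff ℝ 2 φ → HasCompactSupport φ → ∀ v : E,
      ∫ q, fderiv ℝ φ q.1 (v - ⟪q.2, v⟫_ℝ • q.2) ∂M = 0)
    {ψ : E → ℝ} (hψ : ContDiff ℝ 2 ψ) (hs : HasCompactSupport ψ) (p : E) {s : ℝ} (h0 : 0 < s) :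
    HasDerivAt (fun s : ℝ => (∫ y, ψ (s⁻¹ • (y - p)) ∂μ) / s ^ n)
      (-(∫ q, fderiv ℝ (fun y => ψ (s⁻¹ • (y - p))) q.1 q.2 * ⟪q.2, q.1 - p⟫_ℝ ∂M) /
        s ^ (n + 1)) s := by
  have h2 := (hasDerivAt_scale (μ := μ) (hψ.of_le one_le_two) hs p h0).div
    (hasDerivAt_pow n s) (by positivity)
  refine HasDerivAt.congr_deriv
    (f := fun s : ℝ => (∫ y, ψ (s⁻¹ • (y - p)) ∂μ) / s ^ n) h2 ?_
  rw [← radial hE hM h1 hv (scale_c1 hψ p s) (scale_cs hs p h0.ne') p, integral_const_mul]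
  rcases n with _ | n
  · simp
    field_simp
  · simp only [add_tsub_cancel_right]
    field_simp
    push_cast
    ring

theorem kr_scale (p y : E) {s : ℝ} (h0 : 0 < s) : kr 0 1 (s⁻¹ • (y - p)) = kr p s y := by
  simpa using kr_zoom p 0 y 1 h0

theorem kr_fderiv (p y w : E) (s : ℝ) : fderiv ℝ (kr p s) y w =
    -(6 * max (1 - ‖y - p‖ ^ 2 / s ^ 2) 0 ^ 2 * ⟪y - p, w⟫_ℝ / s ^ 2) := by
  have h1 : HasFDerivAt (fun y : E => ‖y - p‖ ^ 2 / s ^ 2)
      ((s ^ 2)⁻¹ • (2 : ℝ) • innerSL ℝ (y - p)) y := by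
    have h2 := (((hasFDerivAt_id y).sub_const p).norm_sq).const_smul (s ^ 2)⁻¹
    simp only [id, ContinuousLinearMap.comp_id] at h2
    refine (h2.congr_fderiv ?_).congr_of_eventuallyEq (Eventually.of_forall fun z => ?_)
    · ext w; simp
    · simp [div_eq_inv_mul]
  have h3 := ((ch_deriv _).comp_hasFDerivAt y h1).fderiv
  change fderiv ℝ (ch ∘ fun y : E => ‖y - p‖ ^ 2 / s ^ 2) y w = _
  rw [h3]
  simp only [smul_apply, innerSL_apply_apply, smul_eq_mul]
  ring

theorem hasDerivAt_Th [IsFiniteMeasureOnCompacts μ] (hE : Module.finrank ℝ E = n + 1)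
    (hM : M.map Prod.fst = μ) (h1 : ∀ᵐ q ∂M, ‖q.2‖ = 1)
    (hv : ∀ φ : E → ℝ, ContDiff ℝ 2 φ → HasCompactSupport φ → ∀ v : E,
      ∫ q, fderiv ℝ φ q.1 (v - ⟪q.2, v⟫_ℝ • q.2) ∂M = 0) (p : E) {s : ℝ} (h0 : 0 < s) :
    HasDerivAt (Th n μ p) ((∫ q, 6 * max (1 - ‖q.1 - p‖ ^ 2 / s ^ 2) 0 ^ 2 *
      ⟪q.2, q.1 - p⟫_ℝ ^ 2 / s ^ 2 ∂M) / s ^ (n + 1)) s := by
  have h2 := hasDerivAt_ratio hE hM h1 hv (kr_c2 (0 : E) 1)
    (kr_cs 0 one_pos) p h0
  have e : (fun y => kr 0 1 (s⁻¹ • (y - p))) = kr p s := funext fun y => kr_scale p y h0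
  rw [e, ← integral_neg] at h2
  refine (h2.congr_deriv ?_).congr_of_eventuallyEq ?_
  · congr 2
    funext q
    rw [kr_fderiv, real_inner_comm]
    ring
  · filter_upwards [Ioi_mem_nhds h0] with t ht
    simp only [Th, kr_scale p _ ht]

/-- monotonicity -/
theorem Sta.mono [IsFiniteMeasureOnCompacts μ] (hE : Module.finrank ℝ E = n + 1) (h : Sta μ)
    (p : E) : MonotoneOn (Th n μ p) (Ioi 0) := by
  obtain ⟨M, hM, h1, hv⟩ := h
  refine monotoneOn_of_deriv_nonneg (convex_Ioi 0)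
    (fun s hs => (hasDerivAt_Th hE hM h1 hv p hs).continuousAt.continuousWithinAt)
    (fun s hs => (hasDerivAt_Th hE hM h1 hv p (interior_subset hs)).differentiableAt
      |>.differentiableWithinAt) fun s hs => ?_
  have hs0 : 0 < s := interior_subset hs
  rw [(hasDerivAt_Th hE hM h1 hv p hs0).deriv]
  exact div_nonneg (integral_nonneg fun q => by positivity) (by positivity)

/-- constant density ratio gives a cone -/
theorem Sta.cone [IsFiniteMeasureOnCompacts μ] (hE : Module.finrank ℝ E = n + 1) (h : Sta μ)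
    (p : E) {a : ℝ} (hc : ∀ s > (0 : ℝ), Th n μ p s = a) : Dil n μ p := by
  obtain ⟨M, hM, h1, hv⟩ := h
  have h2 : ∀ s > (0 : ℝ), ∀ᵐ q ∂M, ‖q.1 - p‖ < s → ⟪q.2, q.1 - p⟫_ℝ = 0 := by
    intro s hs
    have h3 : HasDerivAt (Th n μ p) 0 s := (hasDerivAt_const s a).congr_of_eventuallyEq (by
      filter_upwards [Ioi_mem_nhds hs] with t ht using hc t ht)
    have h4 := (hasDerivAt_Th hE hM h1 hv p hs).unique h3
    rw [div_eq_zero_iff, or_iff_left (by positivity), integral_eq_zero_iff_of_nonneg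
      (fun q => by positivity) (integrable_M hM h1 (by fun_prop) (isCompact_closedBall p s)
        fun q hq => ?_)] at h4
    · filter_upwards [h4] with q hq hlt
      have h5 : 0 < max (1 - ‖q.1 - p‖ ^ 2 / s ^ 2) 0 := by
        refine lt_max_of_lt_left (sub_pos.2 ?_)
        rw [div_lt_one (by positivity)]
        exact pow_lt_pow_left₀ hlt (norm_nonneg _) two_ne_zero
      simpa [h5.ne', hs.ne'] using hq
    · rw [mem_closedBall, dist_eq_norm, not_le] at hq
      rw [max_eq_right]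
      · simp
      · rw [sub_nonpos, one_le_div (by positivity)]
        exact pow_le_pow_left₀ hs.le hq.le 2
  have h3 : ∀ᵐ q ∂M, ⟪q.2, q.1 - p⟫_ℝ = 0 := by
    filter_upwards [ae_all_iff.2 fun j : ℕ => h2 (j + 1) (by positivity)] with q hq
    obtain ⟨j, hj⟩ := exists_nat_gt ‖q.1 - p‖
    exact hq j (by linarith)
  have h4 : ∀ ψ : E → ℝ, ContDiff ℝ 2 ψ → HasCompactSupport ψ → ∀ s > (0 : ℝ),
      ∫ y, ψ (s⁻¹ • (y - p)) ∂μ = s ^ n * ∫ y, ψ (y - p) ∂μ := by
    intro ψ hψ hs s h0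
    have h5 : ∀ t ∈ Ioi (0 : ℝ), HasDerivAt
        (fun s : ℝ => (∫ y, ψ (s⁻¹ • (y - p)) ∂μ) / s ^ n) 0 t := by
      intro t ht
      refine (hasDerivAt_ratio hE hM h1 hv hψ hs p ht).congr_deriv ?_
      rw [integral_congr_ae (g := fun _ => 0) (by filter_upwards [h3] with q hq; simp [hq])]
      simp
    have h6 := isOpen_Ioi.is_const_of_deriv_eq_zero isPreconnected_Ioi
      (fun t ht => (h5 t ht).differentiableAt.differentiableWithinAt)
      (fun t ht => (h5 t ht).deriv) (show s ∈ Ioi (0 : ℝ) from h0)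
      (mem_Ioi.2 (one_pos : (0 : ℝ) < 1))
    simp only [inv_one, one_smul, one_pow, div_one] at h6
    rw [← h6]
    field_simp
  intro t ht
  let e : E ≃ₜ E := ((Homeomorph.subRight p).trans (Homeomorph.smulOfNeZero t ht.ne')).trans
    (Homeomorph.addLeft p)
  have he : (fun y => p + t • (y - p)) = e := rfl
  have : IsFiniteMeasureOnCompacts (μ.map fun y => p + t • (y - p)) := by
    refine ⟨fun K hK => ?_⟩
    rw [he, Measure.map_apply e.continuous.measurable hK.measurableSet]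
    exact (e.isCompact_preimage.2 hK).measure_lt_top
  have : IsFiniteMeasureOnCompacts (ENNReal.ofReal (t⁻¹ ^ n) • μ) :=
    IsFiniteMeasureOnCompacts.smul μ ENNReal.ofReal_ne_top
  refine ext_c2 fun φ hφ hφs => ?_
  rw [integral_map (by fun_prop) hφ.continuous.aestronglyMeasurable, integral_smul_measure,
    ENNReal.toReal_ofReal (by positivity), smul_eq_mul]
  have h7 := h4 (fun z => φ (p + z)) (hφ.comp (contDiff_const.add contDiff_id))
    (hφs.comp_homeomorph (Homeomorph.addLeft p)) t⁻¹ (by positivity)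
  simpa using h7

end Vale.Agent.P366L
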