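import Vale.Agent.P366L.Tri
import Vale.Agent.P366L.Stat

/-!
# P366L: the dimension reduction of Federer
-/

set_option linter.unusedSectionVars false

open MeasureTheory Set Filter Topology Metric
open scoped ContDiff InnerProductSpace ENNReal NNReal
open Vale.Agent.P098.H246 (ct ct_image_le density exists_open gau_eq ct_apply)

noncomputable section

namespace Vale.Agent.P366L

section content

theorem ct_le_hausdorff {X : Type} [MetricSpace X] [MeasurableSpace X] [BorelSpace X] {s : ℝ}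
    (hs : 0 < s) (A : Set X) : ct s A ≤ μH[s] A := by
  rw [Measure.hausdorffMeasure_apply]
  refine le_iSup₂_of_le ⊤ ENNReal.zero_lt_top ?_
  refine le_iInf₂ fun t ht => le_iInf fun _ => ?_
  simp_rw [gau_eq hs]
  rw [ct_apply hs]
  exact iInf₂_le t ht

/-- upper semicontinuity of the content along an ultrafilter -/
theorem ct_ulim {X ι : Type} [MetricSpace X] {s : ℝ} (hs : 0 < s) {C : Set X} (hC : IsCompact C)
    (𝒱 : Ultrafilter ι) {K : ι → Set X} {K₀ : Set X} {c : ℝ≥0∞}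
    (hc : ∀ᶠ i in (𝒱 : Filter ι), c ≤ ct s (K i ∩ C))
    (hlim : ∀ (x : ι → X) (x₀ : X), (∀ᶠ i in (𝒱 : Filter ι), x i ∈ K i) → Tendsto x 𝒱 (𝓝 x₀) →
      x₀ ∈ K₀) : c ≤ ct s K₀ := by
  by_contra hcon
  obtain ⟨W, hW, hKW, hWc⟩ := exists_open hs (not_le.1 hcon)
  have h1 : ∀ᶠ i in (𝒱 : Filter ι), ∃ x, x ∈ K i ∩ C ∧ x ∉ W := by
    filter_upwards [hc] with i hi
    by_contra h
    push Not at h
    exact absurd (lt_of_le_of_lt (hi.trans (measure_mono h)) hWc) (lt_irrefl _)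
  obtain ⟨i₀, x₁, -⟩ := h1.exists
  have : Nonempty X := ⟨x₁⟩
  obtain ⟨x, hx⟩ := h1.choice
  obtain ⟨x₀, -, h2⟩ := hC.ultrafilter_le_nhds' (𝒱.map x) (hx.mono fun i hi => hi.1.2)
  exact hW.isClosed_compl.mem_of_tendsto h2 (hx.mono fun i hi => hi.2)
    (hKW (hlim x x₀ (hx.mono fun i hi => hi.1.1) h2))

variable {E : Type} [NormedAddCommGroup E] [InnerProductSpace ℝ E] [FiniteDimensional ℝ E]

theorem ct_submodule [MeasurableSpace E] [BorelSpace E] {s : ℝ} (hs : 0 < s) (V : Submodule ℝ E)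
    (hV : (Module.finrank ℝ V : ℝ) < s) : ct s (V : Set E) = 0 := by
  refine le_antisymm ((ct_le_hausdorff hs _).trans (le_of_eq ?_)) zero_le
  have h1 : dimH (V : Set E) ≤ Module.finrank ℝ V := by
    have h2 : (V : Set E) = range (Subtype.val : V → E) := Subtype.range_coe.symm
    rw [h2]
    have h3 : LipschitzWith 1 (Subtype.val : V → E) := LipschitzWith.subtype_val _
    exact h3.dimH_range_le.trans (le_of_eq (Real.dimH_univ_eq_finrank V))
  have h4 : dimH (V : Set E) < (s.toNNReal : ℝ≥0∞) := by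
    refine h1.trans_lt ?_
    have : ((Module.finrank ℝ V : ℕ) : ℝ≥0) < s.toNNReal := by
      rw [← NNReal.coe_lt_coe, Real.coe_toNNReal s hs.le]
      exact_mod_cast hV
    exact_mod_cast this
  have h5 := hausdorffMeasure_of_dimH_lt h4
  rwa [Real.coe_toNNReal s hs.le] at h5

/-- the content of a rescaled set -/
theorem ct_resc {s : ℝ} (hs : 0 < s) {A : Set E} {x : E} {r c : ℝ} (hr : 0 < r) (hc : 0 < c)
    {T T' : E →L[ℝ] E} (hT : ‖T‖ ≤ c) (hT' : ‖T'‖ ≤ c) (hi : ∀ y, T (T' y) = y)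
    (h : ENNReal.ofReal r ^ s ≤ 2 * ct s (A ∩ closedBall x r)) :
    (2 * ENNReal.ofReal c ^ s)⁻¹ ≤ ct s ({y | x + r • T y ∈ A} ∩ closedBall 0 c) := by
  set K := {y | x + r • T y ∈ A} ∩ closedBall (0 : E) c
  have hsub : A ∩ closedBall x r ⊆ (fun z => x + r • T z) '' K := by
    rintro z ⟨h1, h2⟩
    have e1 : x + r • T (T' (r⁻¹ • (z - x))) = z := by
      rw [hi, smul_smul, mul_inv_cancel₀ hr.ne', one_smul, add_sub_cancel]
    refine ⟨_, ⟨by rwa [mem_ofPred_eq, e1], ?_⟩, e1⟩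
    rw [mem_closedBall_zero_iff]
    rw [mem_closedBall, dist_eq_norm] at h2
    refine (T'.le_opNorm _).trans ((mul_le_mul_of_nonneg_right hT' (norm_nonneg _)).trans
      (mul_le_of_le_one_right hc.le ?_))
    rwa [norm_smul, norm_inv, Real.norm_eq_abs, abs_of_pos hr, inv_mul_le_iff₀ hr, mul_one]
  have hlip : LipschitzWith (r * c).toNNReal fun z : E => x + r • T z := by
    refine LipschitzWith.of_dist_le_mul fun z z' => ?_
    rw [dist_add_left, dist_smul₀, Real.norm_eq_abs, abs_of_pos hr,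
      Real.coe_toNNReal _ (by positivity), mul_assoc, dist_eq_norm, dist_eq_norm, ← map_sub]
    exact mul_le_mul_of_nonneg_left ((T.le_opNorm _).trans
      (mul_le_mul_of_nonneg_right hT (norm_nonneg _))) hr.le
  have h2 : ct s (A ∩ closedBall x r) ≤ ENNReal.ofReal (r * c) ^ s * ct s K :=
    (measure_mono hsub).trans (ct_image_le hs (Real.toNNReal_pos.2 (by positivity)).ne' hlip K)
  have h3 : ENNReal.ofReal r ^ s * 1 ≤
      ENNReal.ofReal r ^ s * (2 * ENNReal.ofReal c ^ s * ct s K) := by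
    rw [mul_one]
    refine h.trans ((mul_le_mul_right h2 2).trans_eq ?_)
    rw [ENNReal.ofReal_mul hr.le, ENNReal.mul_rpow_of_nonneg _ _ hs.le]
    ring
  have h4 := (ENNReal.mul_le_mul_iff_right (ENNReal.rpow_pos (ENNReal.ofReal_pos.2 hr)
    ENNReal.ofReal_ne_top).ne' (ENNReal.rpow_ne_top_of_nonneg hs.le ENNReal.ofReal_ne_top)).1 h3
  rw [← one_div]
  exact ENNReal.div_le_of_le_mul' h4

end content

variable {E : Type} [NormedAddCommGroup E] [InnerProductSpace ℝ E] [FiniteDimensional ℝ E]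
  [MeasurableSpace E] [BorelSpace E] {n : ℕ} {μ : Measure E}

theorem supp_map {f : E → E} (hf : Continuous f) {c : ℝ≥0∞} (h : μ.map f = c • μ) {x : E}
    (hx : x ∈ μ.support) : f x ∈ μ.support := by
  rw [Measure.mem_support_iff_forall] at hx ⊢
  intro U hU
  obtain ⟨O, h1, h2, h3⟩ := _root_.mem_nhds_iff.1 hU
  have h4 := hx _ (hf.continuousAt.preimage_mem_nhds (h2.mem_nhds h3))
  rw [← Measure.map_apply hf.measurable h2.measurableSet, h, Measure.smul_apply, smul_eq_mul] at h4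
  exact (pos_iff_ne_zero.2 (right_ne_zero_of_mul h4.ne')).trans_le (measure_mono h1)

/-- the spine -/
def Sp (μ : Measure E) : Submodule ℝ E where
  carrier := {v | ∀ t : ℝ, μ.map (fun y => y + t • v) = μ}
  add_mem' {v w} hv hw t := by
    have := Measure.map_map (μ := μ) (g := fun y => y + t • w) (f := fun y => y + t • v)
      (by fun_prop) (by fun_prop)
    rw [hv t, hw t] at this
    simpa [Function.comp_def, add_assoc] using this.symm
  zero_mem' t := by simp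
  smul_mem' c v hv t := by simpa [smul_smul] using hv (t * c)

theorem Sp.map {v : E} (hv : v ∈ Sp μ) : μ.map (fun y => y + v) = μ := by simpa using hv 1

theorem Sp.supp {v x : E} (hv : v ∈ Sp μ) (hx : x ∈ μ.support) : x + v ∈ μ.support :=
  supp_map (f := fun y => y + v) (by fun_prop) (c := 1) (by rw [one_smul]; exact Sp.map hv) hx

theorem Dil.map0 (h : Dil n μ 0) {t : ℝ} (ht : 0 < t) :
    μ.map (fun y => t • y) = ENNReal.ofReal (t⁻¹ ^ n) • μ := by simpa using h t ht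

theorem Dil.supp (h : Dil n μ 0) {t : ℝ} (ht : 0 < t) {x : E} (hx : x ∈ μ.support) :
    t • x ∈ μ.support := supp_map (f := fun y => t • y) (by fun_prop) (h.map0 ht) hx

theorem Dil.th (h : Dil n μ 0) {t : ℝ} (ht : 0 < t) (x : E) (s : ℝ) :
    Th n μ (t • x) (t * s) = Th n μ x s := by
  have h1 : zoom n μ 0 t = μ := by
    have h2 := h.map0 (inv_pos.2 ht)
    simp only [zoom, sub_zero, h2, smul_smul, inv_inv]
    rw [← ENNReal.ofReal_mul (by positivity), ← mul_pow, inv_mul_cancel₀ ht.ne', one_pow,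
      ENNReal.ofReal_one, one_smul]
  have := Th_zoom n μ 0 x s ht
  rw [h1, zero_add] at this
  exact this.symm

theorem two_dil {p : E} (h0 : Dil n μ 0) (hp : Dil n μ p) :
    μ.map (fun y => y + (2 : ℝ)⁻¹ • p) = μ := by
  have h1 := Measure.map_map (μ := μ) (g := fun y => p + (2 : ℝ)⁻¹ • (y - p))
    (f := fun y => (2 : ℝ) • y) (by fun_prop) (by fun_prop)
  rw [h0.map0 two_pos, Measure.map_smul, hp _ (by norm_num), smul_smul,
    ← ENNReal.ofReal_mul (by positivity), ← mul_pow, mul_inv_cancel₀ (by norm_num), one_pow,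
    ENNReal.ofReal_one, one_smul] at h1
  refine Eq.trans ?_ h1.symm
  congr 1
  funext y
  simp only [Function.comp]
  module

theorem Sg_closed [IsFiniteMeasureOnCompacts μ] (δ : ℝ) : IsClosed (Sg n δ μ) := by
  refine isClosed_iff_clusterPt.2 fun x hx s hs => ?_
  have : NeBot (𝓝 x ⊓ 𝓟 (Sg n δ μ)) := hx
  have h1 : Vg (𝓝 x ⊓ 𝓟 (Sg n δ μ)) (fun _ => μ) μ := fun _ _ _ => tendsto_const_nhds
  exact ge_of_tendsto (h1.th (fun K hK => Eventually.of_forall fun _ => hK.measure_lt_top) n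
    (y := id) (tendsto_id.mono_left inf_le_left) hs)
    (mem_inf_of_right (mem_principal.2 fun y hy => hy s hs))

variable {δ : ℝ} {C : Set (Measure E)}

/-- tangent cones -/
theorem Cls.tangent (hE : Module.finrank ℝ E = n + 1) (hC : Cls n δ C) (hμ : μ ∈ C) (x : E)
    {r : ℕ → ℝ} (hr : ∀ j, 0 < r j ∧ r j ≤ 1) (hr0 : Tendsto r atTop (𝓝 0)) :
    ∃ μ' ∈ C, Dil n μ' 0 ∧ Sp μ ≤ Sp μ' ∧ (Dil n μ 0 → x ∈ Sp μ') ∧
      ∀ (y : ℕ → E) (y₀ : E), (∀ᶠ j in (hyperfilter ℕ : Filter ℕ), x + r j • y j ∈ Sg n δ μ) →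
        Tendsto y (hyperfilter ℕ) (𝓝 y₀) → y₀ ∈ Sg n δ μ' := by
  obtain ⟨μ', hμ', hv⟩ := hC.blow μ hμ x r hr (hyperfilter ℕ)
  have := hC.fin μ hμ
  have := hC.fin μ' hμ'
  have hth : ∀ (y : ℕ → E) (y₀ : E), Tendsto y (hyperfilter ℕ) (𝓝 y₀) → ∀ s > (0 : ℝ),
      Tendsto (fun j => Th n μ (x + r j • y j) (r j * s)) (hyperfilter ℕ) (𝓝 (Th n μ' y₀ s)) :=
    fun y y₀ hy s hs => (hv.th (fun K hK => Eventually.of_forall fun j =>
      (zoom_fin n μ x (hr j).1).lt_top_of_isCompact hK) n hy hs).congr fun j =>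
        Th_zoom n μ x _ s (hr j).1
  have hr1 : Tendsto r (hyperfilter ℕ) (𝓝 0) := hr0.mono_left Nat.hyperfilter_le_atTop
  have hθ := ((hC.sta μ hμ).mono hE x).tendsto_nhdsGT
    ⟨0, by rintro _ ⟨s, hs, rfl⟩; exact Th_nonneg n μ x hs⟩
  set θ := sInf (Th n μ x '' Ioi 0)
  have hd : Dil n μ' 0 := by
    refine (hC.sta μ' hμ').cone hE 0 (a := θ) fun s hs => ?_
    refine tendsto_nhds_unique (hth (fun _ => 0) 0 tendsto_const_nhds s hs) ?_
    simp only [smul_zero, add_zero]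
    refine hθ.comp (tendsto_nhdsWithin_iff.2 ⟨?_, Eventually.of_forall fun j =>
      mul_pos (hr j).1 hs⟩)
    simpa using hr1.mul_const s
  refine ⟨μ', hμ', hd, fun v hvv t => ?_, fun h0 t => ?_, fun y y₀ hy hy0 s hs =>
    ge_of_tendsto (hth y y₀ hy0 s hs) (hy.mono fun j hj => hj _ (mul_pos (hr j).1 hs))⟩
  · have : IsFiniteMeasureOnCompacts (μ'.map fun y => y + t • v) :=
      Measure.IsFiniteMeasureOnCompacts.map μ' (Homeomorph.addRight (t • v))
    refine ext_c1 fun φ h1 h2 => ?_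
    rw [integral_map (by fun_prop) h1.continuous.aestronglyMeasurable]
    have h3 : Continuous fun y => φ (y + t • v) := h1.continuous.comp (by fun_prop)
    refine tendsto_nhds_unique (hv _ h3 (h2.comp_homeomorph (Homeomorph.addRight (t • v))))
      ((hv φ h1.continuous h2).congr fun j => ?_)
    rw [int_zoom n μ x (hr j).1 h3, int_zoom n μ x (hr j).1 h1.continuous]
    conv_lhs => rw [← hvv (r j * t)]
    rw [integral_map (by fun_prop)
      (Continuous.aestronglyMeasurable (h1.continuous.comp' (by fun_prop)))]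
    congr 2
    funext y
    congr 1
    rw [add_sub_right_comm, smul_add, smul_smul, ← mul_assoc, inv_mul_cancel₀ (hr j).1.ne', one_mul]
  · have h1 : Dil n μ' ((2 * t) • x) := by
      refine (hC.sta μ' hμ').cone hE _ (a := θ) fun s hs => ?_
      refine tendsto_nhds_unique (hth (fun _ => (2 * t) • x) _ tendsto_const_nhds s hs) ?_
      have h2 : Tendsto (fun j => 1 + r j * (2 * t)) (hyperfilter ℕ) (𝓝 1) := by
        simpa using (hr1.mul_const (2 * t)).const_add 1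
      have h3 := h2.eventually (lt_mem_nhds one_pos)
      refine (hθ.comp (tendsto_nhdsWithin_iff.2 (⟨?_, ?_⟩ : Tendsto
        (fun j => r j * s / (1 + r j * (2 * t))) _ _ ∧ _))).congr' ?_
      · simpa [Pi.div_def] using (hr1.mul_const s).div h2 one_ne_zero
      · exact h3.mono fun j hj => div_pos (mul_pos (hr j).1 hs) hj
      · filter_upwards [h3] with j hj
        rw [Function.comp, ← h0.th hj, mul_div_cancel₀ _ hj.ne', add_smul, one_smul, smul_smul]
    have h4 := two_dil hd h1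
    rwa [smul_smul, ← mul_assoc, inv_mul_cancel₀ two_ne_zero, one_mul] at h4

theorem Cls.tangent' (hE : Module.finrank ℝ E = n + 1) (hC : Cls n δ C) (hμ : μ ∈ C) {x : E}
    (hx : x ∈ Sg n δ μ) : ∃ μ' ∈ C, Dil n μ' 0 ∧ Sp μ ≤ Sp μ' ∧ (Dil n μ 0 → x ∈ Sp μ') ∧
      0 ∈ Sg n δ μ' := by
  obtain ⟨μ', h1, h2, h3, h4, h5⟩ := hC.tangent hE hμ x (r := fun j => 1 / ((j : ℝ) + 1))
    (fun j => ⟨by positivity, by
      rw [div_le_one (by positivity)]; linarith [Nat.cast_nonneg (α := ℝ) j]⟩)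
    tendsto_one_div_add_atTop_nhds_zero_nat
  exact ⟨μ', h1, h2, h3, h4, h5 (fun _ => 0) 0 (Eventually.of_forall fun j => by simpa using hx)
    tendsto_const_nhds⟩

theorem exists_unit {K : Submodule ℝ E} (h : Module.finrank ℝ K < Module.finrank ℝ E) :
    ∃ e : E, ‖e‖ = 1 ∧ ∀ v ∈ K, ⟪e, v⟫_ℝ = 0 := by
  have h1 : Kᗮ ≠ ⊥ := by
    rw [Ne, Submodule.orthogonal_eq_bot_iff]
    rintro rfl
    simp at h
  obtain ⟨v, hv, h0⟩ := Submodule.exists_mem_ne_zero_of_ne_bot h1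
  refine ⟨‖v‖⁻¹ • v, norm_smul_inv_norm h0, fun w hw => ?_⟩
  rw [inner_smul_left, Submodule.inner_left_of_mem_orthogonal hw hv, mul_zero]

/-- cones with a spine of codimension at most two are planes -/
theorem flat_two (hE : Module.finrank ℝ E = n + 1) (hn : 1 ≤ n) [IsFiniteMeasureOnCompacts μ]
    (hc : Cal μ) (hl : Low n μ) (hd : Dil n μ 0) (hs : n ≤ Module.finrank ℝ (Sp μ) + 1) :
    ∃ e : E, ‖e‖ = 1 ∧ ∀ x ∈ μ.support, ⟪e, x⟫_ℝ = 0 := by
  obtain ⟨f, hf⟩ := exists_linearIndependent_of_le_finrank (R := ℝ) (M := Sp μ) (n := n - 1)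
    (by omega)
  have hf' := hf.map' (Sp μ).subtype (Submodule.ker_subtype _)
  set W := Submodule.span ℝ (range ((Sp μ).subtype ∘ f))
  have hW : Module.finrank ℝ W = n - 1 := by rw [finrank_span_eq_card hf', Fintype.card_fin]
  have hWS : W ≤ Sp μ := Submodule.span_le.2 (by rintro _ ⟨i, rfl⟩; exact (f i).2)
  have key : ∀ x ∈ μ.support, ∀ e : E, (∀ v ∈ W, ⟪e, v⟫_ℝ = 0) → ⟪e, x⟫_ℝ ≠ 0 →
      ∃ b ∈ μ.support, ‖b‖ = 1 ∧ (∀ v ∈ W, ⟪b, v⟫_ℝ = 0) ∧ ⟪e, b⟫_ℝ ≠ 0 := by
    intro x hx e he h0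
    have h1 : ⟪e, x - W.starProjection x⟫_ℝ ≠ 0 := by
      rwa [inner_sub_right, he _ (W.starProjection_apply_mem x), sub_zero]
    have h2 : x - W.starProjection x ≠ 0 := fun h => h1 (by rw [h, inner_zero_right])
    have h3 : 0 < ‖x - W.starProjection x‖⁻¹ := inv_pos.2 (norm_pos_iff.2 h2)
    refine ⟨‖x - W.starProjection x‖⁻¹ • (x - W.starProjection x), hd.supp h3 ?_,
      norm_smul_inv_norm h2, fun v hv => ?_, ?_⟩
    · rw [sub_eq_add_neg]
      exact Sp.supp ((Sp μ).neg_mem (hWS (W.starProjection_apply_mem x))) hx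
    · rw [inner_smul_left, Submodule.inner_left_of_mem_orthogonal hv
        (W.sub_starProjection_mem_orthogonal x), mul_zero]
    · rw [inner_smul_right]; exact mul_ne_zero h3.ne' h1
  by_cases h : ∃ a ∈ μ.support, ‖a‖ = 1 ∧ ∀ v ∈ W, ⟪a, v⟫_ℝ = 0
  · obtain ⟨a, ha, ha1, haW⟩ := h
    have h1 : Module.finrank ℝ (W ⊔ Submodule.span ℝ {a} : Submodule ℝ E) <
        Module.finrank ℝ E := by
      have h2 := Submodule.finrank_add_le_finrank_add_finrank W (Submodule.span ℝ {a})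
      have h3 := finrank_span_singleton (K := ℝ) (norm_ne_zero_iff.1 (ha1 ▸ one_ne_zero) : a ≠ 0)
      omega
    obtain ⟨e, he1, he⟩ := exists_unit h1
    refine ⟨e, he1, fun x hx => by_contra fun h0 => ?_⟩
    obtain ⟨b, hb, hb1, hbW, hb0⟩ := key x hx e (fun v hv => he v (Submodule.mem_sup_left hv)) h0
    have hea : ⟪e, a⟫_ℝ = 0 := he a (Submodule.mem_sup_right (Submodule.mem_span_singleton_self a))
    have n1 : a - b ≠ 0 := fun h => hb0 (by rw [← sub_eq_zero.1 h, hea])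
    have n2 : a + b ≠ 0 := fun h => hb0 (by
      rw [eq_neg_of_add_eq_zero_right h, inner_neg_right, hea, neg_zero])
    have p1 := norm_pos_iff.2 n1
    have p2 := norm_pos_iff.2 n2
    have hF : Fr2 W.subtypeₗᵢ (‖a - b‖⁻¹ • (a - b)) (‖a + b‖⁻¹ • (a + b)) := by
      refine ⟨norm_smul_inv_norm n1, norm_smul_inv_norm n2, fun w => ?_, fun w => ?_, ?_, by omega⟩
      · simp [inner_smul_left, inner_sub_left, haW _ w.2, hbW _ w.2]
      · simp [inner_smul_left, inner_add_left, haW _ w.2, hbW _ w.2]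
      · simp [inner_smul_left, inner_smul_right, inner_sub_left, inner_add_right, ha1, hb1,
          real_inner_comm a b]
        ring
    refine tri hE hc hl hF (σ := ‖a - b‖ / 2) (κ := ‖a + b‖ / 2) (by positivity) (by positivity)
      ?_ fun c hc w t ht => ?_
    · have := parallelogram_law_with_norm ℝ a b
      rw [ha1, hb1] at this
      nlinarith
    · rw [add_comm]
      refine Sp.supp (hWS w.2) (hd.supp ht ?_)
      rcases hc with rfl | rfl
      · have : vv (‖a - b‖⁻¹ • (a - b)) (‖a + b‖⁻¹ • (a + b)) (‖a - b‖ / 2) (‖a + b‖ / 2) = a := by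
          rw [vv, smul_smul, smul_smul, div_mul_eq_mul_div, div_mul_eq_mul_div,
            mul_inv_cancel₀ p1.ne', mul_inv_cancel₀ p2.ne']
          module
        rwa [this]
      · have : vv (‖a - b‖⁻¹ • (a - b)) (‖a + b‖⁻¹ • (a + b)) (-(‖a - b‖ / 2)) (‖a + b‖ / 2) =
            b := by
          rw [vv, smul_smul, smul_smul, neg_mul, div_mul_eq_mul_div, div_mul_eq_mul_div,
            mul_inv_cancel₀ p1.ne', mul_inv_cancel₀ p2.ne']
          module
        rwa [this]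
  · obtain ⟨e, he1, he⟩ := exists_unit (K := W) (by omega)
    refine ⟨e, he1, fun x hx => by_contra fun h0 => ?_⟩
    obtain ⟨b, hb, hb1, hbW, -⟩ := key x hx e he h0
    exact h ⟨b, hb, hb1, hbW⟩

theorem not_sg (hE : Module.finrank ℝ E = n + 1) (hδ : 0 < δ) [IsFiniteMeasureOnCompacts μ]
    (hc : Cal μ) {e : E} (he : ‖e‖ = 1) (hs : ∀ x ∈ μ.support, ⟪e, x⟫_ℝ = 0) :
    (0 : E) ∉ Sg n δ μ := fun h => by
  have h1 := (h 1 one_pos).trans (slab hE hc he hs)
  nlinarith [cn_pos n]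

/-- cones with a spine of small codimension are regular -/
theorem Cls.cone_reg (hE : Module.finrank ℝ E = n + 1) (hn : 1 ≤ n) (hδ : 0 < δ) (hC : Cls n δ C)
    {k : ℕ} (hS : SIM E k) (j : ℕ) : j ≤ k → ∀ μ ∈ C, Dil n μ 0 →
      n + 1 ≤ Module.finrank ℝ (Sp μ) + j → (0 : E) ∉ Sg n δ μ := by
  induction j with
  | zero =>
    intro _ μ hμ hd hs
    have := hC.fin μ hμ
    obtain ⟨e, he, h⟩ := flat_two hE hn (hC.cal μ hμ) (hC.low μ hμ) hd (by omega)
    exact not_sg hE hδ (hC.cal μ hμ) he h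
  | succ j ih =>
    intro hj μ hμ hd hs
    have := hC.fin μ hμ
    by_cases h1 : n ≤ Module.finrank ℝ (Sp μ) + 1
    · obtain ⟨e, he, h⟩ := flat_two hE hn (hC.cal μ hμ) (hC.low μ hμ) hd h1
      exact not_sg hE hδ (hC.cal μ hμ) he h
    have h2 : Disjoint (Sp μ : Set E)ᶜ (Sg n δ μ) := by
      refine disjoint_left.2 fun x hx hx' => ?_
      obtain ⟨μ', a1, a2, a3, a4, a5⟩ := hC.tangent' hE hμ hx'
      have := Submodule.finrank_lt_finrank_of_lt (lt_of_le_of_ne a3 fun h => hx (h ▸ a4 hd))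
      exact ih (by omega) μ' a1 a2 (by omega) a5
    obtain ⟨e, he, h3, h4⟩ := hS (Sp μ) _ μ (by omega) (by omega)
      (hC.reg μ hμ _ (Sp μ).closed_of_finiteDimensional.isOpen_compl h2)
      ⟨fun v hv x hx => ⟨Sp.supp hv hx.1, fun h => hx.2 (by simpa using (Sp μ).sub_mem h hv)⟩,
        fun t ht x hx => ⟨hd.supp ht hx.1, fun h => hx.2 (((Sp μ).smul_mem_iff ht.ne').1 h)⟩,
        fun v hv => Sp.map hv, fun t ht => by rw [hE, add_tsub_cancel_right]; exact hd.map0 ht⟩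
    refine not_sg hE hδ (hC.cal μ hμ) he fun x hx => ?_
    by_cases h5 : x ∈ Sp μ
    · exact h3 x h5
    · exact h4 x ⟨hx, h5⟩

theorem Cls.blow_ct (hE : Module.finrank ℝ E = n + 1) (hC : Cls n δ C) (hμ : μ ∈ C) {a : ℝ}
    (ha : 0 < a) {A : Set E} (hA : A ⊆ Sg n δ μ) (h0 : ct a A ≠ 0) : ∃ x ∈ A, ∃ μ' ∈ C,
      Dil n μ' 0 ∧ Sp μ ≤ Sp μ' ∧ (Dil n μ 0 → x ∈ Sp μ') ∧ ct a (Sg n δ μ') ≠ 0 := by
  obtain ⟨x, hx, hfr⟩ := density ha h0
  obtain ⟨r, hr0, hr⟩ := exists_seq_forall_of_frequently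
    (hfr.and_eventually (Ioc_mem_nhdsGT one_pos))
  obtain ⟨μ', h1, h2, h3, h4, h5⟩ := hC.tangent hE hμ x (fun j => (hr j).2)
    (hr0.mono_right nhdsWithin_le_nhds)
  refine ⟨x, hx, μ', h1, h2, h3, h4, fun h6 => ?_⟩
  have h7 := ct_ulim ha (isCompact_closedBall (0 : E) 1) (hyperfilter ℕ)
    (Eventually.of_forall fun j => ct_resc ha (hr j).2.1 one_pos
      (T := ContinuousLinearMap.id ℝ E) (T' := ContinuousLinearMap.id ℝ E)
      ContinuousLinearMap.norm_id_le ContinuousLinearMap.norm_id_le (fun _ => rfl) (hr j).1)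
    fun y y₀ hy hy0 => h5 y y₀ (hy.mono fun j hj => hA hj) hy0
  rw [h6] at h7
  simp at h7

/-- **the dimension reduction** -/
theorem Cls.fed (hE : Module.finrank ℝ E = n + 1) (hn : 1 ≤ n) (hδ : 0 < δ) (hC : Cls n δ C)
    {k : ℕ} (hS : SIM E k) {a : ℝ} (ha : 0 < a) (hk : (n : ℝ) - k < a) (hμ : μ ∈ C) :
    ct a (Sg n δ μ) = 0 := by
  by_contra h0
  have key : ∀ d : ℕ, (d : ℝ) - 1 < a → ∃ μ ∈ C, Dil n μ 0 ∧ d ≤ Module.finrank ℝ (Sp μ) ∧
      ct a (Sg n δ μ) ≠ 0 := by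
    intro d
    induction d with
    | zero =>
      intro _
      obtain ⟨x, -, μ', h1, h2, -, -, h3⟩ := hC.blow_ct hE hμ ha Subset.rfl h0
      exact ⟨μ', h1, h2, Nat.zero_le _, h3⟩
    | succ d ih =>
      intro hd
      push_cast at hd
      obtain ⟨μ, h1, h2, h3, h4⟩ := ih (by linarith)
      rcases h3.eq_or_lt with h5 | h5
      · have h6 : ct a (Sg n δ μ \ Sp μ) ≠ 0 := fun h => h4 (le_antisymm (by
          calc ct a (Sg n δ μ) ≤ ct a (Sg n δ μ \ Sp μ ∪ Sp μ) :=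
                measure_mono (subset_sdiff_union _ _)
            _ ≤ _ := measure_union_le _ _
            _ = 0 := by rw [h, ct_submodule ha _ (by rw [← h5]; linarith), add_zero]) zero_le)
        obtain ⟨x, hx, μ', a1, a2, a3, a4, a5⟩ := hC.blow_ct hE h1 ha sdiff_subset h6
        have := Submodule.finrank_lt_finrank_of_lt (lt_of_le_of_ne a3 fun h => hx.2 (h ▸ a4 h2))
        exact ⟨μ', a1, a2, by omega, a5⟩
      · exact ⟨μ, h1, h2, h5, h4⟩
  obtain ⟨μ', h1, h2, h3, h4⟩ := key (n + 1 - k) (by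
    rcases le_total k (n + 1) with h | h
    · rw [Nat.cast_sub h]; push_cast; linarith
    · rw [Nat.sub_eq_zero_of_le h]; push_cast; linarith)
  have := hC.fin μ' h1
  obtain ⟨x, hx⟩ : (Sg n δ μ').Nonempty := nonempty_iff_ne_empty.2 fun h => h4 (by
    rw [h, measure_empty])
  refine hC.cone_reg hE hn hδ hS k le_rfl μ' h1 h2 (by omega) ?_
  have h5 : Tendsto (fun t : ℝ => t • x) (𝓝[>] 0) (𝓝 0) := by
    simpa using ((continuous_id.smul continuous_const).tendsto (0 : ℝ)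
      (f := fun t : ℝ => t • x)).mono_left nhdsWithin_le_nhds
  refine (Sg_closed δ).mem_of_tendsto h5 (eventually_nhdsWithin_of_forall fun t ht s hs => ?_)
  have h6 := hx (s / t) (div_pos hs ht)
  rwa [← h2.th ht, mul_div_cancel₀ _ (ne_of_gt ht)] at h6

end Vale.Agent.P366L
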