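import Vale.Agent.P366L.Defs2
import Vale.Agent.P366L.Fed
import Vale.Agent.P366W.Aff2
import Vale.Agent.P366W.Mono
import Vale.Agent.P366W.Dens

/-!
# P366L: the limits of surfaces form a class
-/

set_option linter.unusedSectionVars false

open MeasureTheory Set Filter Topology Metric
open scoped ContDiff RealInnerProductSpace ENNReal
open Vale.Agent.P366.Stmt Vale.Agent.P366W

noncomputable section

namespace Vale.Agent.P366L

section surf

variable {N : ℕ} {S : Surf N} {x₀ x : E N} {R η Λ : ℝ}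

theorem n_sub (h : S.Ok) (hb : S.Bd x₀ R η Λ) (hη : η ≤ 1 / 2) (hx : x ∈ ball x₀ R) :
    |‖S.n x‖ - 1| ≤ η := by
  have h0 := hb.η0 hx
  have h1 := hb.B_lo hx (S.n x)
  have h2 : ⟪S.n x, S.B x (S.n x)⟫ = 1 := h.nν x
  have h3 := (real_inner_le_norm (S.n x) (S.B x (S.n x))).trans
    (mul_le_mul_of_nonneg_left (hb.B_hi hx (S.n x)) (norm_nonneg _))
  rw [h2] at h1 h3
  have h4 := norm_nonneg (S.n x)
  rw [abs_le]
  constructor
  · by_contra h5
    have h6 : ‖S.n x‖ < 1 - η := by linarith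
    have h7 : ‖S.n x‖ * ‖S.n x‖ ≤ (1 - η) * (1 - η) := mul_self_le_mul_self h4 h6.le
    nlinarith [mul_nonneg h0 h0]
  · by_contra h5
    have h6 : 1 + η < ‖S.n x‖ := by linarith
    have h7 : (1 + η) * (1 + η) < ‖S.n x‖ * ‖S.n x‖ := mul_self_lt_mul_self (by linarith) h6
    nlinarith [mul_nonneg h0 h0]

/-- the calibration inequality -/
theorem calS (h : S.Ok) (hb : S.Bd x₀ R η Λ) (hη : η ≤ 1 / 2) (h0 : 0 ≤ η) {ψ : E N → ℝ}
    (h1 : ContDiff ℝ 1 ψ) (h2 : HasCompactSupport ψ) (h3 : ∀ y, 0 ≤ ψ y)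
    (h4 : tsupport ψ ⊆ ball x₀ R) : 2 * ∫ y, ψ y ∂S.μ ≤
      (1 + η) ^ 3 * (∫ y, ‖fderiv ℝ ψ y‖) + 3 / 2 * Λ * ∫ y, ψ y := by
  set g : E N → ℝ := fun x => S.a x * (fderiv ℝ ψ x (S.ν x) + ψ x * S.H x) with hg
  have c1 : ContDiff ℝ 1 fun y => ψ y • (S.a y • S.ν y) :=
    h1.smul ((h.sma.smul h.smν).of_le (by simp))
  have e : ∀ x, dvg (fun y => ψ y • (S.a y • S.ν y)) x = g x := fun x => by
    rw [P366W.dvg_smul (h1.differentiable one_ne_zero x) ((h.da x).fun_smul (h.dν x)), h.aH]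
    simp only [hg, map_smul, smul_eq_mul]
    ring
  have i1 : Integrable g := by
    rw [← funext e]
    exact (continuous_dvg c1).integrable_of_hasCompactSupport (hcs_dvg h2.smul_right)
  have z : ∫ x, g x = 0 := by rw [← funext e]; exact integral_dvg_zero c1 h2.smul_right
  have m : MeasurableSet {x | S.Φ x < 0} :=
    (isOpen_lt h.smΦ.continuous continuous_const).measurableSet
  have a1 := integral_add_compl m i1
  have a2 := integral_add_compl m i1.abs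
  have a3 : ∫ x in {x | S.Φ x < 0}, g x ≤ ∫ x in {x | S.Φ x < 0}, |g x| :=
    integral_mono i1.restrict i1.abs.restrict fun x => le_abs_self _
  have a4 : ∫ x in {x | S.Φ x < 0}ᶜ, -g x ≤ ∫ x in {x | S.Φ x < 0}ᶜ, |g x| :=
    integral_mono i1.neg.restrict i1.abs.restrict fun x => neg_le_abs _
  rw [integral_neg] at a4
  have j1 : Integrable fun y => ‖fderiv ℝ ψ y‖ :=
    ((h1.continuous_fderiv one_ne_zero).integrable_of_hasCompactSupport (h2.fderiv ℝ)).norm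
  have j2 : Integrable ψ := h1.continuous.integrable_of_hasCompactSupport h2
  have a5 : ∫ x, |g x| ≤ ∫ x, ((1 + η) ^ 3 * ‖fderiv ℝ ψ x‖ + 3 / 2 * Λ * ψ x) := by
    refine integral_mono i1.abs ((j1.const_mul _).add (j2.const_mul _)) fun x => ?_
    have hΛ := hb.Λ0
    have p := h3 x
    by_cases hx : x ∈ tsupport ψ
    · have b1 := (abs_le.1 (hb.a0 x (h4 hx))).2
      have b2 := (abs_le.1 (n_sub h hb hη (h4 hx))).2
      have b3 : ‖S.ν x‖ ≤ (1 + η) * (1 + η) :=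
        (hb.B_hi (h4 hx) _).trans (by gcongr; linarith)
      have b4 : |fderiv ℝ ψ x (S.ν x)| ≤ ‖fderiv ℝ ψ x‖ * ((1 + η) * (1 + η)) :=
        ((fderiv ℝ ψ x).le_opNorm _).trans (by gcongr)
      have b5 : |ψ x * S.H x| ≤ ψ x * Λ := by
        rw [abs_mul, abs_of_nonneg p]; gcongr; exact hb.H0 x (h4 hx)
      simp only [hg]
      rw [mul_add]
      refine (abs_add_le _ _).trans (add_le_add ?_ ?_)
      · rw [abs_mul, abs_of_pos (h.a0 x)]
        calc _ ≤ (1 + η) * (‖fderiv ℝ ψ x‖ * ((1 + η) * (1 + η))) := by gcongr; linarith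
          _ = _ := by ring
      · rw [abs_mul, abs_of_pos (h.a0 x)]
        calc _ ≤ 3 / 2 * (ψ x * Λ) := by gcongr; linarith
          _ = _ := by ring
    · have b1 : fderiv ℝ ψ x = 0 :=
        image_eq_zero_of_notMem_tsupport fun h => hx (tsupport_fderiv_subset ℝ h)
      simp [hg, b1, image_eq_zero_of_notMem_tsupport hx]
  rw [integral_add (j1.const_mul _) (j2.const_mul _), integral_const_mul, integral_const_mul] at a5
  rw [h.flux h1 h2]
  linarith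

/-- the bound of the mass -/
theorem massS {K O : Set (E N)} (hK : IsCompact K) (hO : IsOpen O) (hKO : K ⊆ O) (Λ₀ : ℝ) :
    ∃ C : ℝ, ∀ (S : Surf N) (x₀ : E N) (R η Λ : ℝ), S.Ok → S.Bd x₀ R η Λ → η ≤ 1 / 2 → 0 ≤ η →
      Λ ≤ Λ₀ → O ⊆ ball x₀ R → S.μ K ≤ ENNReal.ofReal C := by
  obtain ⟨K', hK', h1, h2⟩ := exists_compact_between hK hO hKO
  obtain ⟨ψ, a1, a2, a3⟩ := exists_contMDiff_zero_iff_one_iff_of_isClosed (n := ⊤)
    (modelWithCornersSelf ℝ (E N)) isOpen_interior.isClosed_compl hK.isClosed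
    (disjoint_compl_left_iff_subset.2 h1)
  have c1 : ContDiff ℝ 1 ψ := a1.contDiff.of_le (by simp)
  have s1 : tsupport ψ ⊆ K' := closure_minimal
    (fun x hx => interior_subset (not_not.1 fun h => hx ((a3.1 x).1 h))) hK'.isClosed
  have c2 : HasCompactSupport ψ := hK'.of_isClosed_subset (isClosed_tsupport ψ) s1
  have c3 : ∀ y, 0 ≤ ψ y := fun y => (a2 (mem_range_self y)).1
  refine ⟨(3 / 2) ^ 3 * (∫ y, ‖fderiv ℝ ψ y‖) + 3 / 2 * Λ₀ * ∫ y, ψ y,
    fun S x₀ R η Λ h hb hη h0 hΛ hOb => ?_⟩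
  have b1 := calS h hb hη h0 c1 c2 c3 (s1.trans (h2.trans hOb))
  have b2 : S.μ K ≤ ENNReal.ofReal (∫ y, ψ y ∂S.μ) := by
    rw [ofReal_integral_eq_lintegral_ofReal (h.integrable c1.continuous c2)
      (Eventually.of_forall c3), ← lintegral_indicator_one hK.measurableSet]
    refine lintegral_mono fun z => ?_
    by_cases hz : z ∈ K
    · rw [indicator_of_mem hz, (a3.2 z).1 hz]; simp
    · rw [indicator_of_notMem hz]; exact zero_le
  refine b2.trans (ENNReal.ofReal_le_ofReal ?_)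
  have i0 : 0 ≤ ∫ y, ‖fderiv ℝ ψ y‖ := integral_nonneg fun _ => norm_nonneg _
  have i1 : 0 ≤ ∫ y, ψ y := integral_nonneg c3
  have i2 : 0 ≤ ∫ y, ψ y ∂S.μ := integral_nonneg c3
  have b3 : (1 + η) ^ 3 * ∫ y, ‖fderiv ℝ ψ y‖ ≤ (3 / 2) ^ 3 * ∫ y, ‖fderiv ℝ ψ y‖ := by
    gcongr; linarith
  have b4 : 3 / 2 * Λ * ∫ y, ψ y ≤ 3 / 2 * Λ₀ * ∫ y, ψ y := by gcongr
  linarith

end surf

variable {n : ℕ} {ι : Type} {𝒰 : Ultrafilter ι} {S : ι → Surf (n + 1)} {R η Λ : ι → ℝ}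
  {μ : Measure (E (n + 1))}

/-- the eventual properties on a bounded set -/
theorem ev_bd (ok : ∀ᶠ i in (𝒰 : Filter ι), (S i).Ok ∧ (S i).Bd 0 (R i) (η i) (Λ i))
    (R0 : Tendsto R 𝒰 atTop) (η0 : Tendsto η 𝒰 (𝓝 0)) (Λ0 : Tendsto Λ 𝒰 (𝓝 0)) (ρ : ℝ) {e : ℝ}
    (he : 0 < e) : ∀ᶠ i in (𝒰 : Filter ι), (S i).Ok ∧ (S i).Bd 0 ρ e e := by
  filter_upwards [ok, R0.eventually_ge_atTop ρ, η0.eventually (Iic_mem_nhds he),
    Λ0.eventually (Iic_mem_nhds he)] with i h1 h2 h3 h4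
  exact ⟨h1.1, h1.2.mono (ball_subset_ball h2) h3 h4⟩

theorem Lm.ev (h : Lm 𝒰 S R η Λ μ) (ρ : ℝ) {e : ℝ} (he : 0 < e) :
    ∀ᶠ i in (𝒰 : Filter ι), (S i).Ok ∧ (S i).Bd 0 ρ e e := ev_bd h.ok h.R0 h.η0 h.Λ0 ρ he

theorem mass_bd (ok : ∀ᶠ i in (𝒰 : Filter ι), (S i).Ok ∧ (S i).Bd 0 (R i) (η i) (Λ i))
    (R0 : Tendsto R 𝒰 atTop) (η0 : Tendsto η 𝒰 (𝓝 0)) (Λ0 : Tendsto Λ 𝒰 (𝓝 0))
    {K : Set (E (n + 1))} (hK : IsCompact K) :
    ∃ C : ℝ, ∀ᶠ i in (𝒰 : Filter ι), (S i).μ K ≤ ENNReal.ofReal C := by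
  obtain ⟨ρ, hρ⟩ := hK.isBounded.subset_ball 0
  obtain ⟨C, hC⟩ := massS hK isOpen_ball hρ (1 / 2)
  exact ⟨C, (ev_bd ok R0 η0 Λ0 ρ one_half_pos).mono fun i hi =>
    hC _ _ _ _ _ hi.1 hi.2 le_rfl one_half_pos.le le_rfl Subset.rfl⟩

theorem exists_lm (ok : ∀ᶠ i in (𝒰 : Filter ι), (S i).Ok ∧ (S i).Bd 0 (R i) (η i) (Λ i))
    (R0 : Tendsto R 𝒰 atTop) (η0 : Tendsto η 𝒰 (𝓝 0)) (Λ0 : Tendsto Λ 𝒰 (𝓝 0)) :
    ∃ μ, Lm 𝒰 S R η Λ μ := by
  obtain ⟨μ, h1, h2⟩ := exists_vg 𝒰 (fun i => (S i).μ) fun K hK => mass_bd ok R0 η0 Λ0 hK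
  exact ⟨μ, ok, R0, η0, Λ0, h1, h2⟩

theorem Lm.hf (h : Lm 𝒰 S R η Λ μ) (K : Set (E (n + 1))) (hK : IsCompact K) :
    ∀ᶠ i in (𝒰 : Filter ι), (S i).μ K < ⊤ :=
  h.ok.mono fun _ hi => hi.1.fin.lt_top_of_isCompact hK

theorem Lm.cal (h : Lm 𝒰 S R η Λ μ) : Cal μ := by
  intro ψ h1 h2 h3
  obtain ⟨ρ, hρ⟩ := h2.isCompact.isBounded.subset_ball 0
  have k : ∀ e ∈ Ioc (0 : ℝ) (1 / 2), 2 * ∫ y, ψ y ∂μ ≤
      (1 + e) ^ 3 * (∫ y, ‖fderiv ℝ ψ y‖) + 3 / 2 * e * ∫ y, ψ y := fun e he =>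
    le_of_tendsto ((h.vg ψ h1.continuous h2).const_mul 2)
      ((h.ev ρ he.1).mono fun i hi => calS hi.1 hi.2 he.2 he.1.le h1 h2 h3 hρ)
  have k1 : Tendsto (fun e : ℝ => (1 + e) ^ 3 * (∫ y, ‖fderiv ℝ ψ y‖) + 3 / 2 * e * ∫ y, ψ y)
      (𝓝[>] 0) (𝓝 ((1 + 0) ^ 3 * (∫ y, ‖fderiv ℝ ψ y‖) + 3 / 2 * 0 * ∫ y, ψ y)) :=
    (Continuous.tendsto (by fun_prop) 0).mono_left nhdsWithin_le_nhds
  simpa using ge_of_tendsto k1 (mem_of_superset (Ioc_mem_nhdsGT one_half_pos) k)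

/-- convergence of the density ratios -/
theorem Lm.th (h : Lm 𝒰 S R η Λ μ) {y : ι → E (n + 1)} {y₀ : E (n + 1)}
    (hy : Tendsto y 𝒰 (𝓝 y₀)) {s : ℝ} (hs : 0 < s) :
    Tendsto (fun i => (S i).th (y i) s) 𝒰 (𝓝 (Th n μ y₀ s / cn n)) := by
  refine ((h.vg.th h.hf n hy hs).div_const (cn n)).congr_dist ?_
  rw [Metric.tendsto_nhds]
  intro e he
  obtain ⟨η₀, h0, hc⟩ := cmp_of abd n (e / 2) (half_pos he)
  have h1 : 0 < min η₀ (1 / (2 * s)) := lt_min h0 (by positivity)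
  filter_upwards [h.ev (‖y₀‖ + 1 + 4 * s) h1, hy.eventually (ball_mem_nhds y₀ one_pos)] with i hi h2
  have h3 := hc (S i) 0 (y i) _ _ _ s hi.1 hi.2 (min_le_left _ _) hs (ball_subset_ball' ?_) ?_
  · rw [dist_zero_right, Real.norm_of_nonneg dist_nonneg, dist_comm, Real.dist_eq, Th, div_div,
      mul_comm (s ^ n)]
    exact h3.trans_lt (half_lt_self he)
  · have := dist_triangle (y i) y₀ 0
    rw [dist_zero_right y₀] at this
    have h4 : dist (y i) y₀ < 1 := h2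
    linarith
  · calc _ ≤ 1 / (2 * s) * s := by gcongr; exact min_le_right _ _
      _ = 1 / 2 := by field_simp

theorem one_le_th {m : ℕ} {C : ℝ} {S : Surf (m + 1)} {y : E (m + 1)} {r : ℝ} (h : S.Ok)
    (hy : S.Φ y = 0) (hr : 0 < r) (hm : ∀ s, 0 < s → s ≤ r → S.th y s ≤ C) : 1 ≤ C :=
  le_of_tendsto (dens m S y h hy) (mem_of_superset (Ioc_mem_nhdsGT hr) fun s hs => hm s hs.1 hs.2)

theorem Lm.low' (h : Lm 𝒰 S R η Λ μ) {y : ι → E (n + 1)} {y₀ : E (n + 1)}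
    (hy : Tendsto y 𝒰 (𝓝 y₀)) (h0 : ∀ᶠ i in (𝒰 : Filter ι), (S i).Φ (y i) = 0) :
    y₀ ∈ Sg n 0 μ := by
  intro s hs
  obtain ⟨C, hC, hm⟩ := mono n
  rw [add_zero, ← le_div_iff₀ (cn_pos n)]
  have k : ∀ e ∈ Ioc (0 : ℝ) (min (1 / 2) (1 / (C * s))),
      1 ≤ Real.exp (C * e * s) * (Th n μ y₀ s / cn n) := by
    intro e he
    refine ge_of_tendsto ((h.th hy hs).const_mul _) ?_
    filter_upwards [h.ev (‖y₀‖ + 1 + 2 * s) he.1, hy.eventually (ball_mem_nhds y₀ one_pos), h0]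
      with i hi h2 h3
    refine one_le_th hi.1 h3 hs (hm (S i) 0 (y i) _ _ _ s hi.1 hi.2
      (he.2.trans (min_le_left _ _)) (ball_subset_ball' ?_) ?_).1
    · have := dist_triangle (y i) y₀ 0
      rw [dist_zero_right y₀] at this
      have h4 : dist (y i) y₀ < 1 := h2
      linarith
    · calc C * e * s ≤ C * (1 / (C * s)) * s := by gcongr; exact he.2.trans (min_le_right _ _)
        _ = 1 := by field_simp
  have k1 : Tendsto (fun e : ℝ => Real.exp (C * e * s) * (Th n μ y₀ s / cn n)) (𝓝[>] 0)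
      (𝓝 (Real.exp (C * 0 * s) * (Th n μ y₀ s / cn n))) :=
    (Continuous.tendsto (by fun_prop) 0).mono_left nhdsWithin_le_nhds
  simpa using ge_of_tendsto k1 (mem_of_superset (Ioc_mem_nhdsGT (by positivity)) k)

/-- the points of the support are limits of points of the surfaces -/
theorem Lm.near (h : Lm 𝒰 S R η Λ μ) {x : E (n + 1)} (hx : x ∈ μ.support) {ρ : ℝ} (hρ : 0 < ρ) :
    ∀ᶠ i in (𝒰 : Filter ι), ∃ p, p ∈ ball x ρ ∧ (S i).Φ p = 0 := by
  have := h.fin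
  by_contra h1
  rw [← Ultrafilter.eventually_not] at h1
  have h2 : ∫ y, kr x ρ y ∂μ = 0 := by
    refine tendsto_nhds_unique (h.vg _ (kr_cont x ρ) (kr_cs x hρ))
      (tendsto_const_nhds.congr' ?_)
    filter_upwards [h1, h.ok] with i h3 h4
    refine (integral_eq_zero_of_ae ?_).symm
    filter_upwards [h4.1.sup] with y hy
    exact kr_zero hρ (not_lt.1 fun h5 => h3 ⟨y, mem_ball_iff_norm.2 h5, hy⟩)
  rw [integral_eq_zero_iff_of_nonneg (kr_nonneg x ρ)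
    ((kr_cont x ρ).integrable_of_hasCompactSupport (kr_cs x hρ))] at h2
  refine ((Measure.mem_support_iff_forall x).1 hx _ (ball_mem_nhds x hρ)).ne'
    (measure_mono_null (fun y hy => ?_) h2)
  exact (kr_pos (mem_ball_iff_norm.1 hy)).ne'

theorem Lm.low (h : Lm 𝒰 S R η Λ μ) : Low n μ := by
  have := h.fin
  intro x hx s hs
  have h1 : x ∈ Sg n 0 μ := by
    refine (Sg_closed 0).closure_subset (Metric.mem_closure_iff.2 fun ρ hρ => ?_)
    obtain ⟨p, hp⟩ := (h.near hx (half_pos hρ)).choice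
    obtain ⟨p₀, h2, h3⟩ := (isCompact_closedBall x (ρ / 2)).ultrafilter_le_nhds' (𝒰.map p)
      (hp.mono fun i hi => ball_subset_closedBall hi.1)
    exact ⟨p₀, h.low' h3 (hp.mono fun i hi => hi.2),
      (mem_closedBall'.1 h2).trans_lt (half_lt_self hρ)⟩
  simpa using h1 s hs

theorem Lm.sta (h : Lm 𝒰 S R η Λ μ) : Sta μ := by
  have := h.fin
  let m : ι → Measure (E (n + 1) × E (n + 1)) := fun i => (S i).μ.map fun x => (x, (S i).n x)
  have hm : ∀ {i}, (S i).Ok → Measurable fun x => (x, (S i).n x) := fun hi =>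
    (continuous_id.prodMk hi.smn.continuous).measurable
  obtain ⟨M, hM, hv⟩ := exists_vg 𝒰 m fun K hK => by
    obtain ⟨C, hC⟩ := mass_bd h.ok h.R0 h.η0 h.Λ0 (hK.image continuous_fst)
    refine ⟨C, ?_⟩
    filter_upwards [hC, h.ok] with i h1 h2
    rw [Measure.map_apply (hm h2.1) hK.measurableSet]
    refine le_trans (measure_mono fun x hx => ?_) h1
    exact ⟨_, hx, rfl⟩
  have lim : ∀ {F : E (n + 1) × E (n + 1) → ℝ}, Continuous F → HasCompactSupport F →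
      Tendsto (fun i => ∫ x, F (x, (S i).n x) ∂(S i).μ) 𝒰 (𝓝 (∫ q, F q ∂M)) := fun h1 h2 =>
    (hv _ h1 h2).congr' (h.ok.mono fun i hi =>
      integral_map (hm hi.1).aemeasurable h1.aestronglyMeasurable)
  have cs : ∀ {F : E (n + 1) × E (n + 1) → ℝ} {K : Set (E (n + 1))} {β : E (n + 1) → ℝ},
      IsCompact K → (∀ q, q.1 ∉ K → F q = 0) → HasCompactSupport β →
      HasCompactSupport fun q => F q * β q.2 := by
    intro F K β h1 h2 h3
    refine HasCompactSupport.intro (h1.prod h3.isCompact) fun q hq => ?_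
    rcases not_and_or.1 hq with h4 | h4
    · rw [h2 q h4, zero_mul]
    · rw [image_eq_zero_of_notMem_tsupport h4, mul_zero]
  have small : ∀ {f : ι → ℝ} {ζ : E (n + 1) → ℝ}, Continuous ζ → HasCompactSupport ζ →
      (∀ e > (0 : ℝ), ∀ᶠ i in (𝒰 : Filter ι), |f i| ≤ e * ∫ x, ζ x ∂(S i).μ) →
      Tendsto f 𝒰 (𝓝 0) := by
    intro f ζ h1 h2 h3
    rw [Metric.tendsto_nhds]
    intro e he
    set A := |∫ x, ζ x ∂μ| + 1
    have hA : 0 < A := by positivity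
    filter_upwards [h3 (e / (2 * A)) (by positivity), (h.vg ζ h1 h2).eventually
      (Iio_mem_nhds ((le_abs_self _).trans_lt (lt_add_one _)))] with i h4 h5
    rw [Real.dist_eq, sub_zero]
    have h6 : ∫ x, ζ x ∂(S i).μ < A := h5
    calc _ ≤ e / (2 * A) * A := h4.trans (by gcongr)
      _ = e / 2 := by field_simp
      _ < e := half_lt_self he
  have h1 : ∀ᵐ q ∂M, ‖q.2‖ = 1 := by
    have k : ∀ j : ℕ, ∀ᵐ q ∂M, q.1 ∈ closedBall (0 : E (n + 1)) j →
        q.2 ∈ closedBall (0 : E (n + 1)) j → ‖q.2‖ = 1 := by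
      intro j
      obtain ⟨ζ, a1, a2, a3, a4⟩ := exists_cut (isCompact_closedBall (0 : E (n + 1)) j)
      obtain ⟨ρ, hρ⟩ := a2.isCompact.isBounded.subset_ball 0
      have c1 : Continuous fun q : E (n + 1) × E (n + 1) => ζ q.1 * |‖q.2‖ - 1| * ζ q.2 := by
        fun_prop
      have c2 := cs (F := fun q => ζ q.1 * |‖q.2‖ - 1|) a2.isCompact
        (fun q hq => by rw [image_eq_zero_of_notMem_tsupport hq, zero_mul]) a2
      have c3 := tendsto_nhds_unique (lim c1 c2) (small a1 a2 fun e he => by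
        filter_upwards [h.ev ρ (lt_min he one_half_pos)] with i hi
        refine abs_int_le (hi.1.integrable a1 a2) fun x => ?_
        by_cases hx : x ∈ tsupport ζ
        · have b1 := (n_sub hi.1 hi.2 (min_le_right _ _) (hρ hx)).trans (min_le_left _ _)
          have b2 := (a3 x).1
          rw [abs_of_nonneg (mul_nonneg (mul_nonneg b2 (abs_nonneg _)) (a3 _).1), mul_comm e]
          exact (mul_le_of_le_one_right (mul_nonneg b2 (abs_nonneg _)) (a3 _).2).trans (by gcongr)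
        · simp [image_eq_zero_of_notMem_tsupport hx])
      rw [integral_eq_zero_iff_of_nonneg (fun q => mul_nonneg (mul_nonneg (a3 _).1 (abs_nonneg _))
        (a3 _).1) (c1.integrable_of_hasCompactSupport c2)] at c3
      filter_upwards [c3] with q hq b1 b2
      rw [a4 _ b1, a4 _ b2] at hq
      simpa [sub_eq_zero] using hq
    filter_upwards [ae_all_iff.2 k] with q hq
    obtain ⟨j, hj⟩ := exists_nat_ge (max ‖q.1‖ ‖q.2‖)
    exact hq j (mem_closedBall_zero_iff.2 ((le_max_left _ _).trans hj))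
      (mem_closedBall_zero_iff.2 ((le_max_right _ _).trans hj))
  obtain ⟨β, β1, β2, -, β4⟩ := exists_cut (isCompact_closedBall (0 : E (n + 1)) 2)
  have lim2 : ∀ {F : E (n + 1) × E (n + 1) → ℝ} {K : Set (E (n + 1))}, Continuous F →
      IsCompact K → (∀ q, q.1 ∉ K → F q = 0) →
      Tendsto (fun i => ∫ x, F (x, (S i).n x) ∂(S i).μ) 𝒰 (𝓝 (∫ q, F q ∂M)) := by
    intro F K a1 a2 a3
    obtain ⟨ρ, hρ⟩ := a2.isBounded.subset_ball 0
    have e : ∫ q, F q ∂M = ∫ q, F q * β q.2 ∂M := integral_congr_ae (by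
      filter_upwards [h1] with q hq
      rw [β4 _ (mem_closedBall_zero_iff.2 (by rw [hq]; norm_num)), mul_one])
    rw [e]
    refine (lim (F := fun q => F q * β q.2) (a1.mul (β1.comp continuous_snd)) (cs a2 a3 β2)).congr' ?_
    filter_upwards [h.ev ρ one_half_pos] with i hi
    refine integral_congr_ae (Eventually.of_forall fun x => ?_)
    by_cases hx : x ∈ K
    · dsimp only
      rw [β4 _ (mem_closedBall_zero_iff.2 ((hi.2.n_le hi.1 le_rfl (hρ hx)).trans (by norm_num))),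
        mul_one]
    · simp [a3 (x, _) hx]
  refine ⟨M, ?_, h1, fun φ a1 a2 v => ?_⟩
  · have : IsFiniteMeasureOnCompacts (M.map Prod.fst) := by
      refine ⟨fun K hK => ?_⟩
      rw [Measure.map_apply measurable_fst hK.measurableSet]
      refine (measure_mono_ae ?_).trans_lt (hK.prod (isCompact_sphere (0 : E (n + 1)) 1)).measure_lt_top
      filter_upwards [h1] with q hq hx
      exact ⟨hx, by simpa using hq⟩
    refine ext_c1 fun φ a1 a2 => ?_
    rw [integral_map measurable_fst.aemeasurable a1.continuous.aestronglyMeasurable]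
    exact tendsto_nhds_unique (lim2 (F := fun q => φ q.1) (a1.continuous.comp continuous_fst)
      a2.isCompact fun q hq => image_eq_zero_of_notMem_tsupport hq) (h.vg φ a1.continuous a2)
  · have hd : Continuous (fderiv ℝ φ) := a1.continuous_fderiv two_ne_zero
    have hz : ∀ y, y ∉ tsupport φ → fderiv ℝ φ y = 0 := fun y hy =>
      image_eq_zero_of_notMem_tsupport fun h => hy (tsupport_fderiv_subset ℝ h)
    obtain ⟨ρ, hρ⟩ := a2.isCompact.isBounded.subset_ball 0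
    refine tendsto_nhds_unique (lim2 (F := fun q => fderiv ℝ φ q.1 (v - ⟪q.2, v⟫ • q.2))
      (by fun_prop) a2.isCompact fun q hq => by simp [hz _ hq]) ?_
    have t1 : Tendsto (fun i => ∫ x, (dvg (fun y => φ y • v) x -
        ⟪(S i).n x, fderiv ℝ (fun y => φ y • v) x ((S i).ν x)⟫) ∂(S i).μ) 𝒰 (𝓝 0) := by
      refine small (ζ := fun x => ‖φ x • v‖) (a1.continuous.smul continuous_const).norm
        a2.smul_right.norm fun e he => ?_
      filter_upwards [h.ev ρ (lt_min (by positivity : 0 < e / 5) one_half_pos)] with i hi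
      refine (fvb _ (S i) 0 _ _ _ hi.1 hi.2 (min_le_right _ _) (fun y => φ y • v)
        (a1.smul contDiff_const)
        a2.smul_right fun x hx => ?_).trans ?_
      · rw [image_eq_zero_of_notMem_tsupport fun h => hx (hρ h), zero_smul]
      · refine mul_le_mul_of_nonneg_right ?_ (integral_nonneg fun _ => norm_nonneg _)
        linarith [min_le_left (e / 5) (1 / 2)]
    have t2 : Tendsto (fun i => ∫ x, ⟪(S i).n x, v⟫ * fderiv ℝ φ x ((S i).ν x - (S i).n x)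
        ∂(S i).μ) 𝒰 (𝓝 0) := by
      refine small (ζ := fun x => ‖fderiv ℝ φ x‖) hd.norm (a2.fderiv ℝ).norm fun e he => ?_
      filter_upwards [h.ev ρ (lt_min (by positivity : 0 < e / (3 * (‖v‖ + 1))) one_half_pos)]
        with i hi
      refine abs_int_le (hi.1.integrable hd.norm (a2.fderiv ℝ).norm) fun x => ?_
      by_cases hx : x ∈ tsupport φ
      · have b1 := hi.2.n_le hi.1 (min_le_right _ _) (hρ hx)
        have b2 : ‖(S i).ν x - (S i).n x‖ ≤ e / (3 * (‖v‖ + 1)) * (3 / 2) :=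
          (hi.2.Bsub (hρ hx) _).trans (by gcongr; exact min_le_left _ _)
        rw [abs_mul]
        calc _ ≤ 3 / 2 * (‖v‖ + 1) * (‖fderiv ℝ φ x‖ * (e / (3 * (‖v‖ + 1)) * (3 / 2))) := by
              gcongr
              · exact (abs_real_inner_le_norm _ _).trans (by gcongr; linarith)
              · exact ((fderiv ℝ φ x).le_opNorm _).trans (by gcongr)
          _ = 3 / 4 * e * ‖fderiv ℝ φ x‖ := by field_simp; ring
          _ ≤ _ := by gcongr; linarith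
      · simp [hz x hx]
    have t3 := t1.add t2
    rw [add_zero] at t3
    refine t3.congr' (h.ok.mono fun i hi => ?_)
    have c1 := hi.1.smn.continuous
    have c2 := hi.1.smν.continuous
    have e1 : ∀ x, fderiv ℝ (fun y => φ y • v) x = (fderiv ℝ φ x).smulRight v := fun x =>
      ((a1.differentiable two_ne_zero x).hasFDerivAt.smul_const v).fderiv
    simp only [dvg_eq, e1, trc_smulRight, ContinuousLinearMap.smulRight_apply, inner_smul_right]
    rw [← integral_add (hi.1.integrable (by fun_prop) (HasCompactSupport.intro a2.isCompact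
      fun x hx => by simp [hz x hx])) (hi.1.integrable (by fun_prop)
        (HasCompactSupport.intro a2.isCompact fun x hx => by simp [hz x hx]))]
    refine integral_congr_ae (Eventually.of_forall fun x => ?_)
    simp only [map_sub, map_smul, smul_eq_mul]
    ring

theorem sc_μ {m : ℕ} (S : Surf (m + 1)) (b : E (m + 1)) (l : ℝ) :
    (S.sc b l).μ = zoom m S.μ b l := by
  simp [Surf.sc, Surf.aff, zoom, ContinuousLinearMap.det]

theorem tendsto_of_bind {κ ι Y : Type} [TopologicalSpace Y] [RegularSpace Y] {l : Filter κ}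
    {F : κ → Filter ι} {f : ι → Y} {a : κ → Y} {b : Y} (h0 : ∀ j, (F j).NeBot)
    (h1 : ∀ j, Tendsto f (F j) (𝓝 (a j))) (h2 : Tendsto f (l.bind F) (𝓝 b)) :
    Tendsto a l (𝓝 b) := by
  refine (closed_nhds_basis b).tendsto_right_iff.2 fun N hN => ?_
  filter_upwards [Filter.mem_bind'.1 (h2 hN.1)] with j hj
  have := h0 j
  exact hN.2.mem_of_tendsto (h1 j) hj

/-- the product of ultrafilters: first the limit along `𝒰`, then the limit along `𝒱` -/
def ub {κ ι : Type} (𝒱 : Ultrafilter κ) (𝒰 : Ultrafilter ι) : Ultrafilter (κ × ι) :=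
  𝒱.bind fun j => 𝒰.map (Prod.mk j)

theorem ev_ub {κ ι : Type} {𝒱 : Ultrafilter κ} {𝒰 : Ultrafilter ι} {p : κ × ι → Prop} :
    (∀ᶠ x in (ub 𝒱 𝒰 : Filter (κ × ι)), p x) ↔
      ∀ᶠ j in (𝒱 : Filter κ), ∀ᶠ i in (𝒰 : Filter ι), p (j, i) := Iff.rfl

theorem ub_fst {κ ι : Type} (𝒱 : Ultrafilter κ) (𝒰 : Ultrafilter ι) :
    Tendsto Prod.fst (ub 𝒱 𝒰 : Filter (κ × ι)) 𝒱 := fun _ hs =>
  ev_ub.2 (mem_of_superset hs fun _ hj => Eventually.of_forall fun _ => hj)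

theorem ub_snd {κ ι : Type} (𝒱 : Ultrafilter κ) (𝒰 : Ultrafilter ι) :
    Tendsto Prod.snd (ub 𝒱 𝒰 : Filter (κ × ι)) 𝒰 := fun _ hs =>
  ev_ub.2 (Eventually.of_forall fun _ => hs)

theorem Lm.blow (h : Lm 𝒰 S R η Λ μ) (x : E (n + 1)) {r : ℕ → ℝ} (hr : ∀ j, 0 < r j ∧ r j ≤ 1)
    (𝒱 : Ultrafilter ℕ) : ∃ μ' ∈ CL n, Vg (𝒱 : Filter ℕ) (fun j => zoom n μ x (r j)) μ' := by
  have t0 : ∀ᶠ q in (ub 𝒱 𝒰 : Filter (ℕ × ι)), ((S q.2).sc x (r q.1)).Ok ∧
      ((S q.2).sc x (r q.1)).Bd 0 (R q.2 + -‖x‖) (η q.2) (r q.1 * Λ q.2) := by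
    refine ev_ub.2 (Eventually.of_forall fun j => ?_)
    filter_upwards [h.ok, h.R0.eventually_ge_atTop ‖x‖] with i hi h2
    refine ⟨(aff n _ _ _ _ _ hi.1 (hr j).1 one_pos).1,
      scb n _ 0 x _ _ _ _ _ hi.1 hi.2 (hr j).1 (ball_subset_ball' ?_)⟩
    rw [dist_zero_right]
    linarith [mul_le_of_le_one_left (sub_nonneg.2 h2) (hr j).2]
  have t1 : Tendsto (fun q : ℕ × ι => R q.2 + -‖x‖) (ub 𝒱 𝒰) atTop :=
    tendsto_atTop_add_const_right _ (-‖x‖) (h.R0.comp (ub_snd 𝒱 𝒰))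
  have t2 : Tendsto (fun q : ℕ × ι => η q.2) (ub 𝒱 𝒰) (𝓝 0) := h.η0.comp (ub_snd 𝒱 𝒰)
  have t3 : Tendsto (fun q : ℕ × ι => r q.1 * Λ q.2) (ub 𝒱 𝒰) (𝓝 0) := by
    refine squeeze_zero_norm (fun q => ?_)
      (tendsto_zero_iff_norm_tendsto_zero.1 (h.Λ0.comp (ub_snd 𝒱 𝒰)))
    rw [norm_mul, Real.norm_of_nonneg (hr _).1.le]
    exact mul_le_of_le_one_left (norm_nonneg _) (hr _).2
  obtain ⟨μ', h1⟩ := exists_lm t0 t1 t2 t3
  refine ⟨μ', ⟨_, _, _, _, _, _, h1⟩, fun φ a1 a2 => ?_⟩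
  have t4 : Tendsto (fun q : ℕ × ι => ∫ y, φ y ∂((S q.2).sc x (r q.1)).μ)
      ((𝒱 : Filter ℕ).bind fun j => map (Prod.mk j) 𝒰) (𝓝 (∫ y, φ y ∂μ')) := h1.vg φ a1 a2
  refine tendsto_of_bind (fun j => inferInstance) (fun j => ?_) t4
  rw [tendsto_map'_iff, int_zoom n μ x (hr j).1 a1]
  have a3 : Continuous fun y => φ ((r j)⁻¹ • (y - x)) := a1.comp (by fun_prop)
  refine ((h.vg _ a3 (scale_cs a2 x (hr j).1.ne')).const_mul _).congr fun i => ?_
  simp only [Function.comp, sc_μ, int_zoom n _ x (hr j).1 a1]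

theorem cls (h : REGL) (n : ℕ) : ∃ δ₀ > (0 : ℝ), ∀ δ ≤ δ₀, Cls n δ (CL n) := by
  obtain ⟨δ₀, h0, h1⟩ := h n
  exact ⟨δ₀, h0, fun δ hδ => ⟨fun _ ⟨_, _, _, _, _, _, k⟩ => k.fin,
    fun _ ⟨_, _, _, _, _, _, k⟩ => k.cal, fun _ ⟨_, _, _, _, _, _, k⟩ => k.low,
    fun _ ⟨_, _, _, _, _, _, k⟩ => k.sta, fun _ ⟨_, _, _, _, _, _, k⟩ x _ hr 𝒱 => k.blow x hr 𝒱,
    h1 δ hδ⟩⟩

end Vale.Agent.P366L
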