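import Vale.Agent.P366L.Defs

/-!
# P366L: the kernel, vague convergence, existence of limits
-/

set_option linter.unusedSectionVars false

open MeasureTheory Set Filter Topology Metric
open scoped ContDiff InnerProductSpace ENNReal CompactlySupported

noncomputable section

namespace Vale.Agent.P366L

theorem ch_nonneg (t : ℝ) : 0 ≤ ch t := pow_nonneg (le_max_right _ _) 3

theorem ch_zero {t : ℝ} (h : 1 ≤ t) : ch t = 0 := by
  rw [ch, max_eq_right (by linarith)]; norm_num

theorem ch_pos {t : ℝ} (h : t < 1) : 0 < ch t := pow_pos (lt_max_of_lt_left (by linarith)) 3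

theorem ch_anti : Antitone ch := fun a b h =>
  pow_le_pow_left₀ (le_max_right _ _) (max_le_max (by linarith) le_rfl) 3

theorem ch_le_one {t : ℝ} (h : 0 ≤ t) : ch t ≤ 1 := by
  have := ch_anti h
  simpa [ch] using this

theorem ch_cont : Continuous ch := by unfold ch; fun_prop

theorem hasDerivAt_maxpow (k : ℕ) (t : ℝ) :
    HasDerivAt (fun t : ℝ => max t 0 ^ (k + 2)) ((k + 2 : ℝ) * max t 0 ^ (k + 1)) t := by
  rcases lt_trichotomy t 0 with h | rfl | h
  · have e : (fun t : ℝ => max t 0 ^ (k + 2)) =ᶠ[𝓝 t] fun _ => 0 := by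
      filter_upwards [Iio_mem_nhds h] with s hs
      rw [max_eq_right (le_of_lt hs)]; simp
    rw [max_eq_right h.le]
    simpa using (hasDerivAt_const t (0 : ℝ)).congr_of_eventuallyEq e
  · simp only [max_self, ne_eq, Nat.add_eq_zero_iff, one_ne_zero, and_false, not_false_eq_true,
      zero_pow, mul_zero]
    rw [hasDerivAt_iff_isLittleO_nhds_zero]
    simp only [zero_add, max_self, ne_eq, Nat.add_eq_zero_iff, OfNat.ofNat_ne_zero, and_false,
      not_false_eq_true, zero_pow, sub_zero, smul_zero]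
    refine Asymptotics.IsBigO.trans_isLittleO (g := fun s : ℝ => s ^ (k + 2)) ?_
      (Asymptotics.isLittleO_pow_id (by omega))
    refine Asymptotics.IsBigO.of_bound 1 (Eventually.of_forall fun s => ?_)
    rw [one_mul, norm_pow, norm_pow]
    refine pow_le_pow_left₀ (norm_nonneg _) ?_ _
    rw [Real.norm_eq_abs, Real.norm_eq_abs, abs_of_nonneg (le_max_right _ _)]
    exact max_le (le_abs_self _) (abs_nonneg _)
  · have e : (fun t : ℝ => max t 0 ^ (k + 2)) =ᶠ[𝓝 t] fun s => s ^ (k + 2) := by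
      filter_upwards [Ioi_mem_nhds h] with s hs
      rw [max_eq_left (le_of_lt hs)]
    rw [max_eq_left h.le]
    simpa using (hasDerivAt_pow (k + 2) t).congr_of_eventuallyEq e

theorem ch_deriv (t : ℝ) : HasDerivAt ch (-(3 * max (1 - t) 0 ^ 2)) t := by
  have h := (hasDerivAt_maxpow 1 (1 - t)).comp t ((hasDerivAt_id t).const_sub 1)
  refine HasDerivAt.congr_deriv (f := ch) h ?_
  norm_num

theorem ch_c1 : ContDiff ℝ 1 ch := by
  rw [contDiff_one_iff_deriv]
  refine ⟨fun t => (ch_deriv t).differentiableAt, ?_⟩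
  have : deriv ch = fun t => -(3 * max (1 - t) 0 ^ 2) := funext fun t => (ch_deriv t).deriv
  rw [this]; fun_prop

theorem ch_c2 : ContDiff ℝ 2 ch := by
  have h : deriv ch = fun t => -(3 * max (1 - t) 0 ^ 2) := funext fun t => (ch_deriv t).deriv
  have h2 : ∀ t : ℝ, HasDerivAt (fun t : ℝ => -(3 * max (1 - t) 0 ^ 2)) (6 * max (1 - t) 0) t := by
    intro t
    have h := (((hasDerivAt_maxpow 0 (1 - t)).comp t
      ((hasDerivAt_id t).const_sub 1)).const_mul 3).neg
    refine HasDerivAt.congr_deriv (f := fun t : ℝ => -(3 * max (1 - t) 0 ^ 2)) h ?_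
    norm_num; ring
  rw [show (2 : WithTop ℕ∞) = 1 + 1 from rfl, contDiff_succ_iff_deriv]
  refine ⟨fun t => (ch_deriv t).differentiableAt, by simp, ?_⟩
  rw [h, contDiff_one_iff_deriv]
  refine ⟨fun t => (h2 t).differentiableAt, ?_⟩
  have : deriv (fun t : ℝ => -(3 * max (1 - t) 0 ^ 2)) = fun t => 6 * max (1 - t) 0 :=
    funext fun t => (h2 t).deriv
  rw [this]; fun_prop

section vague

variable {X ι : Type} [MetricSpace X] [ProperSpace X] [MeasurableSpace X] [BorelSpace X]

theorem exists_cut {K : Set X} (hK : IsCompact K) : ∃ ζ : X → ℝ, Continuous ζ ∧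
    HasCompactSupport ζ ∧ (∀ x, 0 ≤ ζ x ∧ ζ x ≤ 1) ∧ ∀ x ∈ K, ζ x = 1 := by
  obtain ⟨f, h1, h2, h3, h4⟩ := exists_continuous_one_zero_of_isCompact hK isClosed_empty
    (disjoint_empty K)
  exact ⟨f, f.continuous, h3, fun x => h4 x, fun x hx => h1 hx⟩

theorem abs_int_le {m : Measure X} {φ ζ : X → ℝ} {a : ℝ} (hζ : Integrable ζ m)
    (h : ∀ x, |φ x| ≤ a * ζ x) : |∫ x, φ x ∂m| ≤ a * ∫ x, ζ x ∂m := by
  rw [← integral_const_mul, ← Real.norm_eq_abs]
  exact norm_integral_le_of_norm_le (hζ.const_mul a) (Eventually.of_forall h)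

/-- vague convergence with varying test functions -/
theorem Vg.tendsto {l : Filter ι} {m : ι → Measure X} {μ : Measure X} (h : Vg l m μ)
    {K : Set X} (hK : IsCompact K) {φ : ι → X → ℝ} {φ₀ : X → ℝ}
    (hf : ∀ K' : Set X, IsCompact K' → ∀ᶠ i in l, m i K' < ⊤)
    (h0 : Continuous φ₀) (hK0 : ∀ x, x ∉ K → φ₀ x = 0)
    (hm : ∀ᶠ i in l, AEStronglyMeasurable (φ i) (m i))
    (hs : ∀ᶠ i in l, ∀ᵐ x ∂m i, x ∉ K → φ i x = 0)
    (hu : ∀ e > (0 : ℝ), ∀ᶠ i in l, ∀ᵐ x ∂m i, |φ i x - φ₀ x| ≤ e) :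
    Tendsto (fun i => ∫ y, φ i y ∂m i) l (𝓝 (∫ y, φ₀ y ∂μ)) := by
  obtain ⟨ζ, hζ, hζs, hζ1, hζK⟩ := exists_cut hK
  have hs0 : HasCompactSupport φ₀ := HasCompactSupport.intro hK hK0
  have hint : ∀ {f : X → ℝ}, Continuous f → HasCompactSupport f →
      ∀ᶠ i in l, Integrable f (m i) := by
    intro f hf1 hf2
    filter_upwards [hf _ hf2.isCompact] with i hi
    rw [← integrableOn_iff_integrable_of_support_subset (subset_tsupport f)]
    obtain ⟨C, hC⟩ := hf2.isCompact.exists_bound_of_continuousOn hf1.continuousOn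
    exact Measure.integrableOn_of_bounded hi.ne hf1.aestronglyMeasurable
      ((ae_restrict_iff' (isClosed_tsupport f).measurableSet).2 (Eventually.of_forall hC))
  have h1 := h φ₀ h0 hs0
  have h2 := h ζ hζ hζs
  set A := ∫ y, ζ y ∂μ + 1
  have hA : 0 < A := by
    have : 0 ≤ ∫ y, ζ y ∂μ := integral_nonneg fun x => (hζ1 x).1
    positivity
  have h3 : Tendsto (fun i => ∫ y, φ i y ∂m i - ∫ y, φ₀ y ∂m i) l (𝓝 0) := by
    rw [Metric.tendsto_nhds]
    intro e he
    filter_upwards [hm, hs, hu (e / (2 * A)) (by positivity), hint h0 hs0, hint hζ hζs,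
      h2.eventually (Iio_mem_nhds (lt_add_one _))] with i h4 h5 h6 h7 h8 h9
    have hb : ∀ᵐ x ∂m i, ‖φ i x - φ₀ x‖ ≤ e / (2 * A) * ζ x := by
      filter_upwards [h5, h6] with x h10 h11
      by_cases hx : x ∈ K
      · rw [hζK x hx, mul_one]; exact h11
      · rw [h10 hx, hK0 x hx, sub_zero, norm_zero]
        exact mul_nonneg (by positivity) (hζ1 x).1
    have hi : Integrable (fun x => φ i x - φ₀ x) (m i) :=
      (h8.const_mul _).mono' (h4.sub h7.aestronglyMeasurable) hb
    have hi' : Integrable (φ i) (m i) := (hi.add h7).congr (Eventually.of_forall fun x => by simp)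
    rw [dist_zero_right, ← integral_sub hi' h7]
    refine (norm_integral_le_of_norm_le (h8.const_mul _) hb).trans_lt ?_
    rw [integral_const_mul]
    have h10 : ∫ y, ζ y ∂m i < A := h9
    calc e / (2 * A) * ∫ y, ζ y ∂m i ≤ e / (2 * A) * A := by gcongr
      _ = e / 2 := by field_simp
      _ < e := half_lt_self he
  simpa using h3.add h1

/-- existence of vague limits along ultrafilters -/
theorem exists_vg (𝒰 : Ultrafilter ι) (m : ι → Measure X)
    (hb : ∀ K : Set X, IsCompact K → ∃ C : ℝ, ∀ᶠ i in (𝒰 : Filter ι), m i K ≤ ENNReal.ofReal C) :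
    ∃ μ : Measure X, IsFiniteMeasureOnCompacts μ ∧ Vg (𝒰 : Filter ι) m μ := by
  have hint : ∀ f : C_c(X, ℝ), ∀ᶠ i in (𝒰 : Filter ι), Integrable f (m i) := by
    intro f
    obtain ⟨C, hC⟩ := hb _ f.hasCompactSupport.isCompact
    filter_upwards [hC] with i hi
    rw [← integrableOn_iff_integrable_of_support_subset (subset_tsupport f)]
    obtain ⟨C, hC⟩ := f.hasCompactSupport.isCompact.exists_bound_of_continuousOn
      (map_continuous f).continuousOn
    exact Measure.integrableOn_of_bounded (hi.trans_lt ENNReal.ofReal_lt_top).ne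
      (map_continuous f).aestronglyMeasurable
      ((ae_restrict_iff' (isClosed_tsupport f).measurableSet).2 (Eventually.of_forall hC))
  have hlim : ∀ f : C_c(X, ℝ), ∃ a, Tendsto (fun i => ∫ y, f y ∂m i) 𝒰 (𝓝 a) := by
    intro f
    obtain ⟨C, hC⟩ := hb _ f.hasCompactSupport.isCompact
    obtain ⟨B, hB⟩ := f.hasCompactSupport.isCompact.exists_bound_of_continuousOn
      (map_continuous f).continuousOn
    have h1 : ∀ᶠ i in (𝒰 : Filter ι), ∫ y, f y ∂m i ∈ closedBall (0 : ℝ) (|B| * |C|) := by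
      filter_upwards [hC] with i hi
      rw [mem_closedBall_zero_iff, ← setIntegral_eq_integral_of_forall_compl_eq_zero
        (s := tsupport f) fun x hx => image_eq_zero_of_notMem_tsupport hx]
      refine (norm_setIntegral_le_of_norm_le_const (hi.trans_lt ENNReal.ofReal_lt_top)
        fun x hx => (hB x hx).trans (le_abs_self B)).trans ?_
      refine mul_le_mul_of_nonneg_left ?_ (abs_nonneg B)
      exact ENNReal.toReal_le_of_le_ofReal (abs_nonneg C)
        (hi.trans (ENNReal.ofReal_le_ofReal (le_abs_self C)))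
    obtain ⟨a, -, ha⟩ := (isCompact_closedBall (0 : ℝ) (|B| * |C|)).ultrafilter_le_nhds'
      (𝒰.map fun i => ∫ y, f y ∂m i) h1
    exact ⟨a, ha⟩
  choose a ha using hlim
  let Λ : C_c(X, ℝ) →ₚ[ℝ] ℝ := PositiveLinearMap.mk₀
    { toFun := a
      map_add' := fun f g => by
        refine tendsto_nhds_unique (ha (f + g)) (((ha f).add (ha g)).congr' ?_)
        filter_upwards [hint f, hint g] with i h1 h2
        rw [← integral_add h1 h2]; rfl
      map_smul' := fun c f => by
        refine tendsto_nhds_unique (ha (c • f)) (((ha f).const_mul c).congr fun i => ?_)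
        rw [← integral_const_mul]; rfl }
    fun f hf => ge_of_tendsto' (ha f) fun i => integral_nonneg fun x => hf x
  refine ⟨RealRMK.rieszMeasure Λ, inferInstance, fun φ h1 h2 => ?_⟩
  have h3 := RealRMK.integral_rieszMeasure Λ ⟨⟨φ, h1⟩, h2⟩
  have h4 := ha ⟨⟨φ, h1⟩, h2⟩
  change ∫ x, φ x ∂_ = a _ at h3
  rw [h3]
  exact h4

/-- iterated limits -/
theorem tendsto_bind {κ Y : Type} [TopologicalSpace Y] {l : Filter κ} {F : κ → Filter ι}
    {f : ι → Y} {a : κ → Y} {b : Y} (h1 : ∀ᶠ j in l, Tendsto f (F j) (𝓝 (a j)))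
    (h2 : Tendsto a l (𝓝 b)) : Tendsto f (l.bind F) (𝓝 b) := by
  rw [_root_.tendsto_nhds]
  intro O hO hb
  rw [Filter.mem_bind']
  filter_upwards [h1, h2.eventually (hO.mem_nhds hb)] with j h3 h4
  exact h3 (hO.mem_nhds h4)

end vague

section kernel

variable {E : Type} [NormedAddCommGroup E] [InnerProductSpace ℝ E] [FiniteDimensional ℝ E]

theorem kr_nonneg (x : E) (s : ℝ) (y : E) : 0 ≤ kr x s y := ch_nonneg _

theorem kr_le_one (x : E) (s : ℝ) (y : E) : kr x s y ≤ 1 := ch_le_one (by positivity)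

theorem kr_zero {x y : E} {s : ℝ} (hs : 0 < s) (h : s ≤ ‖y - x‖) : kr x s y = 0 := by
  refine ch_zero ?_
  rw [one_le_div (by positivity)]
  exact pow_le_pow_left₀ hs.le h 2

theorem kr_pos {x y : E} {s : ℝ} (h : ‖y - x‖ < s) : 0 < kr x s y := by
  have hs : 0 < s := (norm_nonneg _).trans_lt h
  refine ch_pos ?_
  rw [div_lt_one (by positivity)]
  exact pow_lt_pow_left₀ h (norm_nonneg _) two_ne_zero

theorem kr_cont2 (s : ℝ) : Continuous fun p : E × E => kr p.1 s p.2 := by
  unfold kr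
  exact ch_cont.comp (by fun_prop)

theorem kr_cont (x : E) (s : ℝ) : Continuous (kr x s) := by
  unfold kr
  exact ch_cont.comp (by fun_prop)

theorem kr_cs (x : E) {s : ℝ} (hs : 0 < s) : HasCompactSupport (kr x s) :=
  HasCompactSupport.intro (isCompact_closedBall x s) fun y hy => kr_zero hs (by
    rw [mem_closedBall, dist_eq_norm, not_le] at hy; exact hy.le)

theorem kr_c2 (x : E) (s : ℝ) : ContDiff ℝ 2 (kr x s) :=
  ch_c2.comp (((contDiff_id.sub contDiff_const).norm_sq ℝ).div_const _)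

theorem kr_zoom (x y z : E) {r : ℝ} (s : ℝ) (hr : 0 < r) :
    kr y s (r⁻¹ • (z - x)) = kr (x + r • y) (r * s) z := by
  unfold kr
  congr 1
  have : r⁻¹ • (z - x) - y = r⁻¹ • (z - (x + r • y)) := by
    rw [← sub_sub, smul_sub r⁻¹ (z - x), smul_smul, inv_mul_cancel₀ hr.ne', one_smul]
  rw [this, norm_smul, norm_inv, Real.norm_eq_abs, abs_of_pos hr, mul_pow, mul_pow]
  field_simp

variable [MeasurableSpace E] [BorelSpace E]

theorem Th_nonneg (n : ℕ) (μ : Measure E) (x : E) {s : ℝ} (hs : 0 < s) : 0 ≤ Th n μ x s :=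
  div_nonneg (integral_nonneg (kr_nonneg x s)) (by positivity)

theorem int_zoom (n : ℕ) (μ : Measure E) (x : E) {r : ℝ} (hr : 0 < r) {φ : E → ℝ}
    (hφ : Continuous φ) : ∫ y, φ y ∂zoom n μ x r = r⁻¹ ^ n * ∫ y, φ (r⁻¹ • (y - x)) ∂μ := by
  rw [zoom, integral_smul_measure, integral_map (by fun_prop) hφ.aestronglyMeasurable,
    ENNReal.toReal_ofReal (by positivity), smul_eq_mul]

theorem Th_zoom (n : ℕ) (μ : Measure E) (x y : E) {r : ℝ} (s : ℝ) (hr : 0 < r) :
    Th n (zoom n μ x r) y s = Th n μ (x + r • y) (r * s) := by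
  rw [Th, Th, int_zoom n μ x hr (kr_cont y s)]
  simp only [kr_zoom x y _ s hr, mul_pow, inv_pow]
  field_simp

theorem zoom_fin (n : ℕ) (μ : Measure E) [IsFiniteMeasureOnCompacts μ] (x : E) {r : ℝ}
    (hr : 0 < r) : IsFiniteMeasureOnCompacts (zoom n μ x r) := by
  refine ⟨fun K hK => ?_⟩
  rw [zoom, Measure.smul_apply, smul_eq_mul, Measure.map_apply (by fun_prop) hK.measurableSet]
  refine ENNReal.mul_lt_top ENNReal.ofReal_lt_top ?_
  have : (fun y => r⁻¹ • (y - x)) ⁻¹' K = (fun z => x + r • z) '' K := by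
    ext y
    constructor
    · intro h
      exact ⟨_, h, by simp [smul_smul, mul_inv_cancel₀ hr.ne']⟩
    · rintro ⟨z, hz, rfl⟩
      simpa [smul_smul, inv_mul_cancel₀ hr.ne'] using hz
  rw [this]
  exact (hK.image (by fun_prop)).measure_lt_top

/-- the density ratios converge, also for moving centres -/
theorem Vg.th {ι : Type} {l : Filter ι} {m : ι → Measure E} {μ : Measure E} (h : Vg l m μ)
    (hf : ∀ K' : Set E, IsCompact K' → ∀ᶠ i in l, m i K' < ⊤) (n : ℕ) {y : ι → E} {y₀ : E}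
    (hy : Tendsto y l (𝓝 y₀)) {s : ℝ} (hs : 0 < s) :
    Tendsto (fun i => Th n (m i) (y i) s) l (𝓝 (Th n μ y₀ s)) := by
  refine Tendsto.div_const ?_ _
  refine h.tendsto (isCompact_closedBall y₀ (s + 1)) hf (kr_cont y₀ s) (fun x hx => ?_)
    (Eventually.of_forall fun i => (kr_cont _ s).aestronglyMeasurable) ?_ fun e he => ?_
  · rw [mem_closedBall, dist_eq_norm, not_le] at hx
    exact kr_zero hs (by linarith)
  · filter_upwards [hy.eventually (ball_mem_nhds y₀ one_pos)] with i hi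
    refine Eventually.of_forall fun x hx => kr_zero hs ?_
    rw [mem_closedBall, dist_eq_norm, not_le] at hx
    rw [dist_eq_norm] at hi
    have := norm_sub_le_norm_sub_add_norm_sub x (y i) y₀
    linarith
  · have hu : UniformContinuous (kr (0 : E) s) :=
      (kr_cs (0 : E) hs).uniformContinuous_of_continuous (kr_cont 0 s)
    obtain ⟨d, hd, hd'⟩ := Metric.uniformContinuous_iff.1 hu e he
    filter_upwards [hy.eventually (ball_mem_nhds y₀ hd)] with i hi
    refine Eventually.of_forall fun x => ?_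
    have h1 : dist (x - y i) (x - y₀) < d := by
      rw [dist_sub_left]; exact hi
    have h2 := (hd' h1).le
    simpa [kr, Real.dist_eq] using h2

/-- equality of measures from smooth test functions -/
theorem ext_sm {μ ν : Measure E} [IsFiniteMeasureOnCompacts μ] [IsFiniteMeasureOnCompacts ν]
    (h : ∀ φ : E → ℝ, ContDiff ℝ ∞ φ → HasCompactSupport φ → ∫ y, φ y ∂μ = ∫ y, φ y ∂ν) :
    μ = ν := by
  refine Measure.ext_of_integral_eq_on_compactlySupported fun f => ?_
  obtain ⟨ζ, hζ, hζs, hζ1, hζK⟩ := exists_cut f.hasCompactSupport.isCompact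
  refine eq_of_forall_dist_le fun e he => ?_
  set A := ∫ y, ζ y ∂μ + ∫ y, ζ y ∂ν + 1
  have h1 : 0 ≤ ∫ y, ζ y ∂μ := integral_nonneg fun x => (hζ1 x).1
  have h2 : 0 ≤ ∫ y, ζ y ∂ν := integral_nonneg fun x => (hζ1 x).1
  have hA : 0 < A := by positivity
  obtain ⟨g, hg, hga, hgs⟩ := (map_continuous f).exists_contDiff_approx ⊤
    (continuous_const (y := e / A)) fun _ => by positivity
  have hgc : HasCompactSupport g := f.hasCompactSupport.mono hgs
  have hb : ∀ x, |f x - g x| ≤ e / A * ζ x := by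
    intro x
    by_cases hx : x ∈ tsupport f
    · rw [hζK x hx, mul_one, abs_sub_comm, ← Real.dist_eq]; exact (hga x).le
    · have h3 : f x = 0 := image_eq_zero_of_notMem_tsupport hx
      have h4 : g x = 0 := by
        by_contra h5
        exact (hgs h5) h3
      rw [h3, h4, sub_zero, abs_zero]
      exact mul_nonneg (by positivity) (hζ1 x).1
  have h3 := abs_int_le (hζ.integrable_of_hasCompactSupport (μ := μ) hζs) hb
  have h4 := abs_int_le (hζ.integrable_of_hasCompactSupport (μ := ν) hζs) hb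
  rw [integral_sub f.integrable (hg.continuous.integrable_of_hasCompactSupport hgc)] at h3 h4
  rw [h g hg hgc] at h3
  rw [Real.dist_eq]
  have h5 : e / A * (∫ y, ζ y ∂μ + ∫ y, ζ y ∂ν) ≤ e := by
    calc _ ≤ e / A * A := by gcongr; exact (lt_add_one _).le
      _ = e := by field_simp
  rw [abs_le] at h3 h4 ⊢
  constructor <;> linarith [h3.1, h3.2, h4.1, h4.2]

theorem ext_c1 {μ ν : Measure E} [IsFiniteMeasureOnCompacts μ] [IsFiniteMeasureOnCompacts ν]
    (h : ∀ φ : E → ℝ, ContDiff ℝ 1 φ → HasCompactSupport φ → ∫ y, φ y ∂μ = ∫ y, φ y ∂ν) :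
    μ = ν := ext_sm fun φ h1 h2 => h φ (h1.of_le (by simp)) h2

theorem ext_c2 {μ ν : Measure E} [IsFiniteMeasureOnCompacts μ] [IsFiniteMeasureOnCompacts ν]
    (h : ∀ φ : E → ℝ, ContDiff ℝ 2 φ → HasCompactSupport φ → ∫ y, φ y ∂μ = ∫ y, φ y ∂ν) :
    μ = ν := ext_sm fun φ h1 h2 => h φ (contDiff_infty.1 h1 2) h2

end kernel

end Vale.Agent.P366L
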