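import Vale.Agent.P366L.Basic

/-!
# P366L: integrals in orthonormal frames, steps, the lower bound of the mass, thin slabs
-/

set_option linter.unusedSectionVars false

open MeasureTheory Set Filter Topology Metric
open scoped ContDiff InnerProductSpace ENNReal

noncomputable section

namespace Vale.Agent.P366L

variable {E F : Type} [NormedAddCommGroup E] [InnerProductSpace ℝ E] [FiniteDimensional ℝ E]
  [NormedAddCommGroup F] [InnerProductSpace ℝ F] [FiniteDimensional ℝ F]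

/-- the extension of an isometry by a unit vector -/
def ext (L : F →ₗᵢ[ℝ] E) (q : E) (h1 : ‖q‖ = 1) (h2 : ∀ w, ⟪q, L w⟫_ℝ = 0) :
    WithLp 2 (F × ℝ) →ₗᵢ[ℝ] E where
  toFun u := L u.fst + u.snd • q
  map_add' u v := by
    simp only [WithLp.add_fst, WithLp.add_snd, map_add, add_smul]; abel
  map_smul' c u := by
    simp only [WithLp.smul_fst, WithLp.smul_snd, map_smul, smul_eq_mul, RingHom.id_apply,
      smul_add, mul_smul]
  norm_map' u := by
    rw [← sq_eq_sq₀ (norm_nonneg _) (norm_nonneg _), WithLp.prod_norm_sq_eq_of_L2]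
    simp only [LinearMap.coe_mk, AddHom.coe_mk]
    rw [norm_add_sq_real, inner_smul_right, real_inner_comm, h2, norm_smul, h1, L.norm_map]
    ring

theorem ext_apply (L : F →ₗᵢ[ℝ] E) (q : E) (h1 : ‖q‖ = 1) (h2 : ∀ w, ⟪q, L w⟫_ℝ = 0)
    (u : WithLp 2 (F × ℝ)) : ext L q h1 h2 u = L u.fst + u.snd • q := rfl

theorem finrank_ext : Module.finrank ℝ (WithLp 2 (F × ℝ)) = Module.finrank ℝ F + 1 := by
  rw [(WithLp.linearEquiv 2 ℝ (F × ℝ)).finrank_eq, Module.finrank_prod, Module.finrank_self]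

/-- the projection that belongs to an isometry -/
def pj (L : F →ₗᵢ[ℝ] E) : E →L[ℝ] F := ContinuousLinearMap.adjoint L.toContinuousLinearMap

theorem inner_pj (L : F →ₗᵢ[ℝ] E) (y : E) (w : F) : ⟪pj L y, w⟫_ℝ = ⟪y, L w⟫_ℝ :=
  ContinuousLinearMap.adjoint_inner_left _ _ _

theorem pj_L (L : F →ₗᵢ[ℝ] E) (w : F) : pj L (L w) = w :=
  ext_inner_right ℝ fun v => by rw [inner_pj, L.inner_map_map]

theorem pj_orth (L : F →ₗᵢ[ℝ] E) {q : E} (h : ∀ w, ⟪q, L w⟫_ℝ = 0) : pj L q = 0 :=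
  ext_inner_right ℝ fun v => by rw [inner_pj, h, inner_zero_left]

theorem norm_pj (L : F →ₗᵢ[ℝ] E) : ‖pj L‖ ≤ 1 := by
  rw [pj, LinearIsometryEquiv.norm_map]
  exact L.norm_toContinuousLinearMap_le

theorem norm_pj_le (L : F →ₗᵢ[ℝ] E) (y : E) : ‖pj L y‖ ≤ ‖y‖ :=
  ((pj L).le_opNorm y).trans (mul_le_of_le_one_left (norm_nonneg _) (norm_pj L))

theorem decomp (L : F →ₗᵢ[ℝ] E) {q : E} (h1 : ‖q‖ = 1) (h2 : ∀ w, ⟪q, L w⟫_ℝ = 0)
    (hd : Module.finrank ℝ F + 1 = Module.finrank ℝ E) (y : E) :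
    L (pj L y) + ⟪q, y⟫_ℝ • q = y := by
  obtain ⟨u, rfl⟩ := ((ext L q h1 h2).toLinearIsometryEquiv (finrank_ext.trans hd)).surjective y
  change L (pj L (L u.fst + u.snd • q)) + ⟪q, L u.fst + u.snd • q⟫_ℝ • q = L u.fst + u.snd • q
  rw [map_add, map_smul, pj_L, pj_orth L h2, smul_zero, add_zero, inner_add_right, h2,
    inner_smul_right, real_inner_self_eq_norm_sq, h1]
  simp

theorem exists_frame {n : ℕ} (hE : Module.finrank ℝ E = n + 1) {e : E} (he : ‖e‖ = 1) :
    ∃ L : EuclideanSpace ℝ (Fin n) →ₗᵢ[ℝ] E, ∀ w, ⟪e, L w⟫_ℝ = 0 := by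
  have : Fact (Module.finrank ℝ E = n + 1) := ⟨hE⟩
  have h0 : e ≠ 0 := norm_ne_zero_iff.1 (he ▸ one_ne_zero)
  let b := OrthonormalBasis.fromOrthogonalSpanSingleton (𝕜 := ℝ) n h0
  exact ⟨(Submodule.subtypeₗᵢ _).comp b.repr.symm.toLinearIsometry, fun w =>
    Submodule.mem_orthogonal_singleton_iff_inner_right.1 (b.repr.symm w).2⟩

/-! ### steps -/

/-- the derivative of the smooth step -/
def sg (t : ℝ) : ℝ := deriv Real.smoothTransition t

theorem sg_deriv (t : ℝ) : HasDerivAt Real.smoothTransition (sg t) t :=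
  ((Real.smoothTransition.contDiff (n := 1)).differentiable one_ne_zero t).hasDerivAt

theorem sg_nonneg (t : ℝ) : 0 ≤ sg t := Real.smoothTransition.monotone.deriv_nonneg

theorem sg_cont : Continuous sg := (Real.smoothTransition.contDiff (n := 1)).continuous_deriv le_rfl

theorem sg_mem {t : ℝ} (h : sg t ≠ 0) : 0 ≤ t ∧ t ≤ 1 := by
  by_contra h1
  refine h ((sg_deriv t).unique ?_)
  rcases not_and_or.1 h1 with h2 | h2
  · refine (hasDerivAt_const t (0 : ℝ)).congr_of_eventuallyEq ?_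
    filter_upwards [Iio_mem_nhds (not_le.1 h2)] with s hs
    exact Real.smoothTransition.zero_of_nonpos (le_of_lt hs)
  · refine (hasDerivAt_const t (1 : ℝ)).congr_of_eventuallyEq ?_
    filter_upwards [Ioi_mem_nhds (not_le.1 h2)] with s hs
    exact Real.smoothTransition.one_of_one_le (le_of_lt hs)

theorem sg_cs : HasCompactSupport sg :=
  HasCompactSupport.intro (isCompact_Icc (a := (0 : ℝ)) (b := 1)) fun _ ht =>
    by_contra fun h => ht (sg_mem h)

theorem sg_int : ∫ t, sg t = 1 := by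
  rw [← setIntegral_eq_integral_of_forall_compl_eq_zero (s := Icc (0 : ℝ) 1)
    fun t ht => by_contra fun h => ht (sg_mem h), integral_Icc_eq_integral_Ioc,
    ← intervalIntegral.integral_of_le zero_le_one,
    intervalIntegral.integral_eq_sub_of_hasDerivAt (fun t _ => sg_deriv t)
      (sg_cont.intervalIntegrable _ _)]
  simp

theorem sg_lint {a : ℝ} (ha : a ≠ 0) (c : ℝ) :
    ∫⁻ t, ENNReal.ofReal (|a| * sg (a * t + c)) = 1 := by
  have h1 : Integrable fun t => sg (t + c) :=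
    (sg_cont.integrable_of_hasCompactSupport sg_cs).comp_add_right c
  rw [← ofReal_integral_eq_lintegral_ofReal ((h1.comp_mul_left' ha).const_mul _)
    (Eventually.of_forall fun t => mul_nonneg (abs_nonneg _) (sg_nonneg _)), integral_const_mul,
    Measure.integral_comp_mul_left (fun t => sg (t + c)) a, integral_add_right_eq_self sg c, sg_int,
    abs_inv, smul_eq_mul, mul_one, mul_inv_cancel₀ (abs_ne_zero.2 ha), ENNReal.ofReal_one]

/-- a step in the direction `l` -/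
def stp (l : E) (a c : ℝ) (y : E) : ℝ := Real.smoothTransition (a * ⟪l, y⟫_ℝ + c)

theorem stp_c1 (l : E) (a c : ℝ) : ContDiff ℝ 1 (stp l a c) :=
  (Real.smoothTransition.contDiff (n := 1)).comp
    ((contDiff_const.mul (contDiff_const.inner ℝ contDiff_id)).add contDiff_const)

theorem stp_nonneg (l : E) (a c : ℝ) (y : E) : 0 ≤ stp l a c y := Real.smoothTransition.nonneg _

theorem stp_le (l : E) (a c : ℝ) (y : E) : stp l a c y ≤ 1 := Real.smoothTransition.le_one _

theorem stp_pos {l : E} {a c : ℝ} {y : E} (h : stp l a c y ≠ 0) : 0 < a * ⟪l, y⟫_ℝ + c :=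
  not_le.1 fun h1 => h (Real.smoothTransition.zero_of_nonpos h1)

theorem stp_norm {l : E} (hl : ‖l‖ = 1) (a c : ℝ) (y : E) :
    ‖fderiv ℝ (stp l a c) y‖ = |a| * sg (a * ⟪l, y⟫_ℝ + c) := by
  have h1 : HasFDerivAt (fun y : E => a * ⟪l, y⟫_ℝ + c) (a • innerSL ℝ l) y :=
    (((innerSL ℝ l).hasFDerivAt (x := y)).const_mul a).add_const c
  have h2 := ((sg_deriv _).comp_hasFDerivAt y h1).fderiv
  change ‖fderiv ℝ (Real.smoothTransition ∘ fun y : E => a * ⟪l, y⟫_ℝ + c) y‖ = _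
  rw [h2, norm_smul, norm_smul, innerSL_apply_norm, hl, Real.norm_eq_abs, Real.norm_eq_abs,
    abs_of_nonneg (sg_nonneg _)]
  ring

theorem norm_fderiv_mul {f g : E → ℝ} (hf : ContDiff ℝ 1 f) (hg : ContDiff ℝ 1 g) {y : E}
    (h1 : 0 ≤ f y) (h2 : 0 ≤ g y) : ‖fderiv ℝ (fun y => f y * g y) y‖ ≤
      ‖fderiv ℝ f y‖ * g y + f y * ‖fderiv ℝ g y‖ := by
  rw [fderiv_fun_mul (hf.differentiable one_ne_zero y) (hg.differentiable one_ne_zero y), add_comm]
  refine (norm_add_le _ _).trans_eq ?_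
  rw [norm_smul, norm_smul, Real.norm_of_nonneg h1, Real.norm_of_nonneg h2, mul_comm]

theorem norm_fderiv_pj (L : F →ₗᵢ[ℝ] E) {g : F → ℝ} (hg : ContDiff ℝ 1 g) (y : E) :
    ‖fderiv ℝ (fun y => g (pj L y)) y‖ ≤ ‖fderiv ℝ g (pj L y)‖ := by
  have h := ((hg.differentiable one_ne_zero _).hasFDerivAt.comp y (pj L).hasFDerivAt).fderiv
  change ‖fderiv ℝ (g ∘ pj L) y‖ ≤ _
  rw [h]
  exact (ContinuousLinearMap.opNorm_comp_le _ _).trans
    (mul_le_of_le_one_right (norm_nonneg _) (norm_pj L))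

variable [MeasurableSpace E] [BorelSpace E] [MeasurableSpace F] [BorelSpace F]

theorem split (L : F →ₗᵢ[ℝ] E) {q : E} (h1 : ‖q‖ = 1) (h2 : ∀ w, ⟪q, L w⟫_ℝ = 0)
    (hd : Module.finrank ℝ F + 1 = Module.finrank ℝ E) :
    MeasurePreserving (fun x : F × ℝ => L x.1 + x.2 • q) volume volume :=
  ((ext L q h1 h2).toLinearIsometryEquiv (finrank_ext.trans hd)).measurePreserving.comp
    (WithLp.volume_preserving_toLp F ℝ)

theorem box1 (L : F →ₗᵢ[ℝ] E) {q : E} (h1 : ‖q‖ = 1) (h2 : ∀ w, ⟪q, L w⟫_ℝ = 0)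
    (hd : Module.finrank ℝ F + 1 = Module.finrank ℝ E) {Φ : E → ℝ≥0∞} {g : F → ℝ≥0∞}
    {h : ℝ → ℝ≥0∞} (hg : Measurable g) (hh : Measurable h)
    (H : ∀ w t, Φ (L w + t • q) ≤ g w * h t) : ∫⁻ y, Φ y ≤ (∫⁻ w, g w) * ∫⁻ t, h t := by
  rw [← (split L h1 h2 hd).map_eq, ← lintegral_prod_mul hg.aemeasurable hh.aemeasurable]
  exact (lintegral_map_le _ _).trans (lintegral_mono fun x => H x.1 x.2)

theorem box2 (L : F →ₗᵢ[ℝ] E) {p q : E} (hp1 : ‖p‖ = 1) (hp2 : ∀ w, ⟪p, L w⟫_ℝ = 0)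
    (h1 : ‖q‖ = 1) (h2 : ∀ w, ⟪q, L w⟫_ℝ = 0) (hpq : ⟪q, p⟫_ℝ = 0)
    (hd : Module.finrank ℝ F + 2 = Module.finrank ℝ E) {Φ : E → ℝ≥0∞} {g : F → ℝ≥0∞}
    {h k : ℝ → ℝ≥0∞} (hg : Measurable g) (hh : Measurable h) (hk : Measurable k)
    (H : ∀ w s t, Φ (L w + s • p + t • q) ≤ g w * h s * k t) :
    ∫⁻ y, Φ y ≤ (∫⁻ w, g w) * (∫⁻ s, h s) * ∫⁻ t, k t := by
  have hm : Measurable fun x : F × ℝ => g x.1 * h x.2 :=
    (hg.comp measurable_fst).mul (hh.comp measurable_snd)
  refine (box1 (ext L p hp1 hp2) h1 (fun u => ?_) (by rw [finrank_ext]; exact hd)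
    (g := fun u => g u.fst * h u.snd)
    (hm.comp (WithLp.volume_preserving_ofLp F ℝ).measurable) hk fun u t => H _ _ _).trans_eq ?_
  · rw [ext_apply, inner_add_right, h2, inner_smul_right, hpq]; simp
  · rw [← lintegral_prod_mul hg.aemeasurable hh.aemeasurable]
    exact congrArg (· * _) ((WithLp.volume_preserving_ofLp F ℝ).lintegral_comp hm)

theorem int_kr {n : ℕ} (hF : Module.finrank ℝ F = n) (x : F) {s : ℝ} (hs : 0 < s) :
    ∫ y, kr x s y = s ^ n * cn n := by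
  have h1 : ∫ y : F, kr 0 1 y = cn n := by
    let T : F ≃ₗᵢ[ℝ] EuclideanSpace ℝ (Fin n) :=
      ((stdOrthonormalBasis ℝ F).reindex (finCongr hF)).repr
    rw [cn, ← T.measurePreserving.integral_comp T.toHomeomorph.measurableEmbedding]
    simp [kr]
  have h2 : ∀ y, kr x s y = kr 0 1 (s⁻¹ • (y - x)) := fun y => by
    simpa using (kr_zoom x 0 y 1 hs).symm
  simp only [h2]
  rw [integral_sub_right_eq_self (fun y => kr 0 1 (s⁻¹ • y)) x,
    Measure.integral_comp_inv_smul_of_nonneg volume _ hs.le, h1, hF, smul_eq_mul]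

theorem cn_pos (n : ℕ) : 0 < cn n := by
  have h := int_kr (F := EuclideanSpace ℝ (Fin n)) (n := n) (by simp) 0 one_pos
  rw [one_pow, one_mul] at h
  rw [← h]
  exact (kr_cont 0 1).integral_pos_of_hasCompactSupport_nonneg_nonzero (kr_cs 0 one_pos)
    (kr_nonneg 0 1) (x := 0) (kr_pos (by simp)).ne'

/-- the mass near a flat piece of the support is at least its area -/
theorem lower {n : ℕ} {μ : Measure E} [IsFiniteMeasureOnCompacts μ] (hl : Low n μ)
    (hF : Module.finrank ℝ F = n) (T : F →ₗᵢ[ℝ] E) {A : Set F} (hA : MeasurableSet A)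
    (hs : ∀ u ∈ A, T u ∈ μ.support) {s : ℝ} (h0 : 0 < s) {N : Set E} (hN : MeasurableSet N)
    (hn : ∀ z, ∀ u ∈ A, ‖z - T u‖ < s → z ∈ N) : volume A ≤ μ N := by
  set c := ENNReal.ofReal (s ^ n * cn n) with hc
  have hc0 : c ≠ 0 := (ENNReal.ofReal_pos.2 (mul_pos (pow_pos h0 n) (cn_pos n))).ne'
  have hm : Measurable fun x : F × E => ENNReal.ofReal (kr (T x.1) s x.2) :=
    ((kr_cont2 s).comp (f := fun x : F × E => (T x.1, x.2))
      (by fun_prop)).measurable.ennreal_ofReal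
  rw [← ENNReal.mul_le_mul_iff_right hc0 ENNReal.ofReal_ne_top]
  calc c * volume A = ∫⁻ _ in A, c := (setLIntegral_const A c).symm
    _ ≤ ∫⁻ u in A, ∫⁻ z, ENNReal.ofReal (kr (T u) s z) ∂μ := by
        refine setLIntegral_mono' hA fun u hu => ?_
        rw [← ofReal_integral_eq_lintegral_ofReal
          ((kr_cont _ s).integrable_of_hasCompactSupport (kr_cs _ h0))
          (Eventually.of_forall (kr_nonneg _ s))]
        refine ENNReal.ofReal_le_ofReal ?_
        have := hl _ (hs u hu) s h0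
        rwa [Th, le_div_iff₀ (pow_pos h0 n), mul_comm] at this
    _ = ∫⁻ z, (∫⁻ u in A, ENNReal.ofReal (kr (T u) s z)) ∂μ :=
        lintegral_lintegral_swap hm.aemeasurable
    _ ≤ ∫⁻ z, N.indicator (fun _ => c) z ∂μ := by
        refine lintegral_mono fun z => ?_
        by_cases hz : z ∈ N
        · rw [indicator_of_mem hz, hc, ← int_kr hF (pj T z) h0,
            ofReal_integral_eq_lintegral_ofReal
              ((kr_cont _ s).integrable_of_hasCompactSupport (kr_cs _ h0))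
              (Eventually.of_forall (kr_nonneg _ s))]
          refine (setLIntegral_le_lintegral _ _).trans (lintegral_mono fun u => ?_)
          refine ENNReal.ofReal_le_ofReal (ch_anti ?_)
          have h1 : ‖u - pj T z‖ ≤ ‖z - T u‖ := by
            have := norm_pj_le T (z - T u)
            rwa [map_sub, pj_L, norm_sub_rev] at this
          gcongr
        · rw [indicator_of_notMem hz]
          refine (setLIntegral_mono' hA (g := fun _ => 0) fun u hu => ?_).trans_eq lintegral_zero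
          rw [kr_zero h0 (not_lt.1 fun h => hz (hn z u hu h)), ENNReal.ofReal_zero]
    _ = c * μ N := lintegral_indicator_const hN c

theorem Cal.lint {μ : Measure E} [IsFiniteMeasureOnCompacts μ] (h : Cal μ) {ψ : E → ℝ}
    (h1 : ContDiff ℝ 1 ψ) (h2 : HasCompactSupport ψ) (h3 : ∀ y, 0 ≤ ψ y) :
    ENNReal.ofReal (2 * ∫ y, ψ y ∂μ) ≤ ∫⁻ y, ENNReal.ofReal ‖fderiv ℝ ψ y‖ := by
  rw [← ofReal_integral_eq_lintegral_ofReal
    ((h1.continuous_fderiv one_ne_zero).integrable_of_hasCompactSupport (h2.fderiv ℝ)).norm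
    (Eventually.of_forall fun _ => norm_nonneg _)]
  exact ENNReal.ofReal_le_ofReal (h ψ h1 h2 h3)

theorem lint_cs {g : F → ℝ} (h1 : Continuous g) (h2 : HasCompactSupport g) (h3 : ∀ w, 0 ≤ g w) :
    ∫⁻ w, ENNReal.ofReal (g w) = ENNReal.ofReal (∫ w, g w) :=
  (ofReal_integral_eq_lintegral_ofReal (h1.integrable_of_hasCompactSupport h2)
    (Eventually.of_forall h3)).symm

theorem lint_Icc (a b : ℝ) :
    ∫⁻ t, (Icc a b).indicator (fun _ => (1 : ℝ≥0∞)) t = ENNReal.ofReal (b - a) := by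
  rw [lintegral_indicator_const measurableSet_Icc, one_mul, Real.volume_Icc]

theorem meas_Icc (a b : ℝ) : Measurable ((Icc a b).indicator fun _ : ℝ => (1 : ℝ≥0∞)) :=
  measurable_const.indicator measurableSet_Icc

theorem meas_sg (a c : ℝ) : Measurable fun t : ℝ => ENNReal.ofReal (|a| * sg (a * t + c)) :=
  (continuous_const.mul (sg_cont.comp (by fun_prop))).measurable.ennreal_ofReal

/-- a measure that lives on a hyperplane has density at most one -/
theorem slab {n : ℕ} (hE : Module.finrank ℝ E = n + 1) {μ : Measure E}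
    [IsFiniteMeasureOnCompacts μ] (hc : Cal μ) {e : E} (he : ‖e‖ = 1)
    (hs : ∀ x ∈ μ.support, ⟪e, x⟫_ℝ = 0) : Th n μ 0 1 ≤ cn n := by
  obtain ⟨L, hL⟩ := exists_frame hE he
  have hd : Module.finrank ℝ (EuclideanSpace ℝ (Fin n)) + 1 = Module.finrank ℝ E := by simp [hE]
  set g : EuclideanSpace ℝ (Fin n) → ℝ := kr 0 1 with hg
  have g1 : ContDiff ℝ 1 g := (kr_c2 0 1).of_le one_le_two
  have g2 : HasCompactSupport g := kr_cs 0 one_pos
  have g3 : ∫ w, g w = cn n := by simpa using int_kr (n := n) (by simp) 0 one_pos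
  set D := ∫ w, ‖fderiv ℝ g w‖ with hD
  have hD0 : 0 ≤ D := integral_nonneg fun _ => norm_nonneg _
  have key : ∀ η > (0 : ℝ), 2 * Th n μ 0 1 ≤ D * (η - -η) + cn n + cn n := by
    intro η hη
    have hη' : η⁻¹ ≠ 0 := inv_ne_zero hη.ne'
    have G1 : ContDiff ℝ 1 fun y => g (pj L y) := g1.comp (pj L).contDiff
    let ψ : E → ℝ := fun y => g (pj L y) * stp e η⁻¹ 1 y * stp e (-η⁻¹) 1 y
    have ψ1 : ContDiff ℝ 1 ψ := (G1.mul (stp_c1 _ _ _)).mul (stp_c1 _ _ _)
    have hin : ∀ y, stp e η⁻¹ 1 y ≠ 0 → stp e (-η⁻¹) 1 y ≠ 0 → ⟪e, y⟫_ℝ ∈ Icc (-η) η := by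
      intro y h1 h2
      have h3 := mul_pos hη (stp_pos h1)
      have h4 := mul_pos hη (stp_pos h2)
      rw [mul_add, ← mul_assoc] at h3 h4
      rw [mul_inv_cancel₀ hη.ne'] at h3
      rw [mul_neg, mul_inv_cancel₀ hη.ne'] at h4
      constructor <;> linarith
    have ψ2 : HasCompactSupport ψ := by
      refine HasCompactSupport.intro (isCompact_closedBall (0 : E) (1 + η)) fun y hy => ?_
      by_contra h
      obtain ⟨h1, h2⟩ := mul_ne_zero_iff.1 h
      obtain ⟨h1, h3⟩ := mul_ne_zero_iff.1 h1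
      refine hy (mem_closedBall_zero_iff.2 ?_)
      have h4 : ‖pj L y‖ ≤ 1 := by
        by_contra h5
        exact h1 (kr_zero one_pos (by simpa using (not_le.1 h5).le))
      rw [← decomp L he hL hd y]
      refine (norm_add_le _ _).trans (add_le_add (by simpa using h4) ?_)
      rw [norm_smul, he, mul_one, Real.norm_eq_abs]
      exact abs_le.2 (hin y h3 h2)
    have ψ3 : ∀ y, 0 ≤ ψ y := fun y =>
      mul_nonneg (mul_nonneg (kr_nonneg _ _ _) (stp_nonneg _ _ _ _)) (stp_nonneg _ _ _ _)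
    have e1 : Th n μ 0 1 = ∫ y, ψ y ∂μ := by
      rw [Th, one_pow, div_one]
      refine integral_congr_ae ?_
      filter_upwards [Measure.support_mem_ae (μ := μ)] with y hy
      have h1 : ‖pj L y‖ = ‖y‖ := by
        conv_rhs => rw [← decomp L he hL hd y, hs y hy]
        simp
      simp [ψ, stp, hs y hy, hg, kr, h1]
    have hin2 : ∀ w t, ⟪e, L w + t • e⟫_ℝ = t := fun w t => by
      rw [inner_add_right, hL, inner_smul_right, real_inner_self_eq_norm_sq, he]; simp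
    have hpj : ∀ w (t : ℝ), pj L (L w + t • e) = w := fun w t => by
      rw [map_add, map_smul, pj_L, pj_orth L hL, smul_zero, add_zero]
    have mg : Measurable fun w => ENNReal.ofReal (g w) := g1.continuous.measurable.ennreal_ofReal
    have cD : Continuous fun w => ‖fderiv ℝ g w‖ := (g1.continuous_fderiv one_ne_zero).norm
    have b1 := box1 L he hL hd (Φ := fun y => ENNReal.ofReal (‖fderiv ℝ g (pj L y)‖ *
        stp e η⁻¹ 1 y * stp e (-η⁻¹) 1 y)) cD.measurable.ennreal_ofReal (meas_Icc (-η) η)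
      fun w t => by
        by_cases h : stp e η⁻¹ 1 (L w + t • e) ≠ 0 ∧ stp e (-η⁻¹) 1 (L w + t • e) ≠ 0
        · have h1 := hin _ h.1 h.2
          rw [hin2] at h1
          rw [indicator_of_mem h1, mul_one, hpj, mul_assoc]
          exact ENNReal.ofReal_le_ofReal (mul_le_of_le_one_right (norm_nonneg _)
            (mul_le_one₀ (stp_le _ _ _ _) (stp_nonneg _ _ _ _) (stp_le _ _ _ _)))
        · rcases not_and_or.1 h with h | h <;> simp [not_not.1 h]
    have b2 : ∀ a : ℝ, a ≠ 0 → ∫⁻ y, ENNReal.ofReal (g (pj L y) * (|a| * sg (a * ⟪e, y⟫_ℝ + 1))) ≤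
        ENNReal.ofReal (cn n) := fun a ha =>
      (box1 L he hL hd mg (meas_sg a 1) fun w t => by
        rw [hpj, hin2, ENNReal.ofReal_mul (kr_nonneg _ _ _)]).trans_eq (by
          rw [sg_lint ha, mul_one, lint_cs g1.continuous g2 (kr_nonneg _ _), g3])
    rw [lint_cs cD (g2.fderiv ℝ).norm fun _ => norm_nonneg _, lint_Icc,
      ← ENNReal.ofReal_mul hD0] at b1
    have hm : ∀ a : ℝ, Measurable fun y : E =>
        ENNReal.ofReal (g (pj L y) * (|a| * sg (a * ⟪e, y⟫_ℝ + 1))) := fun a =>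
      (G1.continuous.mul (continuous_const.mul (sg_cont.comp (by fun_prop)))).measurable
        |>.ennreal_ofReal
    have h5 := (hc.lint ψ1 ψ2 ψ3).trans (lintegral_mono (g := fun y =>
      ENNReal.ofReal (‖fderiv ℝ g (pj L y)‖ * stp e η⁻¹ 1 y * stp e (-η⁻¹) 1 y) +
        ENNReal.ofReal (g (pj L y) * (|η⁻¹| * sg (η⁻¹ * ⟪e, y⟫_ℝ + 1))) +
        ENNReal.ofReal (g (pj L y) * (|-η⁻¹| * sg (-η⁻¹ * ⟪e, y⟫_ℝ + 1)))) fun y => ?_)
    · rw [lintegral_add_right _ (hm _), lintegral_add_right _ (hm _)] at h5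
      have h6 := h5.trans (add_le_add (add_le_add b1 (b2 _ hη')) (b2 _ (neg_ne_zero.2 hη')))
      have h7 : 0 ≤ D * (η - -η) := mul_nonneg hD0 (by linarith)
      rw [← ENNReal.ofReal_add h7 (cn_pos n).le,
        ← ENNReal.ofReal_add (add_nonneg h7 (cn_pos n).le) (cn_pos n).le,
        ENNReal.ofReal_le_ofReal_iff (add_nonneg (add_nonneg h7 (cn_pos n).le) (cn_pos n).le)] at h6
      rwa [e1]
    · have p0 : 0 ≤ g (pj L y) := kr_nonneg _ _ _
      have p1 := stp_nonneg e η⁻¹ 1 y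
      have p2 := stp_nonneg e (-η⁻¹) 1 y
      have p3 : ∀ a : ℝ, 0 ≤ |a| * sg (a * ⟪e, y⟫_ℝ + 1) := fun a =>
        mul_nonneg (abs_nonneg _) (sg_nonneg _)
      dsimp only
      rw [← ENNReal.ofReal_add (by positivity) (mul_nonneg p0 (p3 _)),
        ← ENNReal.ofReal_add (add_nonneg (by positivity) (mul_nonneg p0 (p3 _)))
          (mul_nonneg p0 (p3 _))]
      refine ENNReal.ofReal_le_ofReal ((norm_fderiv_mul (G1.mul (stp_c1 _ _ _)) (stp_c1 _ _ _)
        (mul_nonneg p0 p1) p2).trans ?_)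
      have q1 := norm_fderiv_mul G1 (stp_c1 e η⁻¹ 1) p0 p1
      have q2 := norm_fderiv_pj L g1 y
      rw [stp_norm he] at q1 ⊢
      refine add_le_add ((mul_le_mul_of_nonneg_right q1 p2).trans ?_) ?_
      · rw [add_mul]
        exact add_le_add (by gcongr)
          (mul_le_of_le_one_right (mul_nonneg p0 (p3 _)) (stp_le _ _ _ _))
      · exact mul_le_mul_of_nonneg_right (mul_le_of_le_one_right p0 (stp_le _ _ _ _)) (p3 _)
  have h1 : Tendsto (fun η : ℝ => D * (η - -η) + cn n + cn n) (𝓝[>] 0)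
      (𝓝 (D * (0 - -0) + cn n + cn n)) :=
    (Continuous.tendsto (by fun_prop) 0).mono_left nhdsWithin_le_nhds
  have h2 := ge_of_tendsto h1 (eventually_nhdsWithin_of_forall key)
  linarith

end Vale.Agent.P366L
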