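import Vale.Agent.P366L.Null
import Vale.Agent.P366Q.O.Mb0

/-!
# P366L: the two sides of the limit of capillary graphs
-/

open MeasureTheory Set Filter Topology Metric
open scoped ContDiff RealInnerProductSpace ENNReal NNReal
open Vale.Agent.P366.Stmt Vale.Agent.P366W Vale.Agent.P366Z
open Vale.Agent.P366D (snc ini Null)
open Vale.Agent.P366C (Cf)
open Vale.Agent.P366R (Cv Cw Gl Mv glim app_or gs)
open Fin (last)

noncomputable section

namespace Vale.Agent.P366L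

variable {n : ℕ} {ι : Type} {𝒰 : Ultrafilter ι}

/-- from moving points to neighbourhoods -/
theorem ev_of_mv {X : Type} [PseudoMetricSpace X] [ProperSpace X] {A : ι → Set X} {y : X}
    (hA : ∀ i, IsClosed (A i)) (h : ∀ x : ι → X, Tendsto x 𝒰 (𝓝 y) →
      ∀ᶠ i in (𝒰 : Filter ι), x i ∉ A i) : ∀ᶠ p in (𝒰 : Filter ι) ×ˢ 𝓝 y, p.2 ∉ A p.1 := by
  rcases app_or 𝒰 (Eventually.of_forall hA) y with ⟨r, r0, hr⟩ | ⟨x, h1, h2⟩
  · exact ev_of_ball (P := fun i x => x ∉ A i) (ball_mem_nhds y r0) hr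
  · obtain ⟨i, a, b⟩ := ((h x h1).and h2).exists
    exact (a b).elim

/-- the sign is constant -/
theorem sign_or {X : Type} [NormedAddCommGroup X] [NormedSpace ℝ X] {u : ι → X → ℝ} {y : X} {T : ℝ}
    (hu : ∀ i, Continuous (u i)) (T0 : 0 ≤ T)
    (h : ∀ᶠ p in (𝒰 : Filter ι) ×ˢ 𝓝 y, T < |u p.1 p.2|) :
    (∀ᶠ p in (𝒰 : Filter ι) ×ˢ 𝓝 y, T < u p.1 p.2) ∨
      ∀ᶠ p in (𝒰 : Filter ι) ×ˢ 𝓝 y, T < -u p.1 p.2 := by
  obtain ⟨r, r0, hr⟩ := ev_ball (P := fun i x => T < |u i x|) h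
  refine (Ultrafilter.eventually_or.1 (hr.mono fun i hi => ?_)).imp
    (ev_of_ball (P := fun i x => T < u i x) (ball_mem_nhds y r0))
    (ev_of_ball (P := fun i x => T < -u i x) (ball_mem_nhds y r0))
  refine ((convex_ball y r).isPreconnected.subset_or_subset (isOpen_lt continuous_const (hu i))
    (isOpen_lt continuous_const (hu i).neg) (Set.disjoint_left.2 fun x a b => ?_)
    fun x hx => lt_abs.1 (hi x hx)).imp (fun a x hx => a hx) fun a x hx => a hx
  have a' : T < u i x := a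
  have b' : T < -u i x := b
  linarith

/-- **the sides of the limit** -/
theorem exists_side (n : ℕ) : ∃ ε₀ > (0 : ℝ), ∀ (ι : Type) (𝒰 : Ultrafilter ι) (G : Field n)
    (φ H : E n → ℝ) (u : ι → E n → ℝ) (c ε : ι → ℝ) (O : Set (E n)) (S Λ T T' : ℝ) (x : E n),
    Cf 𝒰 G φ H u c ε O S Λ → x ∈ O → 0 ≤ T' → T' < T → T < S →
    (∀ z, |z| ≤ T → snc x z ∉ Bad 𝒰 (fun i => cs G φ (u i)) ε₀) →
    (∀ᶠ p in (𝒰 : Filter ι) ×ˢ 𝓝 x, T < u p.1 p.2) ∨
    (∀ᶠ p in (𝒰 : Filter ι) ×ˢ 𝓝 x, T < -u p.1 p.2) ∨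
    ∃ w : E n → ℝ, Smooth w ∧ w x = 0 ∧ fderiv ℝ w x ≠ 0 ∧ ∀ᶠ y in 𝓝 x,
      (0 < w y → ∀ᶠ p in (𝒰 : Filter ι) ×ˢ 𝓝 y, T < u p.1 p.2) ∧
      (w y < 0 → ∀ᶠ p in (𝒰 : Filter ι) ×ˢ 𝓝 y, T < -u p.1 p.2) := by
  obtain ⟨ε₁, e1, hL⟩ := exists_lp n
  obtain ⟨ε₂, e2, c₂, c0, -, -, hG⟩ := glim white n
  refine ⟨min ε₁ ε₂, lt_min e1 e2, fun ι 𝒰 G φ H u c ε O S Λ T T' x h hx T0 T1 T2 hb => ?_⟩
  have mono : ∀ {e}, min ε₁ ε₂ ≤ e → ∀ z, |z| ≤ T → snc x z ∉ Bad 𝒰 (fun i => cs G φ (u i)) e :=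
    fun he z hz hb' => hb z hz (Frequently.mono hb' fun l hl => hl.mono fun i hi => by linarith)
  have gp : ∀ z, |z| ≤ T → Gp 𝒰 (fun i => cs G φ (u i)) (snc x z) := fun z hz =>
    cf_gp h (by rwa [P366P.ini_snc]) (by rw [P366P.snc_last]; linarith)
  obtain ⟨K, K0, ρ₀, ρ0, sg₀⟩ := exists_seg fun z hz =>
    hL _ _ _ _ (gp z hz) (mono (min_le_left _ _) z hz)
  obtain ⟨ρ₁, ρ1, hO⟩ := Metric.isOpen_iff.1 h.opn x hx
  have sg := sg₀.mono (min_le_left ρ₀ ρ₁)
  have ρ2 := lt_min ρ0 ρ1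
  replace hO := (ball_subset_ball (min_le_right ρ₀ ρ₁)).trans hO
  have cu : ∀ i, Continuous (u i) := fun i => (h.smu i).continuous
  have ok := fun i => cs_ok h.met h.smφ (h.smu i)
  have T3 : |T'| ≤ T := by rw [abs_of_nonneg T0]; exact T1.le
  have lev := fun y hy => sg.lev h.met h.smφ h.smu K0 ρ2 hO T2 h.vol (y := y) hy
    (z := fun _ => T') (.of_forall fun _ => T3)
  rcases app_or 𝒰 (G := fun i => {y | u i y = T'})
    (.of_forall fun i => isClosed_eq (cu i) continuous_const) x with ⟨r, r0, hr⟩ | ⟨y, y1, y2⟩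
  · exact (sign_or cu (by linarith) (lev x (mem_ball_self (half_pos ρ2))
      (ev_of_ball (P := fun i y => u i y ≠ T') (ball_mem_nhds x r0) hr))).imp_right .inl
  refine .inr (.inr ?_)
  obtain ⟨A, κ, hκ, hA⟩ := (gp T' T3).nrm
  set p := snc x T' with hp
  have hO' : IsOpen {q : E (n + 1) | ini q ∈ O ∧ |q (last n)| < S} :=
    (h.opn.preimage cont_ini).inter (isOpen_lt (f := fun x : E (n + 1) => |x (last n)|)
      (by fun_prop) continuous_const)
  obtain ⟨R, R0, hR⟩ := Metric.isOpen_iff.1 hO' p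
    ⟨by rwa [hp, P366P.ini_snc], by rw [hp, P366P.snc_last]; linarith⟩
  have h0 : ∀ᶠ l in 𝓝[>] (0 : ℝ), l * (‖(A : E (n + 1) →L[ℝ] E (n + 1))‖ * 4) < R :=
    nhdsWithin_le_nhds (((continuous_id.mul continuous_const).tendsto' 0 0 (by simp)).eventually
      (gt_mem_nhds R0))
  obtain ⟨l, ⟨⟨h1, h2⟩, h3⟩, hl⟩ := ((((hA _ e2).and (not_bad (mono (min_le_right _ _) T' T3))).and
    h0).and self_mem_nhdsWithin).exists
  replace hl : 0 < l := hl
  have af := fun i => P366W.aff n _ A p l κ (ok i) hl hκ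
  have ok0 := (P366W.aff n _ A p l κ (cs_ok h.met h.smφ (u := fun _ => 0) contDiff_const) hl hκ).1
  have cf : ContDiff ℝ ∞ fun q : E (n + 1) => p + l • A q :=
    contDiff_const.add (A.contDiff.const_smul l)
  have e3 : ∀ q, p + l • A (A.symm (l⁻¹ • (q - p))) = q := fun q => by simp [smul_smul, hl.ne']
  have hC : Cv 𝒰 (fun i => (cs G φ (u i)).aff A p l κ) (ball 0 4)
      ((cs G φ fun _ => 0).aff A p l κ).B ((cs G φ fun _ => 0).aff A p l κ).a
      fun q => -(l * H (ini (p + l • A q))) := by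
    refine ⟨.of_forall fun i => (af i).1, ok0.smB, ok0.sma, (contDiff_const.mul
      ((ContDiff.comp h.smH P366P.sm_ini).comp cf)).neg, ok0.sym, ok0.pos, ok0.a0,
      Mv.const _ _ ok0.smB.continuous, Mv.const _ _ (ok0.smB.continuous_fderiv (by simp)),
      Mv.const _ _ ok0.sma.continuous, Mv.const _ _ (ok0.sma.continuous_fderiv (by simp)),
      fun q q₀ a b d => ?_⟩
    have a1 : p + l • A q₀ ∈ ball p R := by
      rw [mem_ball_iff_norm, add_sub_cancel_left, norm_smul, Real.norm_of_nonneg hl.le]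
      exact (mul_le_mul_of_nonneg_left ((A : E (n + 1) →L[ℝ] E (n + 1)).le_of_opNorm_le_of_le le_rfl
        (mem_ball_zero_iff.1 a).le) hl.le).trans_lt h3
    have a2 := (cf.continuous.tendsto q₀).comp b
    have a3 := ((((h.smH.continuous.comp cont_ini).tendsto _).comp a2).add h.c0).add (h.ε0.mul
      (((EuclideanSpace.proj (last n) : E (n + 1) →L[ℝ] ℝ).continuous.tendsto _).comp a2))
    rw [add_zero, zero_mul, add_zero] at a3
    refine (a3.const_mul l).neg.congr' ?_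
    filter_upwards [a2.eventually (isOpen_ball.mem_nhds a1), d, h.eq] with i a4 a5 a6
    have a7 : u i (ini (p + l • A (q i))) = (p + l • A (q i)) (last n) :=
      (sub_eq_zero.1 ((cs_Φ (G := G) (φ := φ) _).symm.trans a5)).symm
    have a8 := a6 (ini (p + l • A (q i))) (hR a4).1 (a7 ▸ (hR a4).2)
    rw [(af i).2.2.2.1, cs_H h.met h.smφ (h.smu i), a8, a7, mul_neg]
    rfl
  have cg : ContDiff ℝ ∞ fun y : E n => A.symm (l⁻¹ • (Lz n y + T' • el n - p)) :=
    A.symm.contDiff.comp ((((Lz n).contDiff.add contDiff_const).sub contDiff_const).const_smul _)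
  have g0 : A.symm (l⁻¹ • (Lz n x + T' • el n - p)) = 0 := by simp [Lz_add, hp]
  have eΦ : ∀ i y, ((cs G φ (u i)).aff A p l κ).Φ (A.symm (l⁻¹ • (Lz n y + T' • el n - p))) =
      T' - u i y := fun i y => by simp only [Surf.aff, e3, Lz_add, cs_pt]
  have y3 := (cg.continuous.tendsto' x 0 g0).comp y1
  have y4 := y2.mono fun i hi => (eΦ i (y i)).trans (sub_eq_zero.2 (Eq.symm hi))
  obtain ⟨e, L, w, w₀, gl⟩ := hG ι 𝒰 _ _ _ _ _ 0 0 1 _ hC one_pos (by simp)
    ((h1.and h2).mono fun i hi => ⟨by simpa using hi.1, by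
      rw [(af i).2.2.2.2]; simpa using hi.2⟩) (mem_ball_self (by simpa)) y3 y4
  have cw := gl.cw
  set T₁ := gs 0 e L w₀ ((cs G φ fun _ => 0).aff A p l κ).B ((cs G φ fun _ => 0).aff A p l κ).a
  have m0 := P366R.self_mem_cyl (p := 0) (e := e) (L := L) (show 0 < c₂ * 1 by simpa)
  obtain ⟨b1, b2, -⟩ := cw.lim _ 0 m0 y3 y4
  refine ⟨fun y => -T₁.Φ (A.symm (l⁻¹ • (Lz n y + T' • el n - p))), (cw.ok.smΦ.comp cg).neg,
    by simp only [g0, b1, neg_zero], fun hw => ?_, ?_⟩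
  · have d1 : HasFDerivAt (fun y : E n => A.symm (l⁻¹ • (Lz n y + T' • el n - p)))
        ((A.symm : E (n + 1) →L[ℝ] E (n + 1)) ∘L (l⁻¹ • (Lz n).toContinuousLinearMap)) x :=
      A.symm.hasFDerivAt.comp x
        ((((Lz n).toContinuousLinearMap.hasFDerivAt.add_const _).sub_const p).const_smul l⁻¹)
    replace hw := ((cw.ok.dΦ _).hasFDerivAt.comp x d1).fun_neg.fderiv.symm.trans hw
    rw [neg_eq_zero, g0] at hw
    have d2 : ∀ v, ⟪T₁.n 0, A.symm (Lz n v)⟫ = 0 := fun v => by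
      have := congrArg (fun M => M v) hw
      simpa [cw.ok.fderiv_eq, (cw.ok.W_pos 0).ne', hl.ne', real_inner_smul_right] using this
    have d3 : ⟪T₁.n 0, A.symm (el n)⟫ = 0 := by
      refine tendsto_nhds_unique (b2.inner tendsto_const_nhds) (Metric.tendsto_nhds.2 fun θ θ0 => ?_)
      filter_upwards [sg.steep h.met h.smφ h.smu K0 ρ2 hO T2 h.vol (half_pos θ0),
        y1.eventually (ball_mem_nhds x (half_pos ρ2)), y2] with i a1 a2 a3
      have a4 := a1 _ a2 (by rw [show u i (y i) = T' from a3]; exact T3)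
      rw [(af i).2.1, ContinuousLinearMap.adjoint_inner_left]
      simp only [Function.comp, e3]
      simp only [ContinuousLinearEquiv.coe_coe, ContinuousLinearEquiv.apply_symm_apply]
      rw [real_inner_comm, inner_el, cs_n_last (h.smu i), Lz_add, P366P.ini_snc, dist_zero_right,
        Real.norm_of_nonneg (inv_pos.2 (P366P.w_pos h.met _ _)).le]
      linarith
    have d4 := cw.ok.nν 0
    rw [← A.symm_apply_apply (T₁.ν 0), ← (fr_el n).dec (A _), map_add, map_smul, inner_add_right,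
      real_inner_smul_right, d2, d3] at d4
    simp at d4
  filter_upwards [(cg.continuous.tendsto' x 0 g0).eventually
    ((P366R.isOpen_cyl gl.fr).mem_nhds m0), ball_mem_nhds x (half_pos ρ2)] with y' a1 a2
  have a3 := fun (z : ι → E n) (hz : Tendsto z 𝒰 (𝓝 y')) => (cg.continuous.tendsto y').comp hz
  refine ⟨fun a4 => ?_, fun a4 => ?_⟩
  · have a5 := ev_of_mv (A := fun i => {y | u i y ≤ T'}) (y := y')
      (fun i => isClosed_le (cu i) continuous_const) fun z hz =>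
        (cw.neg _ _ a1 (a3 z hz) (neg_pos.1 a4)).mono fun i hi =>
          not_le.2 (sub_neg.1 ((eΦ i (z i)).symm.trans_lt hi))
    filter_upwards [a5, lev y' a2 (a5.mono fun q hq => (not_le.1 hq).ne')] with q b3 b4
    rwa [abs_of_nonneg (T0.trans (not_le.1 b3).le)] at b4
  · have a5 := ev_of_mv (A := fun i => {y | T' ≤ u i y}) (y := y')
      (fun i => isClosed_le continuous_const (cu i)) fun z hz =>
        (cw.pos _ _ a1 (a3 z hz) (neg_neg_iff_pos.1 a4)).mono fun i hi =>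
          not_le.2 (sub_pos.1 (hi.trans_eq (eΦ i (z i))))
    filter_upwards [a5, lev y' a2 (a5.mono fun q hq => (not_le.1 hq).ne)] with q b3 b4
    exact (lt_abs.1 b4).resolve_left fun b5 => b3 (show T' ≤ _ by linarith)

/-- **CRG** -/
theorem crg : P366M.G.CRG := by
  intro k G φ H O 𝒰 u c ε Λ _ hG hφ hH hO hu hc hε ε0 he hv K hK hKO
  obtain ⟨ε₀, e0, hs⟩ := exists_side (k + 1)
  obtain ⟨K', k1, k2, k3⟩ := exists_compact_between hK hO hKO
  obtain ⟨C, hC⟩ := k1.exists_bound_of_continuousOn hH.continuous.continuousOn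
  have k4 : interior K' ⊆ O := interior_subset.trans k3
  have h : Cf 𝒰 G φ H u c ε (interior K') 2 (C + 1 + Λ) := by
    refine ⟨hG, hφ, hH, isOpen_interior, hu, hc, hε, ε0, ?_,
      .of_forall fun i x hx _ => (he i x (k4 hx)).1, tendsto_of_tendsto_of_tendsto_of_le_of_le
        tendsto_const_nhds (hv 2) (fun _ => bot_le)
        fun i => measure_mono fun x hx => ⟨k4 hx.1, hx.2.le⟩⟩
    filter_upwards [hc.abs.eventually (gt_mem_nhds (show |(0 : ℝ)| < 1 by simp))] with i hi x hx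
    rw [(he i x (k4 hx)).1]
    exact (abs_add_three _ _ _).trans (add_le_add (add_le_add (hC x (interior_subset hx)) hi.le)
      (he i x (k4 hx)).2)
  refine null_mono (cf_nul h (Nat.le_add_left 1 k) one_lt_two e0 (by push_cast; linarith) hK k2)
    fun x ⟨a, b⟩ => ⟨a, by_contra fun d => b ?_⟩
  exact (hs _ _ _ _ _ _ _ _ _ _ _ 1 0 x h (k2 a) le_rfl one_pos one_lt_two
    fun z hz f => d ⟨z, hz, subset_closure f⟩).imp_right
      (Or.imp_right fun ⟨w, w1, _, w2, w3⟩ => ⟨w, w1, w2, w3⟩)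

end Vale.Agent.P366L
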