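import Vale.Agent.P366S.Defs
import Vale.Agent.P098.H246.Content

/-!
# P366L: limits of calibrated surfaces, definitions

`E` is a Euclidean space of dimension `n + 1`; the limits are measures on `E`.
-/

open MeasureTheory Set Filter Topology
open scoped ContDiff InnerProductSpace ENNReal

noncomputable section

namespace Vale.Agent.P366L

/-- the profile -/
def ch (t : ℝ) : ℝ := max (1 - t) 0 ^ 3

/-- the density of a plane -/
def cn (n : ℕ) : ℝ := ∫ y : EuclideanSpace ℝ (Fin n), ch (‖y‖ ^ 2)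

/-- vague convergence -/
def Vg {X ι : Type} [TopologicalSpace X] [MeasurableSpace X] (l : Filter ι) (m : ι → Measure X)
    (μ : Measure X) : Prop :=
  ∀ φ : X → ℝ, Continuous φ → HasCompactSupport φ →
    Tendsto (fun i => ∫ y, φ y ∂m i) l (𝓝 (∫ y, φ y ∂μ))

variable {E : Type} [NormedAddCommGroup E] [InnerProductSpace ℝ E] [FiniteDimensional ℝ E]

/-- the kernel -/
def kr (x : E) (s : ℝ) (y : E) : ℝ := ch (‖y - x‖ ^ 2 / s ^ 2)

variable [MeasurableSpace E] [BorelSpace E]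

/-- the density ratio -/
def Th (n : ℕ) (μ : Measure E) (x : E) (s : ℝ) : ℝ := (∫ y, kr x s y ∂μ) / s ^ n

/-- the rescaled measure -/
def zoom (n : ℕ) (μ : Measure E) (x : E) (r : ℝ) : Measure E :=
  ENNReal.ofReal (r⁻¹ ^ n) • μ.map fun y => r⁻¹ • (y - x)

/-- the singular set -/
def Sg (n : ℕ) (δ : ℝ) (μ : Measure E) : Set E := {x | ∀ s > (0 : ℝ), (1 + δ) * cn n ≤ Th n μ x s}

/-- the calibration inequality -/
def Cal (μ : Measure E) : Prop := ∀ ψ : E → ℝ, ContDiff ℝ 1 ψ → HasCompactSupport ψ →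
  (∀ y, 0 ≤ ψ y) → 2 * ∫ y, ψ y ∂μ ≤ ∫ y, ‖fderiv ℝ ψ y‖

/-- the lower density bound -/
def Low (n : ℕ) (μ : Measure E) : Prop := ∀ x ∈ μ.support, ∀ s > (0 : ℝ), cn n ≤ Th n μ x s

/-- stationarity -/
def Sta (μ : Measure E) : Prop := ∃ M : Measure (E × E), M.map Prod.fst = μ ∧
  (∀ᵐ p ∂M, ‖p.2‖ = 1) ∧ ∀ φ : E → ℝ, ContDiff ℝ 2 φ → HasCompactSupport φ → ∀ v : E,
    ∫ p, fderiv ℝ φ p.1 (v - ⟪p.2, v⟫_ℝ • p.2) ∂M = 0

/-- invariance under the dilations about `p` -/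
def Dil (n : ℕ) (μ : Measure E) (p : E) : Prop :=
  ∀ t : ℝ, 0 < t → μ.map (fun y => p + t • (y - p)) = ENNReal.ofReal (t⁻¹ ^ n) • μ

/-- invariance under the translations by vectors of `V` -/
def Tr (μ : Measure E) (V : Submodule ℝ E) : Prop := ∀ v ∈ V, μ.map (fun y => y + v) = μ

/-- a class of limits -/
structure Cls (n : ℕ) (δ : ℝ) (C : Set (Measure E)) : Prop where
  fin : ∀ μ ∈ C, IsFiniteMeasureOnCompacts μ
  cal : ∀ μ ∈ C, Cal μ
  low : ∀ μ ∈ C, Low n μ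
  sta : ∀ μ ∈ C, Sta μ
  blow : ∀ μ ∈ C, ∀ (x : E) (r : ℕ → ℝ), (∀ j, 0 < r j ∧ r j ≤ 1) → ∀ 𝒱 : Ultrafilter ℕ,
    ∃ μ' ∈ C, Vg (𝒱 : Filter ℕ) (fun j => zoom n μ x (r j)) μ'
  reg : ∀ μ ∈ C, ∀ U : Set E, IsOpen U → Disjoint U (Sg n δ μ) →
    P366S.Stable U (μ.support ∩ U) μ

/-- the theorem of Simons up to the codimension `k` of the spine -/
def SIM (E : Type) [NormedAddCommGroup E] [InnerProductSpace ℝ E] [FiniteDimensional ℝ E]
    [MeasurableSpace E] [BorelSpace E] (k : ℕ) : Prop :=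
  ∀ (V : Submodule ℝ E) (S : Set E) (μ : Measure E),
    Module.finrank ℝ V + 3 ≤ Module.finrank ℝ E → Module.finrank ℝ E ≤ Module.finrank ℝ V + k →
    P366S.Stable (V : Set E)ᶜ S μ → P366S.Cone V S μ →
    ∃ e : E, ‖e‖ = 1 ∧ (∀ v ∈ V, ⟪e, v⟫_ℝ = 0) ∧ ∀ x ∈ S, ⟪e, x⟫_ℝ = 0

end Vale.Agent.P366L
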