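import Vale.Agent.P366L.Defs
import Vale.Agent.P366W.Defs

/-!
# P366L: the class of the limits of surfaces
-/

open MeasureTheory Set Filter Topology
open Vale.Agent.P366.Stmt Vale.Agent.P366W

noncomputable section

namespace Vale.Agent.P366L

/-- the family `S` is asymptotically Euclidean and minimal along `𝒰`, and converges to `μ` -/
structure Lm {n : ℕ} {ι : Type} (𝒰 : Ultrafilter ι) (S : ι → Surf (n + 1)) (R η Λ : ι → ℝ)
    (μ : Measure (E (n + 1))) : Prop where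
  ok : ∀ᶠ i in (𝒰 : Filter ι), (S i).Ok ∧ (S i).Bd 0 (R i) (η i) (Λ i)
  R0 : Tendsto R 𝒰 atTop
  η0 : Tendsto η 𝒰 (𝓝 0)
  Λ0 : Tendsto Λ 𝒰 (𝓝 0)
  fin : IsFiniteMeasureOnCompacts μ
  vg : Vg (𝒰 : Filter ι) (fun i => (S i).μ) μ

/-- the class of the limits -/
def CL (n : ℕ) : Set (Measure (E (n + 1))) := {μ | ∃ (ι : Type) (𝒰 : Ultrafilter ι)
  (S : ι → Surf (n + 1)) (R η Λ : ι → ℝ), Lm 𝒰 S R η Λ μ}

/-- **REGL**: the regular part of a limit is smooth, stationary and stable -/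
def REGL : Prop := ∀ n : ℕ, ∃ δ₀ > (0 : ℝ), ∀ δ ≤ δ₀, ∀ μ ∈ CL n, ∀ U : Set (E (n + 1)), IsOpen U →
  Disjoint U (Sg n δ μ) → P366S.Stable U (μ.support ∩ U) μ

end Vale.Agent.P366L
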