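import Vale.Agent.P366L.Nrm
import Vale.Agent.P366W.Brg0

/-!
# P366L: steep graphs
-/

open MeasureTheory Set Filter Topology Metric
open scoped ContDiff RealInnerProductSpace ENNReal NNReal
open Vale.Agent.P366.Stmt Vale.Agent.P366W Vale.Agent.P366Z
open Vale.Agent.P366D (snc ini)
open Vale.Agent.P366Y.C (ww)

noncomputable section

namespace Vale.Agent.P366L

theorem reach0 {V : Type} [NormedAddCommGroup V] [NormedSpace ℝ V] [ProperSpace V] {u : V → ℝ}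
    (hu : Differentiable ℝ u) {x : V} {ρ M T z : ℝ} (M0 : 0 < M) (hρ : 2 * T < M * ρ)
    (hM : ∀ y ∈ closedBall x ρ, |u y| ≤ T → M < ‖fderiv ℝ u y‖) (hx : |u x| ≤ T) (hz : |z| ≤ T)
    (h : u x ≤ z) : ∃ y ∈ ball x ρ, u y = z := by
  have ρ0 : 0 < ρ := pos_of_mul_pos_right (a := M) (by linarith [abs_nonneg z]) M0.le
  obtain ⟨y, ⟨h1, h2⟩, h3⟩ := ((isCompact_closedBall x ρ).inter_right
    (isClosed_le hu.continuous (continuous_const (y := z)))).exists_isMinOn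
    ⟨x, mem_closedBall_self ρ0.le, h⟩ (f := fun y => M * ‖y - x‖ - u y)
    (Continuous.continuousOn (by have := hu.continuous; fun_prop))
  have h4 : M * ‖y - x‖ - u y ≤ M * ‖x - x‖ - u x := h3 ⟨mem_closedBall_self ρ0.le, h⟩
  rw [sub_self, norm_zero, mul_zero] at h4
  replace h2 : u y ≤ z := h2
  rw [abs_le] at hx hz
  have h5 : y ∈ ball x ρ := mem_ball_iff_norm.2 (lt_of_mul_lt_mul_left (by linarith) M0.le)
  refine ⟨y, h5, h2.eq_of_not_lt fun h6 => ?_⟩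
  have h7 : ∀ᶠ y' in 𝓝 y, u y' - u y ≤ M * ‖y' - y‖ := by
    filter_upwards [isOpen_ball.mem_nhds h5, hu.continuous.continuousAt.eventually (gt_mem_nhds h6)]
      with y' a b
    have h8 : M * ‖y - x‖ - u y ≤ M * ‖y' - x‖ - u y' := h3 ⟨ball_subset_closedBall a, le_of_lt b⟩
    nlinarith [norm_sub_le_norm_sub_add_norm_sub y' y x]
  have h8 : ∀ v, fderiv ℝ u y v ≤ M * ‖v‖ := fun v => by
    have h9 : Tendsto (fun t : ℝ => y + t • v) (𝓝[>] 0) (𝓝 y) :=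
      (Continuous.tendsto' (by fun_prop) 0 y (by simp)).mono_left nhdsWithin_le_nhds
    refine le_of_tendsto ((hu y).hasFDerivAt.hasLineDerivAt v).tendsto_slope_zero_right ?_
    filter_upwards [h9.eventually h7, self_mem_nhdsWithin] with t a (b : 0 < t)
    rw [add_sub_cancel_left, norm_smul, Real.norm_of_nonneg b.le] at a
    rw [smul_eq_mul, inv_mul_le_iff₀ b]
    linarith
  refine (hM y h1 (abs_le.2 ⟨by nlinarith [norm_nonneg (y - x)], by linarith⟩)).not_ge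
    (ContinuousLinearMap.opNorm_le_bound _ M0.le fun v => abs_le.2 ⟨?_, h8 v⟩)
  have := h8 (-v)
  rw [map_neg, norm_neg] at this
  linarith

/-- a steep function attains all levels nearby -/
theorem reach {V : Type} [NormedAddCommGroup V] [NormedSpace ℝ V] [ProperSpace V] {u : V → ℝ}
    (hu : Differentiable ℝ u) {x : V} {ρ M T z : ℝ} (M0 : 0 < M) (hρ : 2 * T < M * ρ)
    (hM : ∀ y ∈ closedBall x ρ, |u y| ≤ T → M < ‖fderiv ℝ u y‖) (hx : |u x| ≤ T) (hz : |z| ≤ T) :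
    ∃ y ∈ ball x ρ, u y = z := by
  rcases le_total (u x) z with h | h
  · exact reach0 hu M0 hρ hM hx hz h
  · obtain ⟨y, h1, h2⟩ := reach0 (u := fun y => -u y) (z := -z) hu.neg M0 hρ (fun y a b => by
      rw [fderiv_fun_neg, norm_neg]; exact hM y a (by rwa [abs_neg] at b)) (by rwa [abs_neg])
      (by rwa [abs_neg]) (neg_le_neg h)
    exact ⟨y, h1, neg_injective h2⟩

variable {k N : ℕ} {ι : Type} {𝒰 : Ultrafilter ι}

/-- the conormal is Lipschitz on `U` -/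
def LpOn (S : Surf N) (K : ℝ) (U : Set (E N)) : Prop := ∀ q ∈ U, S.Φ q = 0 → ‖S.n q‖ ≤ K ∧
  1 ≤ K * ‖S.n q‖ ∧ ∀ q' ∈ U, S.Φ q' = 0 → ‖S.n q - S.n q'‖ ≤ K * ‖q - q'‖

theorem LpOn.mono {S : Surf N} {K K' : ℝ} {U U' : Set (E N)} (h : LpOn S K U) (hK : K ≤ K')
    (hU : U' ⊆ U) : LpOn S K' U' := fun q hq h0 =>
  let ⟨a, b, c⟩ := h q (hU hq) h0
  ⟨a.trans hK, b.trans (by gcongr), fun q' hq' h1 => (c q' (hU hq') h1).trans (by gcongr)⟩

theorem dist_snc (y y' : E k) (s s' : ℝ) : dist (snc y s) (snc y' s') ≤ dist y y' + dist s s' := by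
  rw [dist_eq_norm, dist_eq_norm, ← Lz_add, ← Lz_add, add_sub_add_comm, ← map_sub, ← sub_smul]
  exact (fr_el k).norm_le _ _

/-- uniform bounds along a vertical segment -/
def Seg (𝒰 : Ultrafilter ι) (S : ι → Surf (k + 1)) (x : E k) (T K ρ : ℝ) : Prop :=
  ∀ᶠ i in (𝒰 : Filter ι), ∀ z, |z| ≤ T → LpOn (S i) K (ball (snc x z) ρ)

theorem Seg.mono {S : ι → Surf (k + 1)} {x : E k} {T K ρ ρ' : ℝ} (h : Seg 𝒰 S x T K ρ)
    (hρ : ρ' ≤ ρ) : Seg 𝒰 S x T K ρ' :=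
  Eventually.mono h fun _ a z b => (a z b).mono le_rfl (ball_subset_ball hρ)

theorem exists_seg {S : ι → Surf (k + 1)} {x : E k} {T : ℝ}
    (h : ∀ z, |z| ≤ T → Lp 𝒰 S (snc x z)) : ∃ K > (0 : ℝ), ∃ ρ > (0 : ℝ), Seg 𝒰 S x T K ρ := by
  have := (isCompact_Icc (a := -T) (b := T)).induction_on (p := fun A => ∃ K > (0 : ℝ),
    ∃ ρ > (0 : ℝ), ∀ᶠ i in (𝒰 : Filter ι), ∀ z ∈ A, LpOn (S i) K (ball (snc x z) ρ))
    ⟨1, one_pos, 1, one_pos, by simp⟩
    (fun _ _ hs ⟨K, a, ρ, b, c⟩ => ⟨K, a, ρ, b, c.mono fun _ d z hz => d z (hs hz)⟩)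
    (fun _ _ ⟨K, a, ρ, b, c⟩ ⟨K', _, ρ', b', c'⟩ => ⟨max K K', lt_max_of_lt_left a, min ρ ρ',
      lt_min b b', (c.and c').mono fun _ d z hz => hz.elim
        (fun e => (d.1 z e).mono (le_max_left _ _) (ball_subset_ball (min_le_left _ _)))
        fun e => (d.2 z e).mono (le_max_right _ _) (ball_subset_ball (min_le_right _ _))⟩)
    fun z hz => by
      obtain ⟨K, a, ρ, b, c⟩ := h z (abs_le.2 hz)
      refine ⟨_, mem_nhdsWithin_of_mem_nhds (ball_mem_nhds z (half_pos b)), K, a, _, half_pos b,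
        c.mono fun i d z' hz' => LpOn.mono d le_rfl (ball_subset_ball' ?_)⟩
      have := dist_snc x x z' z
      rw [dist_self] at this
      linarith [mem_ball.1 hz']
  obtain ⟨K, a, ρ, b, c⟩ := this
  exact ⟨K, a, ρ, b, c.mono fun _ d z hz => d z (abs_le.1 hz)⟩

variable {G : Field k} {φ : E k → ℝ} {u : ι → E k → ℝ} {x : E k} {T S K ρ : ℝ} {O : Set (E k)}

theorem cs_pt (u : E k → ℝ) (y : E k) (s : ℝ) : (cs G φ u).Φ (snc y s) = s - u y := by
  rw [cs_Φ, P366P.ini_snc, P366P.snc_last]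

theorem snc_add (y v : E k) (s t : ℝ) : snc y s + (Lz k v + t • el k) = snc (y + v) (s + t) := by
  simp only [← Lz_add, map_add, add_smul]; abel

/-- the graphs become vertical -/
theorem Seg.steep (h : Seg 𝒰 (fun i => cs G φ (u i)) x T K ρ) (hG : Met G) (hφ : Smooth φ)
    (hu : ∀ i, Smooth (u i)) (K0 : 0 < K) (ρ0 : 0 < ρ) (hO : ball x ρ ⊆ O) (hT : T < S)
    (vol : Tendsto (fun i => volume {y | y ∈ O ∧ |u i y| < S}) 𝒰 (𝓝 0)) {θ : ℝ} (θ0 : 0 < θ) :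
    ∀ᶠ i in (𝒰 : Filter ι), ∀ y ∈ ball x (ρ / 2), |u i y| ≤ T → (ww G 1 (u i) y)⁻¹ ≤ θ := by
  obtain ⟨r, r0, r1, r2, r3⟩ : ∃ r > (0 : ℝ), r ≤ ρ / 2 ∧ r ≤ θ / (2 * K) ∧ r ≤ S - T :=
    ⟨min (ρ / 2) (min (θ / (2 * K)) (S - T)), by have := sub_pos.2 hT; positivity, min_le_left _ _,
      (min_le_right _ _).trans (min_le_left _ _), (min_le_right _ _).trans (min_le_right _ _)⟩
  obtain ⟨d, d0, d1, d2⟩ : ∃ d > (0 : ℝ), d ≤ r / 2 ∧ d ≤ θ * r / (8 * K) :=
    ⟨min _ _, by positivity, min_le_left _ _, min_le_right _ _⟩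
  rw [le_div_iff₀ (by positivity)] at r2 d2
  filter_upwards [h, vol.eventually (gt_mem_nhds (measure_ball_pos volume (0 : E k) d0))]
    with i h1 h2 y hy h3
  refine not_lt.1 fun h4 => h2.not_ge ?_
  rw [← Measure.addHaar_ball_center volume y]
  refine measure_mono fun y' hy' => ⟨hO (ball_subset_ball' (by linarith [mem_ball.1 hy]) hy'), ?_⟩
  have ok := cs_ok hG hφ (hu i)
  have h0 : (cs G φ (u i)).Φ (snc y (u i y)) = 0 := by rw [cs_pt, sub_self]
  have hs : ball (snc y (u i y)) r ⊆ ball (snc x (u i y)) ρ := ball_subset_ball' (by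
    have := dist_snc y x (u i y) (u i y)
    rw [dist_self] at this
    linarith [mem_ball.1 hy])
  have hv : ‖y' - y‖ < d := mem_ball_iff_norm.1 hy'
  have key : ∀ q ∈ ball (snc y (u i y)) r, (cs G φ (u i)).Φ q = 0 →
      θ / 2 ≤ ⟪(cs G φ (u i)).n q, el k⟫ ∧ |⟪(cs G φ (u i)).n q, Lz k (y' - y)⟫| ≤ K * d :=
    fun q hq h5 => by
      obtain ⟨a, -, c⟩ := h1 _ h3 q (hs hq) h5
      have e1 := c _ (hs (mem_ball_self r0)) h0
      have e2 := abs_real_inner_le_norm (el k) ((cs G φ (u i)).n q - (cs G φ (u i)).n (snc y (u i y)))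
      rw [(fr_el k).one, one_mul, inner_sub_right, inner_el (_ : E (k + 1)), inner_el,
        cs_n_last (hu i) (snc _ _), P366P.ini_snc] at e2
      have e3 := mul_lt_mul_of_pos_left (mem_ball_iff_norm.1 hq) K0
      refine ⟨by rw [real_inner_comm, inner_el]; linarith [(abs_le.1 e2).1],
        (abs_real_inner_le_norm _ _).trans ?_⟩
      rw [LinearIsometry.norm_map]
      gcongr
  have hm : ∀ s, |s| = r / 2 → snc y (u i y) + (Lz k (y' - y) + s • el k) ∈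
      ball (snc y (u i y)) r := fun s hs => by
    rw [mem_ball_iff_norm, add_sub_cancel_left]
    linarith [(fr_el k).norm_le (y' - y) s]
  have a1 := ok.cone_pos (convex_ball _ r) (mem_ball_self r0) (hm (r / 2) (abs_of_pos (half_pos r0)))
    h0 fun q hq h5 => by
      obtain ⟨a, b⟩ := key q hq h5
      rw [inner_add_right, real_inner_smul_right]
      nlinarith [(abs_le.1 b).1, mul_pos θ0 r0]
  have a2 := ok.cone_neg (convex_ball _ r) (mem_ball_self r0)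
    (hm (-(r / 2)) (by rw [abs_neg, abs_of_pos (half_pos r0)])) h0 fun q hq h5 => by
      obtain ⟨a, b⟩ := key q hq h5
      rw [inner_add_right, real_inner_smul_right]
      nlinarith [(abs_le.1 b).2, mul_pos θ0 r0]
  rw [snc_add, cs_pt, add_sub_cancel] at a1 a2
  rw [abs_le] at h3
  exact abs_lt.2 ⟨by linarith, by linarith⟩

theorem Seg.steep' (h : Seg 𝒰 (fun i => cs G φ (u i)) x T K ρ) (hG : Met G) (hφ : Smooth φ)
    (hu : ∀ i, Smooth (u i)) (K0 : 0 < K) (ρ0 : 0 < ρ) (hO : ball x ρ ⊆ O) (hT : T < S)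
    (vol : Tendsto (fun i => volume {y | y ∈ O ∧ |u i y| < S}) 𝒰 (𝓝 0)) (M : ℝ) :
    ∀ᶠ i in (𝒰 : Filter ι), ∀ y ∈ ball x (ρ / 2), |u i y| ≤ T → M < ‖fderiv ℝ (u i) y‖ := by
  filter_upwards [h, h.steep hG hφ hu K0 ρ0 hO hT vol (θ := (K * (|M| + 2))⁻¹) (by positivity)]
    with i h1 h2 y hy h3
  have h4 := (h1 _ h3 (snc y (u i y)) (by
    have := dist_snc y x (u i y) (u i y)
    rw [dist_self] at this
    exact mem_ball.2 (by linarith [mem_ball.1 hy])) (by rw [cs_pt, sub_self])).2.1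
  have h5 := norm_sub_le (el k) (Lz k (gradient (u i) y))
  rw [(fr_el k).one, LinearIsometry.norm_map, norm_gradient] at h5
  rw [cs_n (hu i), P366P.ini_snc, norm_smul,
    Real.norm_of_nonneg (inv_pos.2 (P366P.w_pos hG _ _)).le] at h4
  have h6 := h4.trans (mul_le_mul_of_nonneg_left (mul_le_mul (h2 y hy h3) h5 (norm_nonneg _)
    (by positivity)) K0.le)
  rw [← mul_assoc, mul_inv, mul_inv_cancel_left₀ K0.ne', le_inv_mul_iff₀ (by positivity)] at h6
  linarith [le_abs_self M]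

/-- if one level is omitted near `y`, all levels are omitted -/
theorem Seg.lev (h : Seg 𝒰 (fun i => cs G φ (u i)) x T K ρ) (hG : Met G) (hφ : Smooth φ)
    (hu : ∀ i, Smooth (u i)) (K0 : 0 < K) (ρ0 : 0 < ρ) (hO : ball x ρ ⊆ O) (hT : T < S)
    (vol : Tendsto (fun i => volume {y | y ∈ O ∧ |u i y| < S}) 𝒰 (𝓝 0)) {y : E k}
    (hy : y ∈ ball x (ρ / 2)) {z : ι → ℝ} (hz : ∀ᶠ i in (𝒰 : Filter ι), |z i| ≤ T)
    (h1 : ∀ᶠ p in (𝒰 : Filter ι) ×ˢ 𝓝 y, u p.1 p.2 ≠ z p.1) :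
    ∀ᶠ p in (𝒰 : Filter ι) ×ˢ 𝓝 y, T < |u p.1 p.2| := by
  obtain ⟨r, r0, hr⟩ := ev_ball (P := fun i y' => u i y' ≠ z i ∧ y' ∈ ball x (ρ / 2))
    (h1.and (tendsto_snd.eventually (isOpen_ball.mem_nhds hy)))
  refine ev_of_ball (P := fun i y' => T < |u i y'|) (ball_mem_nhds y (half_pos r0)) ?_
  filter_upwards [hr, hz, h.steep' hG hφ hu K0 ρ0 hO hT vol ((2 * |T| + 1) / (r / 2))]
    with i a b c y' hy'
  have hs : closedBall y' (r / 2) ⊆ ball y r :=
    closedBall_subset_ball' (by linarith [mem_ball.1 hy'])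
  refine not_le.1 fun d => ?_
  obtain ⟨y'', e1, e2⟩ := reach (fun y => (hu i).diff y) (ρ := r / 2) (by positivity)
    (by rw [div_mul_cancel₀ _ (half_pos r0).ne']; linarith [le_abs_self T])
    (fun w hw => c w (a w (hs hw)).2) d b
  exact (a y'' (hs (ball_subset_closedBall e1))).1 e2

end Vale.Agent.P366L
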