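import Vale.Agent.P366L.Main
import Vale.Agent.P366R.Regl2

/-!
# P366L: families of surfaces in general position
-/

open MeasureTheory Set Filter Topology Metric
open scoped ContDiff RealInnerProductSpace ENNReal NNReal
open Vale.Agent.P366.Stmt Vale.Agent.P366W
open Vale.Agent.P098.H246 (ct ct_image_le)

noncomputable section

namespace Vale.Agent.P366L

variable {n N : ℕ} {ι : Type} {𝒰 : Ultrafilter ι}

theorem exists_cj {B : E N →L[ℝ] E N} (hs : ∀ v w, ⟪B v, w⟫ = ⟪v, B w⟫)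
    (hp : ∀ v, v ≠ 0 → 0 < ⟪v, B v⟫) : ∃ T : E N ≃L[ℝ] E N,
      Af.cj (T.symm : E N →L[ℝ] E N) B = ContinuousLinearMap.id ℝ _ := by
  obtain ⟨T, h1, -, h3⟩ := Af.exists_sqrt B hs fun v => by
    by_cases hv : v = 0
    · simp [hv]
    · exact (hp v hv).le
  have hi : Function.Injective T := by
    rw [injective_iff_map_eq_zero]
    intro v hv
    by_contra h
    have := hp v h
    rw [← h3, hv, map_zero, inner_zero_right] at this
    exact lt_irrefl _ this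
  have hsu : Function.Surjective T :=
    (LinearMap.injective_iff_surjective (f := (T : E N →ₗ[ℝ] E N))).1 hi
  let T' := (LinearEquiv.ofBijective (T : E N →ₗ[ℝ] E N) ⟨hi, hsu⟩).toContinuousLinearEquiv
  have hT' : ∀ v, T' v = T v := fun _ => rfl
  refine ⟨T', ?_⟩
  ext1 v
  have h6 : ∀ w, ContinuousLinearMap.adjoint (T' : E N →L[ℝ] E N) w = T' w := fun w =>
    ext_inner_right ℝ fun z => by
      rw [ContinuousLinearMap.adjoint_inner_left]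
      exact (h1 _ _).symm
  have h7 := Af.adj_symm' T' v
  rw [h6, hT'] at h7
  simp only [Af.cj_apply, ContinuousLinearMap.comp_apply, ← h3, h7, ContinuousLinearMap.id_apply]
  exact T'.symm_apply_apply v

/-- uniform bounds near `p`; the metric and the weight at `p` do not depend on the index -/
def Gp (𝒰 : Ultrafilter ι) (S : ι → Surf N) (p : E N) : Prop := ∃ R > (0 : ℝ), ∃ η Λ B a,
  ∀ᶠ i in (𝒰 : Filter ι), (S i).Ok ∧ (S i).Bd p R η Λ ∧ (S i).B p = B ∧ (S i).a p = a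

variable {S : ι → Surf (n + 1)} {p : E (n + 1)}

theorem Gp.ok (h : Gp 𝒰 S p) : ∀ᶠ i in (𝒰 : Filter ι), (S i).Ok :=
  let ⟨_, _, _, _, _, _, h⟩ := h; h.mono fun _ k => k.1

/-- normal coordinates at `p` -/
theorem Gp.nrm (h : Gp 𝒰 S p) : ∃ T : E (n + 1) ≃L[ℝ] E (n + 1), ∃ κ > (0 : ℝ), ∀ ε > (0 : ℝ),
    ∀ᶠ l in 𝓝[>] (0 : ℝ), ∀ᶠ i in (𝒰 : Filter ι), ((S i).aff T p l κ).Bd 0 4 ε ε := by
  obtain ⟨R, R0, η, Λ, B, a, h⟩ := h
  obtain ⟨i₀, k1, k2, k3, k4⟩ := h.exists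
  obtain ⟨T, hT⟩ := exists_cj (B := B) (k3 ▸ k1.sym p) (k3 ▸ k1.pos p)
  have a0 : 0 < a := k4 ▸ k1.a0 p
  have Λ0 := k2.Λ0
  refine ⟨T, a⁻¹, inv_pos.2 a0, fun ε hε => ?_⟩
  obtain ⟨t, t1, ht⟩ : ∃ t, 1 ≤ t ∧ ‖(T : E (n + 1) →L[ℝ] E (n + 1))‖ ≤ t :=
    ⟨_, le_max_left _ _, le_max_right _ _⟩
  obtain ⟨s, s1, hs⟩ : ∃ s, 1 ≤ s ∧ ‖(T.symm : E (n + 1) →L[ℝ] E (n + 1))‖ ≤ s :=
    ⟨_, le_max_left _ _, le_max_right _ _⟩
  obtain ⟨k, k1, hk⟩ : ∃ k, 1 ≤ k ∧ a⁻¹ ≤ k := ⟨_, le_max_left _ _, le_max_right _ _⟩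
  have c : ∀ C : ℝ, ∀ e > (0 : ℝ), ∀ᶠ l in 𝓝[>] (0 : ℝ), C * l < e := fun C e he =>
    nhdsWithin_le_nhds (((continuous_const.mul continuous_id).tendsto' 0 0 (by simp)).eventually
      (gt_mem_nhds he))
  filter_upwards [c (4 * t) R R0, c (s ^ 2 * k * t * 4 * Λ) ε hε, self_mem_nhdsWithin]
    with l l1 l2 hl
  replace hl : 0 < l := hl
  filter_upwards [h] with i ⟨hS, hb, e1, e2⟩
  have hn : ∀ x ∈ ball (0 : E (n + 1)) 4, ‖p + l • T x - p‖ ≤ 4 * t * l := fun x hx => by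
    have h4 := (T : E (n + 1) →L[ℝ] E (n + 1)).le_of_opNorm_le_of_le ht
      (mem_ball_zero_iff.1 hx).le
    rw [add_sub_cancel_left, norm_smul, Real.norm_of_nonneg hl.le]
    simp only [ContinuousLinearEquiv.coe_coe] at h4
    nlinarith
  have hm : ∀ x ∈ ball (0 : E (n + 1)) 4, p + l • T x ∈ ball p R := fun x hx =>
    mem_ball_iff_norm.2 ((hn x hx).trans_lt l1)
  have s2 : 1 ≤ s ^ 2 := one_le_pow₀ s1
  have q0 : 0 ≤ Λ * (4 * t * l) := by positivity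
  refine (Af.bd_aff (η' := ε) hS hb hl (inv_pos.2 a0) hk k1 s1 t1 ht hs hm (fun x hx => ?_)
    fun x hx => ?_).mono Subset.rfl le_rfl ?_
  · have h4 := Af.norm_cj_apply hs ((S i).B (p + l • T x) - (S i).B p)
    have h5 := (hb.B_lip hS (hm x hx) (mem_ball_self R0)).trans
      (mul_le_mul_of_nonneg_left (hn x hx) Λ0)
    rw [map_sub, e1, hT] at h4
    rw [e1] at h5
    refine h4.trans ((mul_le_mul_of_nonneg_left h5 (by positivity)).trans ?_)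
    nlinarith [mul_le_mul_of_nonneg_right k1 (by positivity : 0 ≤ s ^ 2 * (Λ * (4 * t * l)))]
  · have h5 := (hb.a_lip hS (hm x hx) (mem_ball_self R0)).trans
      (mul_le_mul_of_nonneg_left (hn x hx) Λ0)
    have h8 : ((S i).aff T p l a⁻¹).a x - 1 = a⁻¹ * ((S i).a (p + l • T x) - (S i).a p) := by
      simp only [Surf.aff, e2]
      field_simp
    rw [h8, abs_mul, abs_of_pos (inv_pos.2 a0)]
    refine (mul_le_mul hk h5 (abs_nonneg _) (by positivity)).trans ?_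
    nlinarith [mul_le_mul_of_nonneg_right s2 (by positivity : 0 ≤ k * (Λ * (4 * t * l)))]
  · nlinarith [show 0 ≤ s ^ 2 * k * t * (l * Λ) by positivity]

theorem bad_aff (ok : ∀ᶠ i in (𝒰 : Filter ι), (S i).Ok) (T : E (n + 1) ≃L[ℝ] E (n + 1)) {l κ ε : ℝ}
    (hl : 0 < l) (hκ : 0 < κ) {x : E (n + 1)} (hx : x ∈ Bad 𝒰 S ε) :
    T.symm (l⁻¹ • (x - p)) ∈ Bad 𝒰 (fun i => (S i).aff T p l κ) ε := by
  have h1 : Tendsto (fun r => l⁻¹ * r) (𝓝[>] (0 : ℝ)) (𝓝[>] 0) := tendsto_nhdsWithin_iff.2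
    ⟨((continuous_const.mul continuous_id).tendsto' 0 0 (by simp)).mono_left nhdsWithin_le_nhds,
      eventually_nhdsWithin_of_forall fun r hr => mul_pos (inv_pos.2 hl) hr⟩
  refine h1.frequently_map _ (fun r hr => ?_) hx
  filter_upwards [hr, ok] with i a b
  rw [(P366W.aff n _ _ _ _ _ b hl hκ).2.2.2.2]
  simpa [smul_smul, hl.ne'] using a

/-- the bad set is small near `p` -/
theorem Gp.bad (h : Gp 𝒰 S p) (hn : 1 ≤ n) {ε : ℝ} (hε : 0 < ε) : ∃ V ∈ 𝓝 p,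
    (∀ a > (0 : ℝ), (n : ℝ) - 7 < a → ct a (closure (Bad 𝒰 S ε) ∩ V) = 0) ∧
      (n ≤ 6 → ∀ x ∈ V, x ∉ closure (Bad 𝒰 S ε)) := by
  obtain ⟨T, κ, hκ, hT⟩ := h.nrm
  obtain ⟨l, h1, hl⟩ := ((hT _ one_half_pos).and self_mem_nhdsWithin).exists
  replace hl : 0 < l := hl
  have ok := (h.ok.and h1).mono fun i hi => And.intro (P366W.aff n _ T p l κ hi.1 hl hκ).1 hi.2
  have hg : Continuous fun x => T.symm (l⁻¹ • (x - p)) := by fun_prop
  have hc : ∀ x ∈ closure (Bad 𝒰 S ε), T.symm (l⁻¹ • (x - p)) ∈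
      closure (Bad 𝒰 (fun i => (S i).aff T p l κ) ε) := fun x hx =>
    map_mem_closure (f := fun x => T.symm (l⁻¹ • (x - p))) hg hx
      fun y hy => bad_aff h.ok T hl hκ hy
  refine ⟨(fun x => T.symm (l⁻¹ • (x - p))) ⁻¹' ball 0 4,
    hg.continuousAt.preimage_mem_nhds (by simpa using ball_mem_nhds _ four_pos),
    fun a ha hk => ?_, fun hn' x hx hb => ?_⟩
  · have h2 : LipschitzWith (‖l • (T : E (n + 1) →L[ℝ] E (n + 1))‖₊ + 1) fun y => p + l • T y :=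
      .of_dist_le_mul fun y z => by
        rw [dist_add_left]
        exact ((l • (T : E (n + 1) →L[ℝ] E (n + 1))).lipschitz.weaken
          (le_add_of_nonneg_right zero_le)).dist_le_mul y z
    have h3 := ct_image_le ha (by simp) h2
      (closure (Bad 𝒰 (fun i => (S i).aff T p l κ) ε) ∩ ball 0 4)
    rw [bad_ct' P366R.regl hn ok le_rfl hε ha hk, mul_zero, nonpos_iff_eq_zero] at h3
    refine measure_mono_null (fun x hx => ?_) h3
    exact ⟨_, ⟨hc x hx.1, hx.2⟩, by simp [smul_smul, hl.ne']⟩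
  · obtain ⟨y, h2, h3⟩ := _root_.mem_closure_iff.1 (hc x hb) (ball 0 4) isOpen_ball hx
    exact bad_empty P366R.regl hn hn' ok le_rfl hε h2 h3

/-- the conormals are uniformly Lipschitz near `p` -/
def Lp (𝒰 : Ultrafilter ι) (S : ι → Surf N) (p : E N) : Prop := ∃ K > (0 : ℝ), ∃ ρ > (0 : ℝ),
  ∀ᶠ i in (𝒰 : Filter ι), ∀ q ∈ ball p ρ, (S i).Φ q = 0 → ‖(S i).n q‖ ≤ K ∧ 1 ≤ K * ‖(S i).n q‖ ∧
    ∀ q' ∈ ball p ρ, (S i).Φ q' = 0 → ‖(S i).n q - (S i).n q'‖ ≤ K * ‖q - q'‖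

theorem exists_lp (n : ℕ) : ∃ ε > (0 : ℝ), ∀ (ι : Type) (𝒰 : Ultrafilter ι) (S : ι → Surf (n + 1))
    (p : E (n + 1)), Gp 𝒰 S p → p ∉ Bad 𝒰 S ε → Lp 𝒰 S p := by
  obtain ⟨ε, ε0, c, c0, C, hW⟩ := white n (1 / 2) ⟨by norm_num, by norm_num⟩
  refine ⟨ε, ε0, fun ι 𝒰 S p h hp => ?_⟩
  obtain ⟨T, κ, hκ, hT⟩ := h.nrm
  obtain ⟨l, ⟨h1, h2⟩, hl⟩ := (((hT _ (lt_min ε0 (show (0 : ℝ) < 1 / 4 by norm_num))).and
    (not_bad hp)).and self_mem_nhdsWithin).exists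
  replace hl : 0 < l := hl
  obtain ⟨t, t1, ht⟩ : ∃ t, 1 ≤ t ∧ ‖(T : E (n + 1) →L[ℝ] E (n + 1))‖ ≤ t :=
    ⟨_, le_max_left _ _, le_max_right _ _⟩
  obtain ⟨s, s1, hs⟩ : ∃ s, 1 ≤ s ∧ ‖(T.symm : E (n + 1) →L[ℝ] E (n + 1))‖ ≤ s :=
    ⟨_, le_max_left _ _, le_max_right _ _⟩
  have hg : Continuous fun x => T.symm (l⁻¹ • (x - p)) := by fun_prop
  obtain ⟨ρ, ρ0, hρ⟩ := Metric.mem_nhds_iff.1 (hg.continuousAt.preimage_mem_nhds (x := p)
    (t := ball 0 (min c 4)) (by simpa using ball_mem_nhds _ (lt_min c0 four_pos)))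
  have p1 : 0 ≤ s * (|C| * (s * l⁻¹)) := by positivity
  refine ⟨2 * s + 2 * t + s * (|C| * (s * l⁻¹)), by positivity, ρ, ρ0, ?_⟩
  filter_upwards [h.ok, h1, h2] with i hS hb h3 q hq h0
  obtain ⟨k1, k2, -, -, k3⟩ := P366W.aff n _ T p l κ hS hl hκ
  have e1 : ∀ x, p + l • T (T.symm (l⁻¹ • (x - p))) = x := fun x => by simp [smul_smul, hl.ne']
  have e2 : ∀ x, ((S i).aff T p l κ).Φ (T.symm (l⁻¹ • (x - p))) = (S i).Φ x := fun x => by
    simp only [Surf.aff, e1]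
  have e3 : ∀ x, (S i).n x = ContinuousLinearMap.adjoint (T.symm : E (n + 1) →L[ℝ] E (n + 1))
      (((S i).aff T p l κ).n (T.symm (l⁻¹ • (x - p)))) := fun x => by rw [k2, e1, Af.adj_symm]
  have a1 : ‖ContinuousLinearMap.adjoint (T.symm : E (n + 1) →L[ℝ] E (n + 1))‖ ≤ s := by
    rwa [LinearIsometryEquiv.norm_map]
  have a2 : ‖ContinuousLinearMap.adjoint (T : E (n + 1) →L[ℝ] E (n + 1))‖ ≤ t := by
    rwa [LinearIsometryEquiv.norm_map]
  have b1 := abs_le.1 (P366R.norm_n k1 hb ((min_le_right _ _).trans (by norm_num))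
    (ball_subset_ball (min_le_right _ _) (hρ hq)))
  have b2 := min_le_right ε (1 / 4)
  have n0 := norm_nonneg ((S i).n q)
  refine ⟨?_, ?_, fun q' hq' h0' => ?_⟩
  · rw [e3]
    refine (ContinuousLinearMap.le_of_opNorm_le_of_le _ a1 (b := 2) (by linarith [b1.2])).trans ?_
    linarith
  · have := ContinuousLinearMap.le_of_opNorm_le _ a2 ((S i).n q)
    rw [k2, e1] at b1
    nlinarith [b1.1, mul_nonneg p1 n0]
  · have h4 := (hW _ k1 (hb.mono Subset.rfl (min_le_left _ _) (min_le_left _ _))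
      (by rw [k3]; simpa using h3)).1 _ (ball_subset_ball (min_le_left _ _) (hρ hq)) _
      (ball_subset_ball (min_le_left _ _) (hρ hq')) ((e2 q).trans h0) ((e2 q').trans h0')
    have h5 := (T.symm : E (n + 1) →L[ℝ] E (n + 1)).le_of_opNorm_le hs (l⁻¹ • (q - q'))
    rw [norm_smul, Real.norm_of_nonneg (inv_pos.2 hl).le] at h5
    rw [← map_sub, ← smul_sub, sub_sub_sub_cancel_right] at h4
    rw [e3, e3 q', ← map_sub]
    refine (ContinuousLinearMap.le_of_opNorm_le_of_le _ a1 (h4.trans (mul_le_mul (le_abs_self C) h5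
      (norm_nonneg _) (abs_nonneg _)))).trans ?_
    nlinarith [norm_nonneg (q - q')]

end Vale.Agent.P366L
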