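import Vale.Agent.P366L.Box

/-!
# P366L: two half planes with a common edge that is contained in the support are opposite
-/

set_option linter.unusedSectionVars false

open MeasureTheory Set Filter Topology Metric
open scoped ContDiff InnerProductSpace ENNReal

noncomputable section

namespace Vale.Agent.P366L

variable {E F : Type} [NormedAddCommGroup E] [InnerProductSpace ℝ E] [FiniteDimensional ℝ E]
  [NormedAddCommGroup F] [InnerProductSpace ℝ F] [FiniteDimensional ℝ F]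

/-- an orthonormal pair orthogonal to the image of `L` -/
structure Fr2 (L : F →ₗᵢ[ℝ] E) (p q : E) : Prop where
  p1 : ‖p‖ = 1
  q1 : ‖q‖ = 1
  pL : ∀ w, ⟪p, L w⟫_ℝ = 0
  qL : ∀ w, ⟪q, L w⟫_ℝ = 0
  pq : ⟪p, q⟫_ℝ = 0
  dim : Module.finrank ℝ F + 2 = Module.finrank ℝ E

/-- the vectors of the plane -/
def vv (p q : E) (a b : ℝ) : E := a • p + b • q

variable {L : F →ₗᵢ[ℝ] E} {p q : E}

theorem Fr2.inner_vv (h : Fr2 L p q) (a b c d : ℝ) :
    ⟪vv p q a b, vv p q c d⟫_ℝ = a * c + b * d := by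
  simp only [vv, inner_add_left, inner_add_right, inner_smul_left, inner_smul_right,
    real_inner_self_eq_norm_sq, h.p1, h.q1, h.pq, real_inner_comm p q, conj_trivial]
  ring

theorem Fr2.inner_L (h : Fr2 L p q) (a b : ℝ) (w : F) : ⟪vv p q a b, L w⟫_ℝ = 0 := by
  simp only [vv, inner_add_left, inner_smul_left, h.pL, h.qL, mul_zero, add_zero]

theorem Fr2.norm_vv (h : Fr2 L p q) {a b : ℝ} (hab : a ^ 2 + b ^ 2 = 1) : ‖vv p q a b‖ = 1 := by
  rw [← sq_eq_sq₀ (norm_nonneg _) zero_le_one, ← real_inner_self_eq_norm_sq, h.inner_vv]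
  linarith

theorem Fr2.inner3 (h : Fr2 L p q) (c d a b s t : ℝ) (w : F) :
    ⟪vv p q c d, L w + s • vv p q a b + t • vv p q (-b) a⟫_ℝ =
      s * (c * a + d * b) + t * (d * a - c * b) := by
  simp only [inner_add_right, inner_smul_right, h.inner_vv, h.inner_L]
  ring

theorem Fr2.pj3 (h : Fr2 L p q) (a b c d s t : ℝ) (w : F) :
    pj L (L w + s • vv p q a b + t • vv p q c d) = w := by
  simp only [map_add, map_smul, pj_L, pj_orth L (h.inner_L _ _), smul_zero, add_zero]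

theorem Fr2.decomp (h : Fr2 L p q) (y : E) : ∃ (w : F) (s t : ℝ),
    y = L w + s • vv p q 1 0 + t • vv p q (-0) 1 := by
  have h1 := P366L.decomp (ext L p h.p1 h.pL) h.q1 (fun u => by
    rw [ext_apply, inner_add_right, h.qL, inner_smul_right, real_inner_comm, h.pq]; simp)
    (by rw [finrank_ext]; exact h.dim) y
  rw [ext_apply] at h1
  exact ⟨_, _, _, by simpa [vv] using h1.symm⟩

theorem stp_gt {l y : E} {η : ℝ} (hη : 0 < η) (h : stp l η⁻¹ 2 y ≠ 0) : -(2 * η) < ⟪l, y⟫_ℝ := by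
  have h3 := mul_pos hη (stp_pos h)
  rw [mul_add, ← mul_assoc, mul_inv_cancel₀ hη.ne'] at h3
  linarith

theorem stp_lt {l y : E} {η c : ℝ} (hη : 0 < η) (h : stp l (-η⁻¹) (c / η + 2) y ≠ 0) :
    ⟪l, y⟫_ℝ < c + 2 * η := by
  have h3 := mul_pos hη (stp_pos h)
  rw [mul_add, ← mul_assoc, mul_neg, mul_inv_cancel₀ hη.ne', mul_add,
    mul_div_cancel₀ _ hη.ne'] at h3
  linarith

theorem sg_abs {a η t c : ℝ} (hη : 0 < η) (ha : |a| = η⁻¹) (h : sg (a * t + c) ≠ 0) :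
    |t| ≤ (|c| + 1) * η := by
  obtain ⟨h1, h2⟩ := sg_mem h
  have h3 : |a * t| ≤ |c| + 1 := by
    rw [abs_le]; constructor <;> linarith [le_abs_self c, neg_abs_le c]
  rwa [abs_mul, ha, inv_mul_le_iff₀ hη, mul_comm] at h3

variable [MeasurableSpace E] [BorelSpace E] [MeasurableSpace F] [BorelSpace F]

theorem Fr2.box (h : Fr2 L p q) {a b : ℝ} (hab : a ^ 2 + b ^ 2 = 1) {Φ : E → ℝ} {g : F → ℝ}
    (g1 : Continuous g) (g2 : HasCompactSupport g) (g3 : ∀ w, 0 ≤ g w) {k : ℝ → ℝ≥0∞}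
    (hk : Measurable k) {s₀ s₁ K : ℝ} (hs : s₀ ≤ s₁) (hK : ∫⁻ t, k t = ENNReal.ofReal K)
    (H : ∀ w s t, Φ (L w + s • vv p q a b + t • vv p q (-b) a) ≠ 0 → s ∈ Icc s₀ s₁ ∧
      ENNReal.ofReal (Φ (L w + s • vv p q a b + t • vv p q (-b) a)) ≤ ENNReal.ofReal (g w) * k t) :
    ∫⁻ y, ENNReal.ofReal (Φ y) ≤ ENNReal.ofReal ((∫ w, g w) * (s₁ - s₀) * K) := by
  refine (box2 L (h.norm_vv hab) (h.inner_L _ _) (h.norm_vv (a := -b) (b := a) (by linarith))
    (h.inner_L _ _) (by rw [h.inner_vv]; ring) h.dim g1.measurable.ennreal_ofReal (meas_Icc s₀ s₁)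
    hk fun w s t => ?_).trans_eq ?_
  · by_cases h0 : Φ (L w + s • vv p q a b + t • vv p q (-b) a) = 0
    · simp [h0]
    · rw [indicator_of_mem (H w s t h0).1, mul_one]
      exact (H w s t h0).2
  · have h1 : 0 ≤ ∫ w, g w := integral_nonneg g3
    rw [lint_cs g1 g2 g3, lint_Icc, hK, ← ENNReal.ofReal_mul h1,
      ← ENNReal.ofReal_mul (mul_nonneg h1 (sub_nonneg.2 hs))]

/-- the test function -/
def tf (L : F →ₗᵢ[ℝ] E) (p q : E) (g : F → ℝ) (σ κ τ η : ℝ) (y : E) : ℝ :=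
  g (pj L y) * stp (vv p q (-κ) σ) η⁻¹ 2 y * stp (vv p q κ σ) η⁻¹ 2 y *
    stp (vv p q 0 1) (-η⁻¹) (κ * τ / η + 2) y

theorem tf_upper (h : Fr2 L p q) {σ κ τ η : ℝ} (hσ : 0 < σ) (hκ : 0 < κ) (h1 : σ ^ 2 + κ ^ 2 = 1)
    (hτ : 0 < τ) (hη : 0 < η) {g : F → ℝ} (g1 : ContDiff ℝ 1 g) (g2 : HasCompactSupport g)
    (g3 : ∀ w, 0 ≤ g w) : ContDiff ℝ 1 (tf L p q g σ κ τ η) ∧
      HasCompactSupport (tf L p q g σ κ τ η) ∧ (∀ y, 0 ≤ tf L p q g σ κ τ η y) ∧
      ∫⁻ y, ENNReal.ofReal ‖fderiv ℝ (tf L p q g σ κ τ η) y‖ ≤ ENNReal.ofReal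
        ((∫ w, ‖fderiv ℝ g w‖) * (2 * (σ * τ + 4 * η / κ)) * (κ * τ + 2 * η + 2 * η / σ) +
          (∫ w, g w) * (2 * (τ + 5 * η / κ + 3 * η / (σ * κ)) + 2 * (σ * τ + 4 * η / κ))) := by
  have hσ1 : σ ≤ 1 := by nlinarith
  have hκ1 : κ ≤ 1 := by nlinarith
  have hη' : η⁻¹ ≠ 0 := inv_ne_zero hη.ne'
  have habs : |η⁻¹| = η⁻¹ := abs_of_pos (inv_pos.2 hη)
  have G1 : ContDiff ℝ 1 fun y => g (pj L y) := g1.comp (pj L).contDiff
  set S₁ := stp (vv p q (-κ) σ) η⁻¹ 2 with hS₁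
  set S₂ := stp (vv p q κ σ) η⁻¹ 2 with hS₂
  set S₃ := stp (vv p q 0 1) (-η⁻¹) (κ * τ / η + 2) with hS₃
  have n1 : ‖vv p q (-κ) σ‖ = 1 := h.norm_vv (by linarith)
  have n2 : ‖vv p q κ σ‖ = 1 := h.norm_vv (by linarith)
  have n3 : ‖vv p q 0 1‖ = 1 := h.norm_vv (by norm_num)
  have hbox : ∀ (w : F) (s t : ℝ), S₁ (L w + s • vv p q 1 0 + t • vv p q (-0) 1) ≠ 0 →
      S₂ (L w + s • vv p q 1 0 + t • vv p q (-0) 1) ≠ 0 → t ≤ κ * τ + 2 * η →
      s ∈ Icc (-(σ * τ + 4 * η / κ)) (σ * τ + 4 * η / κ) ∧ -(2 * η / σ) ≤ t := by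
    intro w s t a1 a2 a3
    have b1 := stp_gt hη a1
    have b2 := stp_gt hη a2
    rw [h.inner3] at b1 b2
    have b3 : σ * t ≤ σ * (κ * τ + 2 * η) := by gcongr
    have b4 : σ * η ≤ η := mul_le_of_le_one_left hη.le hσ1
    have e : σ * τ + 4 * η / κ = (κ * σ * τ + 4 * η) / κ := by field_simp
    refine ⟨⟨?_, ?_⟩, ?_⟩
    · rw [e, neg_le, le_div_iff₀ hκ]; nlinarith
    · rw [e, le_div_iff₀ hκ]; nlinarith
    · rw [neg_le, le_div_iff₀ hσ]; nlinarith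
  have ψ1 : ContDiff ℝ 1 (tf L p q g σ κ τ η) :=
    ((G1.mul (stp_c1 _ _ _)).mul (stp_c1 _ _ _)).mul (stp_c1 _ _ _)
  refine ⟨ψ1, ?_, fun y => mul_nonneg (mul_nonneg (mul_nonneg (g3 _) (stp_nonneg _ _ _ _))
    (stp_nonneg _ _ _ _)) (stp_nonneg _ _ _ _), ?_⟩
  · refine HasCompactSupport.intro ((g2.isCompact.prod ((isCompact_Icc (a := -(σ * τ + 4 * η / κ))
      (b := σ * τ + 4 * η / κ)).prod (isCompact_Icc (a := -(2 * η / σ)) (b := κ * τ + 2 * η)))).image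
      (f := fun x : F × ℝ × ℝ => L x.1 + x.2.1 • vv p q 1 0 + x.2.2 • vv p q (-0) 1) (by fun_prop))
      fun y hy => ?_
    by_contra h0
    obtain ⟨w, s, t, rfl⟩ := h.decomp y
    simp only [tf, mul_eq_zero, not_or] at h0
    obtain ⟨⟨⟨a0, a1⟩, a2⟩, a3⟩ := h0
    have a4 := (stp_lt hη a3).le
    rw [h.inner3] at a4
    have a5 : t ≤ κ * τ + 2 * η := by linarith
    rw [h.pj3] at a0
    exact hy ⟨(w, s, t), ⟨subset_tsupport g a0, (hbox w s t a1 a2 a5).1, (hbox w s t a1 a2 a5).2,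
      a5⟩, rfl⟩
  have cD : Continuous fun w => ‖fderiv ℝ g w‖ := (g1.continuous_fderiv one_ne_zero).norm
  let Φ₀ : E → ℝ := fun y => ‖fderiv ℝ g (pj L y)‖ * (S₁ y * S₂ y * S₃ y)
  let Φ₁ : E → ℝ := fun y =>
    g (pj L y) * (|η⁻¹| * sg (η⁻¹ * ⟪vv p q (-κ) σ, y⟫_ℝ + 2)) * (S₂ y * S₃ y)
  let Φ₂ : E → ℝ := fun y =>
    g (pj L y) * (|η⁻¹| * sg (η⁻¹ * ⟪vv p q κ σ, y⟫_ℝ + 2)) * (S₁ y * S₃ y)
  let Φ₃ : E → ℝ := fun y =>
    g (pj L y) * (|-η⁻¹| * sg (-η⁻¹ * ⟪vv p q 0 1, y⟫_ℝ + (κ * τ / η + 2))) * (S₁ y * S₂ y)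
  have s01 : ∀ l a c l' a' c' (y : E), 0 ≤ stp l a c y * stp l' a' c' y ∧
      stp l a c y * stp l' a' c' y ≤ 1 := fun l a c l' a' c' y =>
    ⟨mul_nonneg (stp_nonneg _ _ _ _) (stp_nonneg _ _ _ _),
      mul_le_one₀ (stp_le _ _ _ _) (stp_nonneg _ _ _ _) (stp_le _ _ _ _)⟩
  have p3 : ∀ a t : ℝ, 0 ≤ |a| * sg t := fun a t => mul_nonneg (abs_nonneg _) (sg_nonneg _)
  have aux : ∀ {x k S : ℝ}, 0 ≤ x → 0 ≤ k → S ≤ 1 →
      ENNReal.ofReal (x * k * S) ≤ ENNReal.ofReal x * ENNReal.ofReal k := fun hx hk hS => by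
    rw [← ENNReal.ofReal_mul hx]
    exact ENNReal.ofReal_le_ofReal (mul_le_of_le_one_right (mul_nonneg hx hk) hS)
  have b0 := h.box (a := 1) (b := 0) (by norm_num) (Φ := Φ₀) cD (g2.fderiv ℝ).norm
    (fun _ => norm_nonneg _) (meas_Icc (-(2 * η / σ)) (κ * τ + 2 * η))
    (s₀ := -(σ * τ + 4 * η / κ)) (s₁ := σ * τ + 4 * η / κ) (neg_le_self (by positivity))
    (lint_Icc _ _) fun w s t h0 => by
      simp only [Φ₀, ne_eq, mul_eq_zero, not_or] at h0
      obtain ⟨-, ⟨a1, a2⟩, a3⟩ := h0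
      have a4 := (stp_lt hη a3).le
      rw [h.inner3] at a4
      have a5 : t ≤ κ * τ + 2 * η := by linarith
      refine ⟨(hbox w s t a1 a2 a5).1, ?_⟩
      rw [indicator_of_mem (show t ∈ Icc _ _ from ⟨(hbox w s t a1 a2 a5).2, a5⟩), mul_one]
      simp only [Φ₀, h.pj3]
      exact ENNReal.ofReal_le_ofReal (mul_le_of_le_one_right (norm_nonneg _)
        (mul_le_one₀ (s01 _ _ _ _ _ _ _).2 (stp_nonneg _ _ _ _) (stp_le _ _ _ _)))
  have side : ∀ s t : ℝ, |t| ≤ (|(2 : ℝ)| + 1) * η → ∀ u v : ℝ, |u| ≤ 1 → |v| ≤ 1 →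
      -(2 * η) < s * (2 * σ * κ) + t * u → s * κ + t * v < κ * τ + 2 * η →
      s ∈ Icc (-(3 * η / (σ * κ))) (τ + 5 * η / κ) := by
    intro s t a1 u v a2 a3 a4 a5
    rw [abs_two] at a1
    have c1 : |t * u| ≤ 3 * η := by
      rw [abs_mul]; exact (mul_le_of_le_one_right (abs_nonneg _) a2).trans (by linarith)
    have c2 : |t * v| ≤ 3 * η := by
      rw [abs_mul]; exact (mul_le_of_le_one_right (abs_nonneg _) a3).trans (by linarith)
    have e : τ + 5 * η / κ = (κ * τ + 5 * η) / κ := by field_simp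
    constructor
    · rw [neg_le, le_div_iff₀ (mul_pos hσ hκ)]; nlinarith [le_abs_self (t * u)]
    · rw [e, le_div_iff₀ hκ]; nlinarith [neg_abs_le (t * v)]
  have hle : -(3 * η / (σ * κ)) ≤ τ + 5 * η / κ := (neg_nonpos.2 (by positivity)).trans (by positivity)
  have u1 : |σ * σ - κ * κ| ≤ 1 := abs_le.2 ⟨by nlinarith, by nlinarith⟩
  have u2 : |κ * κ - σ * σ| ≤ 1 := abs_le.2 ⟨by nlinarith, by nlinarith⟩
  have b1 := h.box (a := σ) (b := κ) h1 (Φ := Φ₁) g1.continuous g2 g3 (meas_sg η⁻¹ 2) hle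
    ((sg_lint hη' 2).trans ENNReal.ofReal_one.symm) fun w s t h0 => by
      have e : ⟪vv p q (-κ) σ, L w + s • vv p q σ κ + t • vv p q (-κ) σ⟫_ℝ = t := by
        rw [h.inner3]; linear_combination t * h1
      simp only [Φ₁, e, h.pj3] at h0 ⊢
      refine ⟨?_, aux (g3 _) (p3 _ _) (s01 _ _ _ _ _ _ _).2⟩
      simp only [ne_eq, mul_eq_zero, not_or] at h0
      obtain ⟨⟨-, -, a1⟩, a2, a3⟩ := h0
      have a4 := stp_gt hη a2
      have a5 := stp_lt hη a3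
      rw [h.inner3] at a4 a5
      exact side s t (sg_abs hη habs a1) _ σ u1 (by rwa [abs_of_pos hσ]) (by linarith) (by linarith)
  have b2 := h.box (a := -σ) (b := κ) (by linarith) (Φ := Φ₂) g1.continuous g2 g3
    (meas_sg (-η⁻¹) 2) hle ((sg_lint (neg_ne_zero.2 hη') 2).trans ENNReal.ofReal_one.symm)
    fun w s t h0 => by
      have e : η⁻¹ * ⟪vv p q κ σ, L w + s • vv p q (-σ) κ + t • vv p q (-κ) (-σ)⟫_ℝ =
          -η⁻¹ * t := by
        rw [h.inner3]; linear_combination (-η⁻¹ * t) * h1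
      simp only [Φ₂, e, h.pj3] at h0 ⊢
      refine ⟨?_, (aux (g3 _) (p3 _ _) (s01 _ _ _ _ _ _ _).2).trans_eq (by rw [abs_neg])⟩
      simp only [ne_eq, mul_eq_zero, not_or] at h0
      obtain ⟨⟨-, -, a1⟩, a2, a3⟩ := h0
      have a4 := stp_gt hη a2
      have a5 := stp_lt hη a3
      rw [h.inner3] at a4 a5
      exact side s t (sg_abs hη ((abs_neg _).trans habs) a1) _ (-σ) u2
        (by rwa [abs_neg, abs_of_pos hσ]) (by linarith) (by linarith)
  have b3 := h.box (a := 1) (b := 0) (by norm_num) (Φ := Φ₃) g1.continuous g2 g3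
    (meas_sg (-η⁻¹) (κ * τ / η + 2)) (s₀ := -(σ * τ + 4 * η / κ)) (s₁ := σ * τ + 4 * η / κ)
    (neg_le_self (by positivity))
    ((sg_lint (neg_ne_zero.2 hη') _).trans ENNReal.ofReal_one.symm) fun w s t h0 => by
      have e : ⟪vv p q 0 1, L w + s • vv p q 1 0 + t • vv p q (-0) 1⟫_ℝ = t := by
        rw [h.inner3]; ring
      simp only [Φ₃, e, h.pj3] at h0 ⊢
      refine ⟨?_, aux (g3 _) (p3 _ _) (s01 _ _ _ _ _ _ _).2⟩
      simp only [ne_eq, mul_eq_zero, not_or] at h0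
      obtain ⟨⟨-, -, a1⟩, a2, a3⟩ := h0
      refine (hbox w s t a2 a3 ?_).1
      have h3 := mul_nonneg hη.le (sg_mem a1).1
      rw [mul_add, ← mul_assoc, mul_neg, mul_inv_cancel₀ hη.ne', mul_add,
        mul_div_cancel₀ _ hη.ne'] at h3
      linarith
  have cs : ∀ (l : E) (a c : ℝ), Continuous fun y : E => |a| * sg (a * ⟪l, y⟫_ℝ + c) :=
    fun l a c => continuous_const.mul (sg_cont.comp (by fun_prop))
  have m1 : Measurable fun y => ENNReal.ofReal (Φ₁ y) := ((G1.continuous.mul (cs _ _ _)).mul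
    ((stp_c1 _ _ _).continuous.mul (stp_c1 _ _ _).continuous)).measurable.ennreal_ofReal
  have m2 : Measurable fun y => ENNReal.ofReal (Φ₂ y) := ((G1.continuous.mul (cs _ _ _)).mul
    ((stp_c1 _ _ _).continuous.mul (stp_c1 _ _ _).continuous)).measurable.ennreal_ofReal
  have m3 : Measurable fun y => ENNReal.ofReal (Φ₃ y) := ((G1.continuous.mul (cs _ _ _)).mul
    ((stp_c1 _ _ _).continuous.mul (stp_c1 _ _ _).continuous)).measurable.ennreal_ofReal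
  have i0 : 0 ≤ ∫ w, ‖fderiv ℝ g w‖ := integral_nonneg fun _ => norm_nonneg _
  have i1 : 0 ≤ ∫ w, g w := integral_nonneg g3
  refine (lintegral_mono (g := fun y => ENNReal.ofReal (Φ₀ y) + ENNReal.ofReal (Φ₁ y) +
    ENNReal.ofReal (Φ₂ y) + ENNReal.ofReal (Φ₃ y)) fun y => ?_).trans ?_
  · refine le_trans (ENNReal.ofReal_le_ofReal ?_) (ENNReal.ofReal_add_le.trans (add_le_add_left
      (ENNReal.ofReal_add_le.trans (add_le_add_left ENNReal.ofReal_add_le _)) _))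
    have p0 := g3 (pj L y)
    have p1 : 0 ≤ S₁ y := stp_nonneg _ _ _ _
    have p2 : 0 ≤ S₂ y := stp_nonneg _ _ _ _
    have p4 : 0 ≤ S₃ y := stp_nonneg _ _ _ _
    have q0 := norm_fderiv_pj L g1 y
    have q1 := norm_fderiv_mul G1 (stp_c1 (vv p q (-κ) σ) η⁻¹ 2) p0 p1
    have q2 := norm_fderiv_mul (G1.mul (stp_c1 (vv p q (-κ) σ) η⁻¹ 2)) (stp_c1 (vv p q κ σ) η⁻¹ 2)
      (mul_nonneg p0 p1) p2
    have q3 := norm_fderiv_mul ((G1.mul (stp_c1 (vv p q (-κ) σ) η⁻¹ 2)).mul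
      (stp_c1 (vv p q κ σ) η⁻¹ 2)) (stp_c1 (vv p q 0 1) (-η⁻¹) (κ * τ / η + 2))
      (mul_nonneg (mul_nonneg p0 p1) p2) p4
    rw [stp_norm n1] at q1
    rw [stp_norm n2] at q2
    rw [stp_norm n3] at q3
    refine q3.trans ?_
    have r1 := q1.trans (add_le_add_left (mul_le_mul_of_nonneg_right q0 p1) _)
    have r2 := q2.trans (add_le_add_left (mul_le_mul_of_nonneg_right r1 p2) _)
    refine (add_le_add_left (mul_le_mul_of_nonneg_right r2 p4) _).trans_eq ?_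
    simp only [Φ₀, Φ₁, Φ₂, Φ₃, ← hS₁, ← hS₂]
    ring
  · rw [lintegral_add_right _ m3, lintegral_add_right _ m2, lintegral_add_right _ m1]
    refine (add_le_add (add_le_add (add_le_add b0 b1) b2) b3).trans_eq ?_
    have j1 : 0 ≤ σ * τ + 4 * η / κ - -(σ * τ + 4 * η / κ) := by
      rw [sub_neg_eq_add]; positivity
    have j2 : 0 ≤ κ * τ + 2 * η - -(2 * η / σ) := by rw [sub_neg_eq_add]; positivity
    have j3 := sub_nonneg.2 hle
    rw [← ENNReal.ofReal_add (by positivity) (by positivity),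
      ← ENNReal.ofReal_add (by positivity) (by positivity),
      ← ENNReal.ofReal_add (by positivity) (by positivity)]
    congr 1
    ring

theorem tf_one (h : Fr2 L p q) {σ κ τ η θ s : ℝ} (hσ : 0 < σ) (hκ : 0 < κ) (h1 : σ ^ 2 + κ ^ 2 = 1)
    (hη : 0 < η) (hs1 : s ≤ η) (hs2 : s ≤ θ) {g : F → ℝ} (g4 : ∀ w, ‖w‖ ≤ 1 + θ → g w = 1)
    {a : ℝ} (ha : a = σ ∨ a = -σ) {w : F} (hw : ‖w‖ < 1) {t : ℝ} (ht : 0 ≤ t) (ht' : t ≤ τ) {z : E}
    (hz : ‖z - (L w + t • vv p q a κ)‖ < s) : tf L p q g σ κ τ η z = 1 := by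
  obtain ⟨d, rfl⟩ : ∃ d, z = L w + t • vv p q a κ + d := ⟨_, (add_sub_cancel _ _).symm⟩
  rw [add_sub_cancel_left] at hz
  have hi : ∀ c e : ℝ, c ^ 2 + e ^ 2 = 1 → ∃ r, |r| ≤ η ∧
      ⟪vv p q c e, L w + t • vv p q a κ + d⟫_ℝ = t * (c * a + e * κ) + r := fun c e hce =>
    ⟨⟪vv p q c e, d⟫_ℝ, (abs_real_inner_le_norm _ _).trans (by rw [h.norm_vv hce]; linarith), by
      rw [inner_add_right, inner_add_right, h.inner_L, inner_smul_right, h.inner_vv, zero_add]⟩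
  have hs : ∀ c : ℝ, c ^ 2 + σ ^ 2 = 1 → 0 ≤ c * a + σ * κ →
      stp (vv p q c σ) η⁻¹ 2 (L w + t • vv p q a κ + d) = 1 := fun c hc h0 => by
    obtain ⟨r, h2, h3⟩ := hi c σ hc
    refine Real.smoothTransition.one_of_one_le ?_
    have h4 : -1 ≤ η⁻¹ * (t * (c * a + σ * κ) + r) := by
      rw [le_inv_mul_iff₀ hη]; linarith [neg_abs_le r, mul_nonneg ht h0]
    rw [h3]; linarith
  have hσκ := mul_pos hσ hκ
  have e0 : g (pj L (L w + t • vv p q a κ + d)) = 1 := by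
    refine g4 _ ?_
    rw [map_add, map_add, map_smul, pj_L, pj_orth L (h.inner_L _ _), smul_zero, add_zero]
    exact (norm_add_le _ _).trans (add_le_add hw.le ((norm_pj_le L d).trans (by linarith)))
  have e3 : stp (vv p q 0 1) (-η⁻¹) (κ * τ / η + 2) (L w + t • vv p q a κ + d) = 1 := by
    obtain ⟨r, h2, h3⟩ := hi 0 1 (by norm_num)
    refine Real.smoothTransition.one_of_one_le ?_
    have h4 : η⁻¹ * (t * (0 * a + 1 * κ) + r - κ * τ) ≤ 1 := by
      rw [inv_mul_le_iff₀ hη]; nlinarith [le_abs_self r]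
    rw [h3, div_eq_inv_mul]; linarith
  rw [tf, e0, e3, hs (-κ) (by linarith) (by rcases ha with rfl | rfl <;> nlinarith),
    hs κ (by linarith) (by rcases ha with rfl | rfl <;> nlinarith)]
  norm_num

theorem tri {n : ℕ} (hE : Module.finrank ℝ E = n + 1) {μ : Measure E} [IsFiniteMeasureOnCompacts μ]
    (hc : Cal μ) (hl : Low n μ) (h : Fr2 L p q) {σ κ : ℝ} (hσ : 0 < σ) (hκ : 0 < κ)
    (h1 : σ ^ 2 + κ ^ 2 = 1) (hs : ∀ a, a = σ ∨ a = -σ → ∀ w, ∀ t > (0 : ℝ),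
      L w + t • vv p q a κ ∈ μ.support) : False := by
  set B := (volume (ball (0 : F) 1)).toReal with hB
  have hBt : volume (ball (0 : F) 1) ≠ ⊤ := measure_ball_lt_top.ne
  have hB0 : 0 < B := ENNReal.toReal_pos (measure_ball_pos _ _ one_pos).ne' hBt
  have hF : Module.finrank ℝ (WithLp 2 (F × ℝ)) = n := by
    have := h.dim; rw [finrank_ext]; omega
  have k1 : ∀ θ ∈ Ioo (0 : ℝ) 1, 4 * (1 - θ) ≤ (1 + 2 * θ) ^ Module.finrank ℝ F * (2 + 2 * σ) := by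
    intro θ ⟨hθ, hθ1⟩
    let g : ContDiffBump (0 : F) := ⟨1 + θ, 1 + 2 * θ, by positivity, by linarith⟩
    have g4 : ∀ w, ‖w‖ ≤ 1 + θ → g w = 1 := fun w hw =>
      g.one_of_mem_closedBall (mem_closedBall_zero_iff.2 hw)
    have g5 : ∫ w, g w ≤ (1 + 2 * θ) ^ Module.finrank ℝ F * B := by
      refine (g.integral_le_measure_closedBall volume).trans_eq ?_
      rw [measureReal_def, Measure.addHaar_closedBall _ _ g.rOut_pos.le, ENNReal.toReal_mul,
        ENNReal.toReal_ofReal (pow_nonneg g.rOut_pos.le _)]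
    set D := ∫ w, ‖fderiv ℝ g w‖
    set G := ∫ w, g w
    have k2 : ∀ τ > (0 : ℝ), 4 * B * (1 - θ) ≤
        D * (2 * (σ + 4 * τ / κ)) * (κ * τ + 2 * τ ^ 2 + 2 * τ ^ 2 / σ) +
          G * (2 * (1 + 5 * τ / κ + 3 * τ / (σ * κ)) + 2 * (σ + 4 * τ / κ)) := by
      intro τ hτ
      obtain ⟨ψ1, ψ2, ψ3, ψ4⟩ := tf_upper h hσ hκ h1 hτ (pow_pos hτ 2) (g.contDiff (n := 1))
        g.hasCompactSupport g.nonneg'
      set ψ := tf L p q g σ κ τ (τ ^ 2) with hψ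
      set s := min (min (τ ^ 2) θ) (θ * τ * σ) with hs'
      have hs0 : 0 < s := by positivity
      have low : ∀ a, a = σ ∨ a = -σ → ∀ N : Set E, MeasurableSet N →
          (∀ z (w : F) (t : ℝ), ‖w‖ < 1 → t ∈ Icc (θ * τ) τ → ‖z - (L w + t • vv p q a κ)‖ < s →
            z ∈ N) → ENNReal.ofReal (B * (τ - θ * τ)) ≤ μ N := by
        intro a ha N hN hn
        have ha1 : a ^ 2 + κ ^ 2 = 1 := by rcases ha with rfl | rfl <;> linarith
        have hm : MeasurableSet (ball (0 : F) 1 ×ˢ Icc (θ * τ) τ) :=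
          measurableSet_ball.prod measurableSet_Icc
        refine le_trans (le_of_eq ?_) (lower hl hF (ext L _ (h.norm_vv ha1) (h.inner_L a κ))
          (A := WithLp.ofLp ⁻¹' (ball (0 : F) 1 ×ˢ Icc (θ * τ) τ))
          ((WithLp.volume_preserving_ofLp F ℝ).measurable hm)
          (fun u hu => hs a ha _ _ ((mul_pos hθ hτ).trans_le hu.2.1)) hs0 hN
          fun z u hu hz => hn z _ _ (mem_ball_zero_iff.1 hu.1) hu.2 hz)
        rw [(WithLp.volume_preserving_ofLp F ℝ).measure_preimage hm.nullMeasurableSet,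
          Measure.volume_eq_prod, Measure.prod_prod, Real.volume_Icc, ENNReal.ofReal_mul hB0.le,
          hB, ENNReal.ofReal_toReal hBt]
      have m1 : MeasurableSet {z | ψ z = 1} :=
        (isClosed_eq ψ1.continuous continuous_const).measurableSet
      have m2 : MeasurableSet {z : E | 0 < ⟪vv p q 1 0, z⟫_ℝ} :=
        (isOpen_lt continuous_const (by fun_prop)).measurableSet
      have one : ∀ a, a = σ ∨ a = -σ → ∀ z (w : F) (t : ℝ), ‖w‖ < 1 → t ∈ Icc (θ * τ) τ →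
          ‖z - (L w + t • vv p q a κ)‖ < s → ψ z = 1 ∧ |⟪vv p q 1 0, z⟫_ℝ - t * a| < t * σ := by
        intro a ha z w t hw ht hz
        refine ⟨tf_one h hσ hκ h1 (pow_pos hτ 2) ((min_le_left _ _).trans (min_le_left _ _))
          ((min_le_left _ _).trans (min_le_right _ _)) g4 ha hw
          ((mul_pos hθ hτ).le.trans ht.1) ht.2 hz, ?_⟩
        have e : ⟪vv p q 1 0, z⟫_ℝ - t * a = ⟪vv p q 1 0, z - (L w + t • vv p q a κ)⟫_ℝ := by
          rw [inner_sub_right, inner_add_right, h.inner_L, inner_smul_right, h.inner_vv]; ring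
        rw [e]
        refine (abs_real_inner_le_norm _ _).trans_lt ?_
        rw [h.norm_vv (by norm_num), one_mul]
        exact hz.trans_le ((min_le_right _ _).trans (mul_le_mul_of_nonneg_right ht.1 hσ.le))
      have l1 := low σ (Or.inl rfl) _ (m1.inter m2) fun z w t hw ht hz =>
        ⟨(one σ (Or.inl rfl) z w t hw ht hz).1, by
          have := (abs_lt.1 (one σ (Or.inl rfl) z w t hw ht hz).2).1
          change (0 : ℝ) < _; linarith⟩
      have l2 := low (-σ) (Or.inr rfl) _ (m1.diff m2) fun z w t hw ht hz =>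
        ⟨(one (-σ) (Or.inr rfl) z w t hw ht hz).1, by
          have := (abs_lt.1 (one (-σ) (Or.inr rfl) z w t hw ht hz).2).2
          change ¬ ((0 : ℝ) < _); linarith⟩
      have l3 := (add_le_add l1 l2).trans_eq (measure_inter_add_sdiff _ m2)
      have l4 : μ {z | ψ z = 1} ≤ ENNReal.ofReal (∫ y, ψ y ∂μ) := by
        rw [ofReal_integral_eq_lintegral_ofReal (ψ1.continuous.integrable_of_hasCompactSupport ψ2)
          (Eventually.of_forall ψ3), ← lintegral_indicator_one m1]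
        refine lintegral_mono fun z => ?_
        by_cases hz : z ∈ {z | ψ z = 1}
        · rw [indicator_of_mem hz, show ψ z = 1 from hz]; simp
        · rw [indicator_of_notMem hz]; exact zero_le
      have p0 : 0 ≤ B * (τ - θ * τ) := mul_nonneg hB0.le (by nlinarith)
      have l5 := l3.trans l4
      rw [← ENNReal.ofReal_add p0 p0,
        ENNReal.ofReal_le_ofReal_iff (integral_nonneg ψ3)] at l5
      have i0 : 0 ≤ D := integral_nonneg fun _ => norm_nonneg _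
      have i1 : 0 ≤ G := integral_nonneg g.nonneg'
      have l6 := (ENNReal.ofReal_le_ofReal_iff (by positivity)).1 ((hc.lint ψ1 ψ2 ψ3).trans ψ4)
      refine le_of_mul_le_mul_left ?_ hτ
      calc τ * (4 * B * (1 - θ)) = 2 * (B * (τ - θ * τ) + B * (τ - θ * τ)) := by ring
        _ ≤ _ := (mul_le_mul_of_nonneg_left l5 zero_le_two).trans l6
        _ = _ := by ring
    have k3 : Tendsto (fun τ : ℝ => D * (2 * (σ + 4 * τ / κ)) * (κ * τ + 2 * τ ^ 2 + 2 * τ ^ 2 / σ) +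
        G * (2 * (1 + 5 * τ / κ + 3 * τ / (σ * κ)) + 2 * (σ + 4 * τ / κ))) (𝓝[>] 0)
        (𝓝 (D * (2 * (σ + 4 * 0 / κ)) * (κ * 0 + 2 * 0 ^ 2 + 2 * 0 ^ 2 / σ) +
          G * (2 * (1 + 5 * 0 / κ + 3 * 0 / (σ * κ)) + 2 * (σ + 4 * 0 / κ)))) :=
      (Continuous.tendsto (by fun_prop) 0).mono_left nhdsWithin_le_nhds
    have k4 := ge_of_tendsto k3 (eventually_nhdsWithin_of_forall k2)
    have k5 : 4 * B * (1 - θ) ≤ G * (2 + 2 * σ) := by simpa using k4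
    refine le_of_mul_le_mul_left ?_ hB0
    have k6 := mul_le_mul_of_nonneg_right g5 (show 0 ≤ 2 + 2 * σ by positivity)
    linarith
  have k7 : Tendsto (fun θ : ℝ => (1 + 2 * θ) ^ Module.finrank ℝ F * (2 + 2 * σ) - 4 * (1 - θ))
      (𝓝[>] 0) (𝓝 ((1 + 2 * 0) ^ Module.finrank ℝ F * (2 + 2 * σ) - 4 * (1 - 0))) :=
    (Continuous.tendsto (by fun_prop) 0).mono_left nhdsWithin_le_nhds
  have k8 := ge_of_tendsto k7 (by
    filter_upwards [Ioo_mem_nhdsGT one_pos] with θ hθ using sub_nonneg.2 (k1 θ hθ))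
  have k9 : 1 ≤ σ := by
    simp only [mul_zero, add_zero, one_pow, one_mul, sub_zero] at k8
    linarith
  nlinarith

end Vale.Agent.P366L
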